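import Mathlib

/-!
# Second order Taylor bound with a Lipschitz second derivative
-/

open scoped NNReal

namespace Vale.Agent.P078.Sharp

lemma taylor2_bound {f f1 f2 : ℝ → ℝ} {s : Set ℝ} (hs : Convex ℝ s) {L : ℝ≥0}
    (h1 : ∀ x ∈ s, HasDerivWithinAt f (f1 x) s x) (h2 : ∀ x ∈ s, HasDerivWithinAt f1 (f2 x) s x)
    (hL : LipschitzOnWith L f2 s) {w v : ℝ} (hw : w ∈ s) (hv : w + v ∈ s) :
    |f (w + v) - f w - f1 w * v - f2 w * v ^ 2 / 2| ≤ L * |v| ^ 3 := by
  set I := Set.uIcc w (w + v) with hI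
  have hIs : I ⊆ s := by
    rw [hI, ← segment_eq_uIcc]; exact hs.segment_subset hw hv
  have hd : ∀ x ∈ I, |x - w| ≤ |v| := fun x hx => by
    have h := Set.abs_sub_left_of_mem_uIcc hx
    simpa using h
  have hwI : w ∈ I := Set.left_mem_uIcc
  have hvI : w + v ∈ I := Set.right_mem_uIcc
  have hcI : Convex ℝ I := convex_uIcc w (w + v)
  set φ1 : ℝ → ℝ := fun x => f1 x - f1 w - f2 w * (x - w) with hφ1
  have hφ1d : ∀ x ∈ I, HasDerivWithinAt φ1 (f2 x - f2 w) I x := fun x hx => by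
    have h := (((h2 x (hIs hx)).mono hIs).sub_const (f1 w)).fun_sub
      (((hasDerivWithinAt_id x I).sub_const w).const_mul (f2 w))
    simpa [hφ1] using h
  have hb2 : ∀ x ∈ I, ‖f2 x - f2 w‖ ≤ L * |v| := fun x hx => by
    refine (hL.norm_sub_le (hIs hx) hw).trans ?_
    rw [Real.norm_eq_abs]
    exact mul_le_mul_of_nonneg_left (hd x hx) L.2
  have hb1 : ∀ x ∈ I, ‖φ1 x‖ ≤ L * |v| * |v| := fun x hx => by
    have h := hcI.norm_image_sub_le_of_norm_hasDerivWithin_le hφ1d hb2 hwI hx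
    have e : φ1 w = 0 := by simp [hφ1]
    rw [e, sub_zero] at h
    refine h.trans ?_
    rw [Real.norm_eq_abs]
    exact mul_le_mul_of_nonneg_left (hd x hx) (by positivity)
  set φ : ℝ → ℝ := fun x => f x - f w - f1 w * (x - w) - f2 w / 2 * (x - w) ^ 2 with hφ
  have hφd : ∀ x ∈ I, HasDerivWithinAt φ (φ1 x) I x := fun x hx => by
    have h := ((((h1 x (hIs hx)).mono hIs).sub_const (f w)).fun_sub
      (((hasDerivWithinAt_id x I).sub_const w).const_mul (f1 w))).fun_sub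
      ((((hasDerivWithinAt_id x I).sub_const w).fun_pow 2).const_mul (f2 w / 2))
    refine h.congr_deriv ?_
    simp only [hφ1, id, mul_one, Nat.cast_ofNat]
    ring
  have h := hcI.norm_image_sub_le_of_norm_hasDerivWithin_le hφd hb1 hwI hvI
  have e : φ w = 0 := by simp [hφ]
  rw [e, sub_zero, Real.norm_eq_abs, Real.norm_eq_abs, add_sub_cancel_left] at h
  have e2 : φ (w + v) = f (w + v) - f w - f1 w * v - f2 w * v ^ 2 / 2 := by
    simp only [hφ, add_sub_cancel_left]; ring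
  rw [e2] at h
  refine h.trans_eq ?_
  ring

end Vale.Agent.P078.Sharp
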