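import Mathlib
import Vale.Agent.P078.Sharp.Taylor

/-!
# The profile of the two-sided walk

The profile is `f = (1 - 1/u) / S` with `u = 1 + K g`, where `g` is the identity minus a small
convex function. The curvature excess of `f` over the hyperbolic profile pays for the drift.
-/

set_option linter.unusedSectionVars false

namespace Vale.Agent.P078.Sharp

/-- Parameters of the two-sided walk. -/
structure Prm where
  r : ℕ
  e : ℝ
  θ : ℝ
  a : ℝ
  δ : ℝ
  νp : ℝ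

namespace Prm

variable (p : Prm)

/-- The bound on the cavity values of active colours. -/
noncomputable def S : ℝ := 1 + 28 * p.e

/-- The scale of the profile. -/
noncomputable def K : ℝ := 1 / (p.θ * p.e)

/-- The smallest active weight. -/
noncomputable def σ : ℝ := 1 / (100 * p.r)

/-- Weight of the logarithmic bonus. -/
noncomputable def ν2 : ℝ := 56320

/-- `(w + 1/K) / θ`. -/
noncomputable def z (w : ℝ) : ℝ := (w + 1 / p.K) / p.θ

/-- The fourth root of `z`. -/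
noncomputable def r4 (w : ℝ) : ℝ := p.z w ^ (1 / 4 : ℝ)

/-- First convex correction. -/
noncomputable def P1 (w : ℝ) : ℝ :=
  p.θ * (p.z w ^ (5 / 4 : ℝ) - p.z 0 ^ (5 / 4 : ℝ) - 5 / 4 * p.r4 0 * (p.z w - p.z 0))

/-- Derivative of `P1`. -/
noncomputable def dP1 (w : ℝ) : ℝ := 5 / 4 * (p.r4 w - p.r4 0)

/-- Second derivative of `P1`. -/
noncomputable def ddP1 (w : ℝ) : ℝ := 5 / 16 * p.r4 w / (w + 1 / p.K)

/-- Second convex correction. -/
noncomputable def P2 (w : ℝ) : ℝ := w - Real.log (1 + p.K * w) / p.K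

/-- Derivative of `P2`. -/
noncomputable def dP2 (w : ℝ) : ℝ := 1 - 1 / (1 + p.K * w)

/-- Second derivative of `P2`. -/
noncomputable def ddP2 (w : ℝ) : ℝ := p.K / (1 + p.K * w) ^ 2

/-- The inner profile. -/
noncomputable def g (w : ℝ) : ℝ := w - (p.P1 w + p.P2 w) / 16

/-- Derivative of `g`. -/
noncomputable def dg (w : ℝ) : ℝ := 1 - (p.dP1 w + p.dP2 w) / 16

/-- Second derivative of `g`. -/
noncomputable def ddg (w : ℝ) : ℝ := -((p.ddP1 w + p.ddP2 w) / 16)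

/-- `u = 1 + K g`. -/
noncomputable def u (w : ℝ) : ℝ := 1 + p.K * p.g w

/-- The profile. -/
noncomputable def f (w : ℝ) : ℝ := (1 - 1 / p.u w) / p.S

/-- Derivative of the profile. -/
noncomputable def df (w : ℝ) : ℝ := p.K * p.dg w / (p.S * p.u w ^ 2)

/-- Second derivative of the profile. -/
noncomputable def ddf (w : ℝ) : ℝ :=
  p.K / p.S * (p.ddg w / p.u w ^ 2 - 2 * p.K * p.dg w ^ 2 / p.u w ^ 3)

/-- `1 / f'`. -/
noncomputable def zeta (w : ℝ) : ℝ := p.S * p.u w ^ 2 / (p.K * p.dg w)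

/-- The curvature of the profile in its own variable. -/
noncomputable def curv (w : ℝ) : ℝ := -(p.ddf w * p.zeta w ^ 2) / 2

/-- The bonus. -/
noncomputable def N (w : ℝ) : ℝ := p.e * p.P1 w + ν2 / p.K * p.P2 w

/-- Derivative of the bonus. -/
noncomputable def dN (w : ℝ) : ℝ := p.e * p.dP1 w + ν2 / p.K * p.dP2 w

/-- Second derivative of the bonus. -/
noncomputable def ddN (w : ℝ) : ℝ := p.e * p.ddP1 w + ν2 / p.K * p.ddP2 w

/-- Clamping to the range of the weights. -/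
noncomputable def cl (x : ℝ) : ℝ := min (max x 0) (2 * p.θ)

/-- The domain of the profile. -/
def dom : Set ℝ := Set.Icc 0 (2 * p.θ)

/-- Conditions on the parameters. -/
structure Good : Prop where
  e_pos : 0 < p.e
  e_le : p.e ≤ 1 / 10000
  θ_pos : 0 < p.θ
  θ_le : p.θ ≤ 1 / 10 ^ 14
  a_pos : 0 < p.a
  δ_pos : 0 < p.δ
  νp_pos : 0 < p.νp
  r_ge : 4 ≤ p.r * (p.θ * p.e ^ 2)

variable {p}

section

variable (hp : p.Good)
include hp

lemma Good.K_pos : 0 < p.K := by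
  have := hp.e_pos; have := hp.θ_pos
  unfold K; positivity

lemma Good.one_div_K : 1 / p.K = p.θ * p.e := one_div_one_div _

lemma Good.K_mul_θ : p.K * p.θ = 1 / p.e := by
  have := hp.e_pos; have := hp.θ_pos
  unfold K; field_simp

lemma Good.one_le_S : 1 ≤ p.S := by
  have := hp.e_pos; unfold S; linarith

lemma Good.S_pos : 0 < p.S := lt_of_lt_of_le one_pos hp.one_le_S

lemma Good.S_le : p.S ≤ 1003 / 1000 := by
  have := hp.e_le; unfold S; linarith

lemma Good.r_pos : (0 : ℝ) < p.r := by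
  have := hp.r_ge; have := hp.e_pos; have := hp.θ_pos
  by_contra h
  nlinarith [mul_nonpos_of_nonpos_of_nonneg (not_lt.1 h) (by positivity : 0 ≤ p.θ * p.e ^ 2)]

lemma Good.σ_pos : 0 < p.σ := by
  have := hp.r_pos; unfold σ; positivity

lemma Good.σ_le : p.σ ≤ 1 / p.K := by
  have he := hp.e_pos; have := hp.θ_pos; have hr := hp.r_pos
  rw [hp.one_div_K, σ, div_le_iff₀ (by positivity)]
  nlinarith [hp.r_ge, mul_le_mul_of_nonneg_left (hp.e_le.trans (by norm_num : (1 : ℝ) / 10000 ≤ 1))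
    (by positivity : 0 ≤ (p.r : ℝ) * p.θ * p.e)]

lemma Good.r_inv_le : 1 / (p.r : ℝ) ≤ p.θ * p.e ^ 2 / 4 := by
  rw [div_le_iff₀ hp.r_pos]
  linarith [hp.r_ge]

lemma Good.one_div_K_le : 1 / p.K ≤ p.θ := by
  rw [hp.one_div_K]
  exact mul_le_of_le_one_right hp.θ_pos.le (hp.e_le.trans (by norm_num))

lemma cl_mem (x : ℝ) : p.cl x ∈ p.dom :=
  ⟨le_min (le_max_right _ _) (by linarith [hp.θ_pos]), min_le_right _ _⟩

lemma cl_eq {x : ℝ} (hx : x ∈ p.dom) : p.cl x = x := by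
  rw [cl, max_eq_left hx.1, min_eq_left hx.2]

lemma z_pos {w : ℝ} (hw : 0 ≤ w) : 0 < p.z w := by
  have := hp.K_pos; have := hp.θ_pos
  unfold z; positivity

lemma z_le {w : ℝ} (hw : w ∈ p.dom) : p.z w ≤ 3 := by
  rw [z, div_le_iff₀ hp.θ_pos]
  linarith [hw.2, hp.one_div_K_le]

lemma r4_nonneg {w : ℝ} (hw : 0 ≤ w) : 0 ≤ p.r4 w := Real.rpow_nonneg (z_pos hp hw).le _

lemma r4_mono {v w : ℝ} (hv : 0 ≤ v) (hvw : v ≤ w) : p.r4 v ≤ p.r4 w := by
  refine Real.rpow_le_rpow (z_pos hp hv).le ?_ (by norm_num)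
  exact div_le_div_of_nonneg_right (by linarith) hp.θ_pos.le

lemma r4_pow {w : ℝ} (hw : 0 ≤ w) : p.r4 w ^ 4 = p.z w := by
  rw [r4, ← Real.rpow_natCast, ← Real.rpow_mul (z_pos hp hw).le]
  norm_num

lemma r4_le {w : ℝ} (hw : w ∈ p.dom) : p.r4 w ≤ 4 / 3 := by
  have h0 := r4_nonneg hp hw.1
  have h := r4_pow hp hw.1
  have hz := z_le hp hw
  by_contra hc
  have : (4 / 3 : ℝ) ^ 4 < p.r4 w ^ 4 := pow_lt_pow_left₀ (not_le.1 hc) (by norm_num) (by norm_num)
  norm_num at this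
  linarith

lemma dP1_mem {w : ℝ} (hw : w ∈ p.dom) : 0 ≤ p.dP1 w ∧ p.dP1 w ≤ 5 / 3 := by
  have h1 := r4_mono hp le_rfl hw.1
  have h2 := r4_le hp hw
  have h3 := r4_nonneg hp (le_refl (0 : ℝ))
  unfold dP1
  constructor <;> linarith

lemma dP2_mem {w : ℝ} (hw : 0 ≤ w) : 0 ≤ p.dP2 w ∧ p.dP2 w ≤ 1 := by
  have := hp.K_pos
  have h : 1 ≤ 1 + p.K * w := by nlinarith
  unfold dP2
  constructor
  · rw [sub_nonneg, div_le_one (by linarith)]; linarith
  · rw [sub_le_self_iff]; positivity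

lemma ddP1_nonneg {w : ℝ} (hw : 0 ≤ w) : 0 ≤ p.ddP1 w := by
  have := hp.K_pos; have := r4_nonneg hp hw
  unfold ddP1; positivity

lemma ddP2_nonneg {w : ℝ} (hw : 0 ≤ w) : 0 ≤ p.ddP2 w := by
  have := hp.K_pos
  unfold ddP2; positivity

lemma hasDerivAt_z (w : ℝ) : HasDerivAt p.z (1 / p.θ) w := by
  exact (((hasDerivAt_id w).add_const (1 / p.K)).div_const p.θ)

lemma hasDerivAt_r4 {w : ℝ} (hw : 0 ≤ w) :
    HasDerivAt p.r4 (p.r4 w / (4 * (w + 1 / p.K))) w := by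
  have hz := z_pos hp hw
  refine ((hasDerivAt_z hp w).rpow_const (p := 1 / 4) (Or.inl hz.ne')).congr_deriv ?_
  have hK := hp.K_pos
  have hθ := hp.θ_pos
  have hwK : 0 < w + 1 / p.K := by positivity
  rw [Real.rpow_sub_one hz.ne', r4]
  have e : p.z w * p.θ = w + 1 / p.K := by rw [z]; field_simp
  rw [← e]
  field_simp

lemma hasDerivAt_P1 {w : ℝ} (hw : 0 ≤ w) : HasDerivAt p.P1 (p.dP1 w) w := by
  have hz := z_pos hp hw
  refine ((((hasDerivAt_z hp w).rpow_const (p := 5 / 4) (Or.inl hz.ne')).sub_const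
    (p.z 0 ^ (5 / 4 : ℝ))).sub (((hasDerivAt_z hp w).sub_const (p.z 0)).const_mul
      (5 / 4 * p.r4 0)) |>.const_mul p.θ).congr_deriv ?_
  have := hp.θ_pos
  rw [dP1, r4, show (5 / 4 : ℝ) - 1 = 1 / 4 by norm_num]
  field_simp
  simp only [r4]
  try ring

lemma hasDerivAt_dP1 {w : ℝ} (hw : 0 ≤ w) : HasDerivAt p.dP1 (p.ddP1 w) w := by
  refine (((hasDerivAt_r4 hp hw).sub_const (p.r4 0)).const_mul (5 / 4)).congr_deriv ?_
  have hK := hp.K_pos
  have : 0 < w + 1 / p.K := by positivity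
  rw [ddP1]; field_simp; ring

lemma hasDerivAt_lin (w : ℝ) : HasDerivAt (fun x => 1 + p.K * x) p.K w := by
  simpa using ((hasDerivAt_id w).const_mul p.K).const_add (1 : ℝ)

lemma hasDerivAt_P2 {w : ℝ} (hw : 0 ≤ w) : HasDerivAt p.P2 (p.dP2 w) w := by
  have hK := hp.K_pos
  have h1 : 0 < 1 + p.K * w := by positivity
  refine ((hasDerivAt_id w).sub (((hasDerivAt_lin hp w).log h1.ne').div_const p.K)).congr_deriv ?_
  rw [dP2]; field_simp

lemma hasDerivAt_dP2 {w : ℝ} (hw : 0 ≤ w) : HasDerivAt p.dP2 (p.ddP2 w) w := by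
  have hK := hp.K_pos
  have h1 : 0 < 1 + p.K * w := by positivity
  have h := ((hasDerivAt_lin hp w).fun_inv h1.ne').const_sub (1 : ℝ)
  have e : p.dP2 = fun x => 1 - (1 + p.K * x)⁻¹ := by funext x; rw [dP2, one_div]
  rw [e]
  refine h.congr_deriv ?_
  rw [ddP2]; ring

lemma hasDerivAt_g {w : ℝ} (hw : 0 ≤ w) : HasDerivAt p.g (p.dg w) w :=
  (hasDerivAt_id w).sub (((hasDerivAt_P1 hp hw).add (hasDerivAt_P2 hp hw)).div_const 16)

lemma hasDerivAt_dg {w : ℝ} (hw : 0 ≤ w) : HasDerivAt p.dg (p.ddg w) w :=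
  (((hasDerivAt_dP1 hp hw).add (hasDerivAt_dP2 hp hw)).div_const 16).const_sub 1

lemma dg_mem {w : ℝ} (hw : w ∈ p.dom) : 13 / 16 ≤ p.dg w ∧ p.dg w ≤ 1 := by
  have h1 := dP1_mem hp hw
  have h2 := dP2_mem hp hw.1
  unfold dg
  constructor <;> linarith

lemma g_mem {w : ℝ} (hw : w ∈ p.dom) : 13 / 16 * w ≤ p.g w ∧ p.g w ≤ w := by
  have hd : ∀ x ∈ p.dom, HasDerivWithinAt p.g (p.dg x) p.dom x := fun x hx =>
    (hasDerivAt_g hp hx.1).hasDerivWithinAt
  have h0 : p.g 0 = 0 := by simp [g, P1, P2]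
  have hc : ContinuousOn p.g p.dom := fun x hx => (hd x hx).continuousWithinAt
  have hint : interior p.dom ⊆ p.dom := interior_subset
  have m1 : MonotoneOn (fun x => p.g x - 13 / 16 * x) p.dom := by
    refine monotoneOn_of_hasDerivWithinAt_nonneg (convex_Icc _ _) (hc.sub (by fun_prop))
      (f' := fun x => p.dg x - 13 / 16) (fun x hx => ?_) fun x hx => by
        linarith [(dg_mem hp (hint hx)).1]
    exact ((hd x (hint hx)).mono hint).sub (by simpa using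
      ((hasDerivWithinAt_id x (interior p.dom)).const_mul (13 / 16 : ℝ)))
  have m2 : MonotoneOn (fun x => x - p.g x) p.dom := by
    refine monotoneOn_of_hasDerivWithinAt_nonneg (convex_Icc _ _) (continuousOn_id.sub hc)
      (f' := fun x => 1 - p.dg x) (fun x hx => ?_) fun x hx => by
        linarith [(dg_mem hp (hint hx)).2]
    exact (hasDerivWithinAt_id x _).sub ((hd x (hint hx)).mono hint)
  have h00 : (0 : ℝ) ∈ p.dom := ⟨le_rfl, by linarith [hp.θ_pos]⟩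
  have a1 := m1 h00 hw hw.1
  have a2 := m2 h00 hw hw.1
  simp only [h0] at a1 a2
  constructor <;> linarith

lemma u_mem {w : ℝ} (hw : w ∈ p.dom) :
    1 + 13 / 16 * (p.K * w) ≤ p.u w ∧ p.u w ≤ 1 + p.K * w := by
  obtain ⟨h1, h2⟩ := g_mem hp hw
  have hK := hp.K_pos
  unfold u
  constructor <;> nlinarith

lemma one_le_u {w : ℝ} (hw : w ∈ p.dom) : 1 ≤ p.u w := by
  have := (u_mem hp hw).1
  have := mul_nonneg hp.K_pos.le hw.1
  linarith

lemma hasDerivAt_u {w : ℝ} (hw : 0 ≤ w) : HasDerivAt p.u (p.K * p.dg w) w :=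
  ((hasDerivAt_g hp hw).const_mul p.K).const_add 1

lemma hasDerivAt_f {w : ℝ} (hw : w ∈ p.dom) : HasDerivAt p.f (p.df w) w := by
  have hu : p.u w ≠ 0 := (lt_of_lt_of_le one_pos (one_le_u hp hw)).ne'
  have h := (((hasDerivAt_u hp hw.1).fun_inv hu).const_sub (1 : ℝ)).div_const p.S
  have e : p.f = fun x => (1 - (p.u x)⁻¹) / p.S := by funext x; rw [f, one_div]
  rw [e]
  refine h.congr_deriv ?_
  rw [df]; ring

lemma hasDerivAt_df {w : ℝ} (hw : w ∈ p.dom) : HasDerivAt p.df (p.ddf w) w := by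
  have hu : p.u w ≠ 0 := (lt_of_lt_of_le one_pos (one_le_u hp hw)).ne'
  have hS := hp.S_pos.ne'
  have h := (((hasDerivAt_dg hp hw.1).const_mul p.K).div
    (((hasDerivAt_u hp hw.1).fun_pow 2).const_mul p.S) (mul_ne_zero hS (pow_ne_zero 2 hu)))
  refine h.congr_deriv ?_
  rw [ddf]
  field_simp
  norm_num
  ring

lemma hasDerivAt_N {w : ℝ} (hw : 0 ≤ w) : HasDerivAt p.N (p.dN w) w :=
  ((hasDerivAt_P1 hp hw).const_mul p.e).add ((hasDerivAt_P2 hp hw).const_mul _)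

lemma hasDerivAt_dN {w : ℝ} (hw : 0 ≤ w) : HasDerivAt p.dN (p.ddN w) w :=
  ((hasDerivAt_dP1 hp hw).const_mul p.e).add ((hasDerivAt_dP2 hp hw).const_mul _)

lemma ν2_div_K_le : ν2 / p.K ≤ p.e := by
  rw [div_eq_mul_one_div, hp.one_div_K]
  have := hp.θ_le
  have := hp.e_pos
  unfold ν2
  nlinarith

lemma dN_mem {w : ℝ} (hw : w ∈ p.dom) : 0 ≤ p.dN w ∧ p.dN w ≤ 3 * p.e := by
  have h1 := dP1_mem hp hw
  have h2 := dP2_mem hp hw.1
  have h3 := ν2_div_K_le hp
  have h4 : 0 ≤ ν2 / p.K := by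
    have := hp.K_pos
    unfold ν2; positivity
  have := hp.e_pos
  unfold dN
  constructor
  · nlinarith
  · nlinarith

lemma ddN_nonneg {w : ℝ} (hw : 0 ≤ w) : 0 ≤ p.ddN w := by
  have := ddP1_nonneg hp hw
  have := ddP2_nonneg hp hw
  have := hp.e_pos
  have := hp.K_pos
  unfold ddN ν2
  positivity

lemma N_mem {w : ℝ} (hw : w ∈ p.dom) : 0 ≤ p.N w ∧ p.N w ≤ 3 * p.e * w := by
  have hd : ∀ x ∈ p.dom, HasDerivWithinAt p.N (p.dN x) p.dom x := fun x hx =>
    (hasDerivAt_N hp hx.1).hasDerivWithinAt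
  have h0 : p.N 0 = 0 := by simp [N, P1, P2]
  have hc : ContinuousOn p.N p.dom := fun x hx => (hd x hx).continuousWithinAt
  have hint : interior p.dom ⊆ p.dom := interior_subset
  have m1 : MonotoneOn p.N p.dom :=
    monotoneOn_of_hasDerivWithinAt_nonneg (convex_Icc _ _) hc
      (fun x hx => (hd x (hint hx)).mono hint) fun x hx => (dN_mem hp (hint hx)).1
  have m2 : MonotoneOn (fun x => 3 * p.e * x - p.N x) p.dom := by
    refine monotoneOn_of_hasDerivWithinAt_nonneg (convex_Icc _ _)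
      ((continuousOn_const.mul continuousOn_id).sub hc)
      (f' := fun x => 3 * p.e - p.dN x) (fun x hx => ?_) fun x hx => by
        linarith [(dN_mem hp (hint hx)).2]
    have h := (hasDerivWithinAt_id x (interior p.dom)).const_mul (3 * p.e)
    rw [mul_one] at h
    exact h.sub ((hd x (hint hx)).mono hint)
  have h00 : (0 : ℝ) ∈ p.dom := ⟨le_rfl, by linarith [hp.θ_pos]⟩
  have a1 := m1 h00 hw hw.1
  have a2 := m2 h00 hw hw.1
  simp only [h0] at a1 a2
  constructor <;> linarith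

lemma f_mem {w : ℝ} (hw : w ∈ p.dom) :
    0 ≤ p.f w ∧ p.f w * p.S = 1 - 1 / p.u w ∧ p.f w ≤ 1 / p.S := by
  have hu := one_le_u hp hw
  have hS := hp.S_pos
  have h1 : 1 / p.u w ≤ 1 := by rw [div_le_one (by linarith)]; exact hu
  have h2 : 0 ≤ 1 / p.u w := by positivity
  refine ⟨div_nonneg (by linarith) hS.le, ?_, ?_⟩
  · rw [f]; field_simp
  · rw [f]; exact div_le_div_of_nonneg_right (by linarith) hS.le

lemma f_le_K_mul {w : ℝ} (hw : w ∈ p.dom) : p.f w ≤ p.K * w := by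
  obtain ⟨h0, h1, -⟩ := f_mem hp hw
  have hu := one_le_u hp hw
  have h2 : 1 - 1 / p.u w ≤ p.u w - 1 := by
    rw [sub_le_iff_le_add, ← sub_le_iff_le_add', le_div_iff₀ (by linarith)]
    nlinarith
  nlinarith [(u_mem hp hw).2, hp.one_le_S]

lemma zeta_ge {w : ℝ} (hw : w ∈ p.dom) : 1 / p.K ≤ p.zeta w := by
  have hK := hp.K_pos
  obtain ⟨d1, d2⟩ := dg_mem hp hw
  have hu := one_le_u hp hw
  unfold zeta
  rw [div_le_div_iff₀ hK (by nlinarith)]
  have : 1 ≤ p.S * p.u w ^ 2 := one_le_mul_of_one_le_of_one_le hp.one_le_S (one_le_pow₀ hu)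
  nlinarith

lemma df_mul_zeta {w : ℝ} (hw : w ∈ p.dom) : p.df w * p.zeta w = 1 := by
  have hK := hp.K_pos
  have hd : 0 < p.dg w := by linarith [(dg_mem hp hw).1]
  have hu : 0 < p.u w := by linarith [one_le_u hp hw]
  have hS := hp.S_pos
  unfold df zeta
  field_simp

/-- The curvature exceeds that of the hyperbolic profile. -/
lemma curv_ge {w : ℝ} (hw : w ∈ p.dom) :
    p.S * p.u w * (1 + (p.r4 w / 128 + 1 / (40 * (1 + p.K * w)))) ≤ p.curv w := by
  have hK := hp.K_pos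
  obtain ⟨d1, d2⟩ := dg_mem hp hw
  have hd : 0 < p.dg w := by linarith
  have hu := one_le_u hp hw
  have hu0 : 0 < p.u w := by linarith
  have hS := hp.S_pos
  have hKw : 0 ≤ p.K * w := mul_nonneg hK.le hw.1
  have hr := r4_nonneg hp hw.1
  have e : p.curv w = p.S * p.u w * (1 + -p.ddg w * p.u w / (2 * p.K * p.dg w ^ 2)) := by
    unfold curv ddf zeta
    field_simp
    ring
  rw [e]
  refine mul_le_mul_of_nonneg_left (add_le_add le_rfl ?_) (by positivity)
  have h1 : 13 / 16 * (1 + p.K * w) ≤ p.u w := by linarith [(u_mem hp hw).1]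
  have hn : 0 ≤ -p.ddg w := by
    unfold ddg
    linarith [ddP1_nonneg hp hw.1, ddP2_nonneg hp hw.1]
  have h2 : -p.ddg w * (13 / 16 * (1 + p.K * w)) / (2 * p.K) ≤
      -p.ddg w * p.u w / (2 * p.K * p.dg w ^ 2) := by
    rw [div_le_div_iff₀ (by positivity) (by positivity)]
    have : p.dg w ^ 2 ≤ 1 := pow_le_one₀ hd.le d2
    have h3 : -p.ddg w * (13 / 16 * (1 + p.K * w)) * p.dg w ^ 2 ≤ -p.ddg w * p.u w := by
      calc _ ≤ -p.ddg w * (13 / 16 * (1 + p.K * w)) * 1 :=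
            mul_le_mul_of_nonneg_left this (by positivity)
        _ ≤ _ := by rw [mul_one]; exact mul_le_mul_of_nonneg_left h1 hn
    nlinarith
  refine le_trans ?_ h2
  have e1 : p.ddP1 w * (1 + p.K * w) / p.K = 5 / 16 * p.r4 w := by
    have hne : w + 1 / p.K ≠ 0 := by have := hw.1; positivity
    unfold ddP1
    have : w * p.K + 1 ≠ 0 := by nlinarith [hw.1]
    rw [show 1 + p.K * w = p.K * (w + 1 / p.K) by field_simp; ring]
    field_simp
  have e2 : p.ddP2 w * (1 + p.K * w) / p.K = 1 / (1 + p.K * w) := by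
    unfold ddP2
    field_simp
  have e3 : -p.ddg w * (13 / 16 * (1 + p.K * w)) / (2 * p.K) =
      13 / 512 * (p.ddP1 w * (1 + p.K * w) / p.K + p.ddP2 w * (1 + p.K * w) / p.K) := by
    unfold ddg; ring
  rw [e3, e1, e2]
  have h4 : 1 / (40 * (1 + p.K * w)) = 1 / 40 * (1 / (1 + p.K * w)) := by
    rw [div_mul_div_comm, one_mul]
  rw [h4]
  have : 0 ≤ 1 / (1 + p.K * w) := by positivity
  linarith

lemma contDiffAt_z (w : ℝ) : ContDiffAt ℝ 1 p.z w := by
  unfold z; fun_prop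

lemma contDiffAt_r4 {w : ℝ} (hw : 0 ≤ w) : ContDiffAt ℝ 1 p.r4 w :=
  (contDiffAt_z hp w).rpow_const_of_ne (z_pos hp hw).ne'

lemma contDiffAt_P1 {w : ℝ} (hw : 0 ≤ w) : ContDiffAt ℝ 1 p.P1 w := by
  have h := (contDiffAt_z hp w).rpow_const_of_ne (p := 5 / 4) (z_pos hp hw).ne'
  have := contDiffAt_z hp w
  unfold P1
  fun_prop

lemma contDiffAt_P2 {w : ℝ} (hw : 0 ≤ w) : ContDiffAt ℝ 1 p.P2 w := by
  have := hp.K_pos
  have h : (1 + p.K * w) ≠ 0 := by positivity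
  have hl : ContDiffAt ℝ 1 (fun x => Real.log (1 + p.K * x)) w :=
    ContDiffAt.log (by fun_prop) h
  unfold P2
  fun_prop

lemma contDiffAt_ddP1 {w : ℝ} (hw : 0 ≤ w) : ContDiffAt ℝ 1 p.ddP1 w := by
  have := hp.K_pos
  have h := contDiffAt_r4 hp hw
  have hne : w + 1 / p.K ≠ 0 := by positivity
  exact (contDiffAt_const.mul h).div (by fun_prop) hne

lemma contDiffAt_ddP2 {w : ℝ} (hw : 0 ≤ w) : ContDiffAt ℝ 1 p.ddP2 w := by
  have := hp.K_pos
  exact contDiffAt_const.div (by fun_prop) (pow_ne_zero 2 (by positivity : (1 + p.K * w) ≠ 0))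

lemma contDiffAt_dg {w : ℝ} (hw : 0 ≤ w) : ContDiffAt ℝ 1 p.dg w := by
  have := hp.K_pos
  have h1 := contDiffAt_r4 hp hw
  have h2 : ContDiffAt ℝ 1 p.dP2 w :=
    contDiffAt_const.sub (contDiffAt_const.div (by fun_prop) (by positivity))
  have h3 : ContDiffAt ℝ 1 p.dP1 w := by unfold dP1; fun_prop
  unfold dg
  fun_prop

lemma contDiffAt_u {w : ℝ} (hw : 0 ≤ w) : ContDiffAt ℝ 1 p.u w := by
  have h1 := contDiffAt_P1 hp hw
  have h2 := contDiffAt_P2 hp hw
  unfold u g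
  fun_prop

lemma contDiffAt_ddg {w : ℝ} (hw : 0 ≤ w) : ContDiffAt ℝ 1 p.ddg w := by
  have h1 := contDiffAt_ddP1 hp hw
  have h2 := contDiffAt_ddP2 hp hw
  unfold ddg
  fun_prop

lemma contDiffAt_ddf {w : ℝ} (hw : w ∈ p.dom) : ContDiffAt ℝ 1 p.ddf w := by
  have hu : p.u w ≠ 0 := (lt_of_lt_of_le one_pos (one_le_u hp hw)).ne'
  have h1 := contDiffAt_dg hp hw.1
  have h2 := contDiffAt_u hp hw.1
  have h3 := contDiffAt_ddg hp hw.1
  exact contDiffAt_const.mul ((h3.div (h2.pow 2) (pow_ne_zero 2 hu)).sub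
    (((contDiffAt_const.mul (h1.pow 2))).div (h2.pow 3) (pow_ne_zero 3 hu)))

lemma contDiffAt_ddN {w : ℝ} (hw : 0 ≤ w) : ContDiffAt ℝ 1 p.ddN w := by
  have h1 := contDiffAt_ddP1 hp hw
  have h2 := contDiffAt_ddP2 hp hw
  unfold ddN
  fun_prop

lemma continuous_cl : Continuous p.cl := by
  have := hp.θ_pos
  unfold cl; fun_prop

/-- Continuity after clamping. -/
lemma continuous_comp_cl {h : ℝ → ℝ} (hh : ∀ w ∈ p.dom, ContinuousAt h w) :
    Continuous fun x => h (p.cl x) :=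
  ContinuousOn.comp_continuous (fun w hw => (hh w hw).continuousWithinAt) (continuous_cl hp)
    (cl_mem hp)

lemma continuousAt_f {w : ℝ} (hw : w ∈ p.dom) : ContinuousAt p.f w :=
  (hasDerivAt_f hp hw).continuousAt

lemma continuousAt_zeta {w : ℝ} (hw : w ∈ p.dom) : ContinuousAt p.zeta w := by
  have hd : p.K * p.dg w ≠ 0 :=
    mul_ne_zero hp.K_pos.ne' (by linarith [(dg_mem hp hw).1])
  exact (continuousAt_const.mul ((contDiffAt_u hp hw.1).continuousAt.pow 2)).div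
    (continuousAt_const.mul (contDiffAt_dg hp hw.1).continuousAt) hd

lemma continuousAt_curv {w : ℝ} (hw : w ∈ p.dom) : ContinuousAt p.curv w :=
  (((contDiffAt_ddf hp hw).continuousAt.mul ((continuousAt_zeta hp hw).pow 2)).neg).div_const 2

/-- Expansions of the profile and of the bonus. -/
lemma exists_taylor : ∃ L : ℝ, 0 ≤ L ∧ ∀ w v : ℝ, w ∈ p.dom → w + v ∈ p.dom →
    |p.f (w + v) - p.f w - p.df w * v - p.ddf w * v ^ 2 / 2| ≤ L * |v| ^ 3 ∧
    |p.N (w + v) - p.N w - p.dN w * v - p.ddN w * v ^ 2 / 2| ≤ L * |v| ^ 3 := by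
  have hcd1 : ContDiffOn ℝ 1 p.ddf p.dom := fun w hw => (contDiffAt_ddf hp hw).contDiffWithinAt
  have hcd2 : ContDiffOn ℝ 1 p.ddN p.dom := fun w hw => (contDiffAt_ddN hp hw.1).contDiffWithinAt
  obtain ⟨L1, hL1⟩ := hcd1.exists_lipschitzOnWith one_ne_zero (convex_Icc _ _) isCompact_Icc
  obtain ⟨L2, hL2⟩ := hcd2.exists_lipschitzOnWith one_ne_zero (convex_Icc _ _) isCompact_Icc
  refine ⟨L1 + L2, by positivity, fun w v hw hv => ⟨?_, ?_⟩⟩
  · refine (taylor2_bound (convex_Icc _ _) (fun x hx => (hasDerivAt_f hp hx).hasDerivWithinAt)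
      (fun x hx => (hasDerivAt_df hp hx).hasDerivWithinAt) hL1 hw hv).trans ?_
    exact mul_le_mul_of_nonneg_right (le_add_of_nonneg_right L2.2) (by positivity)
  · refine (taylor2_bound (convex_Icc _ _) (fun x hx => (hasDerivAt_N hp hx.1).hasDerivWithinAt)
      (fun x hx => (hasDerivAt_dN hp hx.1).hasDerivWithinAt) hL2 hw hv).trans ?_
    exact mul_le_mul_of_nonneg_right (le_add_of_nonneg_left L1.2) (by positivity)

end

end Prm

end Vale.Agent.P078.Sharp
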