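import Mathlib
import Vale.Agent.P078.Sharp.Profile

/-!
# The bands of the two-sided walk
-/

set_option linter.unusedSectionVars false

namespace Vale.Agent.P078.Sharp

namespace Prm

variable (p : Prm)

lemma exists_nb : ∃ n : ℕ, p.K * p.θ < (16 : ℝ) ^ n := pow_unbounded_of_one_lt _ (by norm_num)

open Classical in
/-- The number of bands above the first one. -/
noncomputable def nb : ℕ := Nat.find p.exists_nb

/-- The band levels. -/
noncomputable def lev : ℕ → ℝ
  | 0 => p.σ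
  | k + 1 => (16 : ℝ) ^ k / p.K

/-- The size `(w/θ)^(1/4)` of a band. -/
noncomputable def rb (k : ℕ) : ℝ := (1 / 2 : ℝ) ^ (p.nb - k)

/-- Bound on the off-diagonal part in a band. -/
noncomputable def β (k : ℕ) : ℝ := if k = 0 then p.S else 16000 * p.e

/-- Share of the cross term in a band. -/
noncomputable def mm (k : ℕ) : ℝ := if k = 0 then 1 / 200 else p.rb k / 1024

/-- Margin in a band. -/
noncomputable def ηb (k : ℕ) (x : ℝ) : ℝ :=
  if k = 0 then 64 * p.cl x else p.rb k ^ 2 / 10 ^ 9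

/-- Weight of a band in the count. -/
noncomputable def pwt (k : ℕ) : ℝ := if k = 0 then 1 / 2 else p.rb k / 4

variable {p}

section

variable (hp : p.Good)
include hp

lemma one_le_Kθ : 1 ≤ p.K * p.θ := by
  rw [hp.K_mul_θ, le_div_iff₀ hp.e_pos]
  linarith [hp.e_le]

lemma lt_pow_nb : p.K * p.θ < (16 : ℝ) ^ p.nb := by
  classical
  exact Nat.find_spec p.exists_nb

lemma pow_nb_le : (16 : ℝ) ^ p.nb ≤ 16 * (p.K * p.θ) := by
  classical
  rcases Nat.eq_zero_or_pos p.nb with h | h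
  · rw [h, pow_zero]; linarith [one_le_Kθ hp]
  · obtain ⟨j, hj⟩ := Nat.exists_eq_succ_of_ne_zero h.ne'
    have hlt : ¬ p.K * p.θ < (16 : ℝ) ^ j := Nat.find_min p.exists_nb (by
      show j < p.nb
      omega)
    rw [hj, pow_succ]
    linarith [not_lt.1 hlt]

lemma rb_pos (k : ℕ) : 0 < p.rb k := by unfold rb; positivity

lemma rb_le_one (k : ℕ) : p.rb k ≤ 1 := pow_le_one₀ (by norm_num) (by norm_num)

lemma rb_pow (k : ℕ) : p.rb k ^ 4 = ((16 : ℝ) ^ (p.nb - k))⁻¹ := by
  rw [rb, ← pow_mul, mul_comm, pow_mul, ← inv_pow]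
  norm_num

lemma rb_pow_bounds {k : ℕ} (hk : k ≤ p.nb) :
    p.θ * p.rb k ^ 4 ≤ (16 : ℝ) ^ k / p.K ∧ (16 : ℝ) ^ k / p.K ≤ 16 * (p.θ * p.rb k ^ 4) := by
  have hK := hp.K_pos
  have h1 := lt_pow_nb hp
  have h2 := pow_nb_le hp
  have e : (16 : ℝ) ^ k * (16 : ℝ) ^ (p.nb - k) = (16 : ℝ) ^ p.nb := by
    rw [← pow_add, Nat.add_sub_cancel' hk]
  rw [rb_pow hp]
  have hpos : (0 : ℝ) < (16 : ℝ) ^ (p.nb - k) := by positivity
  constructor
  · rw [← div_eq_mul_inv, div_le_div_iff₀ hpos hK, e]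
    linarith
  · rw [← div_eq_mul_inv, mul_div_assoc', div_le_div_iff₀ hK hpos, e]
    linarith

lemma lev_nonneg (k : ℕ) : 0 ≤ p.lev k := by
  have := hp.σ_pos; have := hp.K_pos
  cases k <;> simp only [lev] <;> positivity

lemma σ_le_lev (k : ℕ) : p.σ ≤ p.lev k := by
  cases k with
  | zero => exact le_rfl
  | succ k =>
    refine hp.σ_le.trans (div_le_div_of_nonneg_right (one_le_pow₀ (by norm_num)) hp.K_pos.le)

lemma θ_lt_lev_last : p.θ < p.lev (p.nb + 1) := by
  rw [lev, lt_div_iff₀ hp.K_pos, mul_comm]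
  exact lt_pow_nb hp

/-- Facts in the first band. -/
lemma band_zero {w : ℝ} (h1 : w ≤ p.lev 1) : p.K * w ≤ 1 := by
  rw [lev, pow_zero, le_div_iff₀ hp.K_pos, mul_comm] at h1
  exact h1

/-- Facts in the higher bands. -/
lemma band_succ {w : ℝ} {k : ℕ} (hk : k + 1 ≤ p.nb) (h0 : p.lev (k + 1) ≤ w)
    (h1 : w ≤ p.lev (k + 2)) : 1 ≤ p.K * w ∧ p.θ * (p.rb (k + 1) / 2) ^ 4 ≤ w ∧
      w ≤ 16 * (p.θ * p.rb (k + 1) ^ 4) := by
  have hK := hp.K_pos
  obtain ⟨a1, a2⟩ := rb_pow_bounds hp hk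
  simp only [lev] at h0 h1
  refine ⟨?_, ?_, h1.trans a2⟩
  · rw [div_le_iff₀ hK, mul_comm] at h0
    exact (one_le_pow₀ (by norm_num : (1 : ℝ) ≤ 16)).trans h0
  · have e : (16 : ℝ) ^ (k + 1) / p.K = 16 * ((16 : ℝ) ^ k / p.K) := by ring
    rw [e] at a1
    rw [div_pow]
    linarith

lemma β_pos (k : ℕ) : 0 < p.β k := by
  have := hp.e_pos; have := hp.S_pos
  unfold β; split_ifs <;> positivity

lemma mm_pos (k : ℕ) : 0 < p.mm k := by
  have := rb_pos hp k
  unfold mm; split_ifs <;> positivity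

lemma ηb_mem (k : ℕ) (x : ℝ) : 0 ≤ p.ηb k x ∧ p.ηb k x ≤ 1 := by
  have h := cl_mem hp x
  have h0 := h.1
  have h1 := h.2
  have := hp.θ_le
  have := rb_pos hp k
  have := rb_le_one hp k
  unfold ηb; split_ifs
  · constructor <;> linarith
  · refine ⟨by positivity, ?_⟩
    rw [div_le_one (by positivity)]
    nlinarith

lemma continuous_ηb (k : ℕ) : Continuous (p.ηb k) := by
  unfold ηb
  split_ifs
  · exact continuous_const.mul (continuous_cl hp)
  · exact continuous_const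

lemma pwt_pos (k : ℕ) : 0 < p.pwt k := by
  have := rb_pos hp k
  unfold pwt; split_ifs <;> positivity

lemma sum_rb_le : ∑ k ∈ Finset.range (p.nb + 1), p.rb k ≤ 2 := by
  have h := Finset.sum_range_reflect (fun j => (1 / 2 : ℝ) ^ j) (p.nb + 1)
  simp only [Nat.add_sub_cancel] at h
  unfold rb
  rw [h]
  exact sum_geometric_two_le _

lemma sum_pwt_le : ∑ k ∈ Finset.range (p.nb + 1), p.pwt k ≤ 1 := by
  have h : ∀ k ∈ Finset.range (p.nb + 1), p.pwt k ≤ (if k = 0 then 1 / 2 else 0) + p.rb k / 4 := by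
    intro k _
    have := rb_pos hp k
    unfold pwt; split_ifs <;> linarith
  refine (Finset.sum_le_sum h).trans ?_
  rw [Finset.sum_add_distrib, ← Finset.sum_div, Finset.sum_ite_eq' (Finset.range (p.nb + 1)) 0,
    if_pos (by simp)]
  linarith [sum_rb_le hp]

/-- The margin inequality in a band. -/
lemma margin_band {w : ℝ} (hw : w ∈ p.dom) {k : ℕ} (hk : k ≤ p.nb) (h0 : p.lev k ≤ w)
    (h1 : w ≤ p.lev (k + 1)) :
    (1 + p.ηb k w) * (1 + p.mm k) ≤ 1 + (p.r4 w / 128 + 1 / (40 * (1 + p.K * w))) := by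
  have hr := r4_nonneg hp hw.1
  have hK := hp.K_pos
  have hKw : 0 ≤ p.K * w := mul_nonneg hK.le hw.1
  cases k with
  | zero =>
    have hb := band_zero hp h1
    have h2 : 1 / 80 ≤ 1 / (40 * (1 + p.K * w)) := by
      rw [div_le_div_iff₀ (by norm_num) (by positivity)]; linarith
    have hθ := hp.θ_le
    simp only [ηb, mm, if_true, cl_eq hp hw]
    have := hw.2
    nlinarith
  | succ k =>
    obtain ⟨-, hlo, -⟩ := band_succ hp hk h0 h1
    have hr4 : p.rb (k + 1) / 2 ≤ p.r4 w := by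
      refine le_of_pow_le_pow_left₀ (n := 4) (by norm_num) hr ?_
      rw [r4_pow hp hw.1, z, le_div_iff₀ hp.θ_pos]
      have : 0 ≤ 1 / p.K := by positivity
      linarith
    have hb1 := rb_le_one hp (k + 1)
    have hb0 := rb_pos hp (k + 1)
    simp only [ηb, mm, Nat.succ_ne_zero, if_false]
    have h2 : 0 ≤ 1 / (40 * (1 + p.K * w)) := by positivity
    have h3 : p.rb (k + 1) ^ 2 ≤ p.rb (k + 1) := by
      rw [sq]; exact mul_le_of_le_one_right hb0.le hb1
    nlinarith [mul_le_mul_of_nonneg_left hb1 (by positivity : 0 ≤ p.rb (k + 1) ^ 2)]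

/-- The bonus pays for the squared linear term in a band. -/
lemma bonus_band {w : ℝ} (hw : w ∈ p.dom) {k : ℕ} (hk : k ≤ p.nb) (h0 : p.lev k ≤ w)
    (h1 : w ≤ p.lev (k + 1)) : p.ηb k w * p.β k ≤ p.ddN w * (p.mm k * w) := by
  have hK := hp.K_pos
  have he := hp.e_pos
  have hKw : 0 ≤ p.K * w := mul_nonneg hK.le hw.1
  have hP1 := ddP1_nonneg hp hw.1
  have hP2 := ddP2_nonneg hp hw.1
  cases k with
  | zero =>
    have hb := band_zero hp h1
    have h2 : ν2 / 4 ≤ p.ddN w := by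
      have e : ν2 / p.K * p.ddP2 w = ν2 / (1 + p.K * w) ^ 2 := by
        unfold ddP2; field_simp
      have h3 : ν2 / 4 ≤ ν2 / (1 + p.K * w) ^ 2 :=
        div_le_div_of_nonneg_left (by norm_num [ν2]) (by positivity) (by nlinarith)
      unfold ddN
      rw [e]
      nlinarith
    simp only [ηb, mm, β, if_true, cl_eq hp hw]
    unfold ν2 at h2
    have hS := hp.S_le
    have h3 := mul_le_mul_of_nonneg_right h2 (mul_nonneg (by norm_num : (0 : ℝ) ≤ 1 / 200) hw.1)
    have h4 := mul_le_mul_of_nonneg_left hS hw.1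
    linarith [hw.1]
  | succ k =>
    obtain ⟨hKw1, hlo, -⟩ := band_succ hp hk h0 h1
    have hw0 : 0 < w := by
      have := hp.σ_pos.trans_le ((σ_le_lev hp (k + 1)).trans h0)
      exact this
    have hr4 : p.rb (k + 1) / 2 ≤ p.r4 w := by
      refine le_of_pow_le_pow_left₀ (n := 4) (by norm_num) (r4_nonneg hp hw.1) ?_
      rw [r4_pow hp hw.1, z, le_div_iff₀ hp.θ_pos]
      have : 0 ≤ 1 / p.K := by positivity
      linarith
    have hb0 := rb_pos hp (k + 1)
    have h2 : 5 / 64 * p.rb (k + 1) * p.e ≤ p.ddN w * w := by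
      have h3 : p.e * p.ddP1 w ≤ p.ddN w := by
        unfold ddN
        have : 0 ≤ ν2 / p.K := by unfold ν2; positivity
        nlinarith
      refine le_trans ?_ (mul_le_mul_of_nonneg_right h3 hw.1)
      have h4 : 5 / 16 * (p.rb (k + 1) / 2) / 2 ≤ p.ddP1 w * w := by
        have h5 : w + 1 / p.K ≤ 2 * w := by
          have : 1 / p.K ≤ w := by rw [div_le_iff₀ hK]; linarith
          linarith
        unfold ddP1
        rw [div_mul_eq_mul_div (5 / 16 * p.r4 w) (w + 1 / p.K) w, le_div_iff₀ (by positivity)]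
        calc 5 / 16 * (p.rb (k + 1) / 2) / 2 * (w + 1 / p.K)
            ≤ 5 / 16 * (p.rb (k + 1) / 2) / 2 * (2 * w) :=
              mul_le_mul_of_nonneg_left h5 (by positivity)
          _ ≤ 5 / 16 * p.r4 w * w := by
              have := mul_le_mul_of_nonneg_right hr4 hw.1
              linarith
      have := mul_le_mul_of_nonneg_left h4 he.le
      linarith
    simp only [ηb, mm, β, Nat.succ_ne_zero, if_false]
    have h5 := mul_le_mul_of_nonneg_left h2 (by positivity : 0 ≤ p.rb (k + 1) / 1024)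
    have h6 : 0 ≤ p.rb (k + 1) ^ 2 * p.e := by positivity
    linarith

end

end Prm

end Vale.Agent.P078.Sharp
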