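import Mathlib
import Vale.Agent.P078.Dir

/-!
# The direction lemma with a variable margin

As `Vale.Agent.P078.Dir`, with the constant margin `η` replaced by an element `lo = 1/(1+η)` of the
MASA, and with the diagonal bound required only below the colour projections.
-/

open scoped ComplexOrder InnerProductSpace Topology
open Filter

set_option linter.unusedSectionVars false

namespace Vale.Agent.P078.Sharp

universe u

variable {M : Type u} [CStarAlgebra M] [PartialOrder M] [StarOrderedRing M]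

open TracialMasa hiding DirData

variable {T : TracialMasa M}

/-- Data for the direction lemma. -/
structure DirData (T : TracialMasa M) (r : ℕ) where
  j : Fin r → M
  alive : M
  z : Fin r → M
  p : Fin r → M
  lo : Fin r → M
  K : Fin r → (T.L2A →L[ℂ] T.L2A)
  P : Fin r → (T.L2A →L[ℂ] T.L2A)
  R : Fin r → (T.L2A →L[ℂ] T.L2A)


/-- Hypotheses of the direction lemma. -/
structure DirData.Valid {r : ℕ} (D : DirData T r) (Kb z0 μ0 : ℝ) : Prop where
  j_mem : ∀ c, D.j c ∈ T.A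
  j_proj : ∀ c, IsStarProjection (D.j c)
  alive_mem : D.alive ∈ T.A
  alive_proj : IsStarProjection D.alive
  mass : μ0 ≤ T.tr D.alive
  lo_mem : ∀ c, D.lo c ∈ T.A
  lo_nonneg : ∀ c, 0 ≤ D.lo c
  count : T.tr D.alive + μ0 ≤ ∑ c, T.tr (D.j c * (1 - D.lo c))
  z_mem : ∀ c, D.z c ∈ T.A
  z_ge : ∀ c, z0 • (1 : M) ≤ D.z c
  p_mem : ∀ c, D.p c ∈ T.A
  p_nonneg : ∀ c, 0 ≤ D.p c
  p_le : ∀ c, ‖D.p c‖ ≤ Kb
  P_nonneg : ∀ c, 0 ≤ D.P c
  P_mem : ∀ c, D.P c ∈ T.opAlg
  P_diag : ∀ c, ∀ f ∈ T.A, 0 ≤ f → f * D.j c = f →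
    T.omr (T.mul f * D.P c) ≤ T.tr (f * (D.lo c * D.p c))
  K_mem : ∀ c, D.K c ∈ T.opAlg
  K_alive : ∀ c, T.mul D.alive * D.K c = D.K c
  K_norm : ∀ c, ‖D.K c‖ ≤ Kb
  K_lift : ∀ c, T.Lift (D.K c) Kb
  K_lift' : ∀ c, T.Lift (star (D.K c)) Kb
  dom : ∀ c, ∀ B ∈ T.opAlg, T.mul (D.j c) * B = B → T.omr (star B * D.R c * B) ≤
    T.omr (star B * D.P c * B) - T.omr (star B * T.mul (D.p c) * B)

/-- The quadratic form of the walk. -/
noncomputable def DirData.quad {r : ℕ} (D : DirData T r) (νp : ℝ) (Y : Fin r → T.L2A) : ℝ :=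
  (∑ c, (⟪Y c, D.R c (Y c)⟫_ℂ).re) + ‖∑ c, D.K c (Y c)‖ ^ 2 -
    νp * ∑ c, ‖T.mul (D.z c) (Y c)‖ ^ 2

lemma DirData.quad_parallelogram {r : ℕ} (D : DirData T r) (νp : ℝ) (X Y : Fin r → T.L2A) :
    D.quad νp (X + Y) + D.quad νp (X - Y) = 2 * D.quad νp X + 2 * D.quad νp Y := by
  have h1 : ∀ c, (⟪(X + Y) c, D.R c ((X + Y) c)⟫_ℂ).re + (⟪(X - Y) c, D.R c ((X - Y) c)⟫_ℂ).re =
      2 * (⟪X c, D.R c (X c)⟫_ℂ).re + 2 * (⟪Y c, D.R c (Y c)⟫_ℂ).re := fun c => by
    simp only [Pi.add_apply, Pi.sub_apply, map_add, map_sub, inner_add_left, inner_add_right,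
      inner_sub_left, inner_sub_right, Complex.add_re, Complex.sub_re]
    ring
  have h2 := parallelogram_law_with_norm ℂ (∑ c, D.K c (X c)) (∑ c, D.K c (Y c))
  have h3 : ∀ c, ‖T.mul (D.z c) ((X + Y) c)‖ ^ 2 + ‖T.mul (D.z c) ((X - Y) c)‖ ^ 2 =
      2 * ‖T.mul (D.z c) (X c)‖ ^ 2 + 2 * ‖T.mul (D.z c) (Y c)‖ ^ 2 := fun c => by
    have := parallelogram_law_with_norm ℂ (T.mul (D.z c) (X c)) (T.mul (D.z c) (Y c))
    simp only [Pi.add_apply, Pi.sub_apply, map_add, map_sub]
    nlinarith [this]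
  have e1 := Finset.sum_congr rfl (fun c (_ : c ∈ Finset.univ) => h1 c)
  have e3 := Finset.sum_congr rfl (fun c (_ : c ∈ Finset.univ) => h3 c)
  simp only [Finset.sum_add_distrib, ← Finset.mul_sum] at e1 e3
  have e4 : ∀ Z W : Fin r → T.L2A,
      ∑ c, D.K c ((Z + W) c) = (∑ c, D.K c (Z c)) + ∑ c, D.K c (W c) := fun Z W => by
    simp [map_add, Finset.sum_add_distrib]
  have e5 : ∑ c, D.K c ((X - Y) c) = (∑ c, D.K c (X c)) - ∑ c, D.K c (Y c) := by
    simp [map_sub, Finset.sum_sub_distrib]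
  simp only [quad, e4, e5]
  linear_combination e1 - νp * e3 + h2

/-- The final arithmetic of the direction lemma. -/
lemma negativity {r : ℕ} {D : DirData T r} {Kb z0 μ0 νp δ Dm c0 : ℝ} (_hKb : 0 ≤ Kb) (hz0 : 0 < z0)
    (hνp : 0 < νp) (hD : D.Valid Kb z0 μ0)
    (B : Fin r → Fin r → (T.L2A →L[ℂ] T.L2A)) (hBm : ∀ c d, B c d ∈ T.opAlg)
    (hJB : ∀ c d, T.mul (D.j c) * B c d = B c d)
    {L : Fin r → ℝ}
    (hPb : ∀ c, ∑ d, T.omr (star (B c d) * D.P c * B c d) ≤ T.tr (D.j c * D.lo c))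
    (hpb : ∀ c, ∑ d, T.omr (star (B c d) * T.mul (D.p c + δ • 1) * B c d) = T.tr (D.j c) - L c)
    (hloss : ∑ c, L c ≤ T.tr D.alive)
    (hresid : ∑ d, T.omr (star (∑ c, D.K c * B c d) * ∑ c, D.K c * B c d) ≤ c0)
    (hδ : δ = νp * z0 ^ 2 / 4) (hDm0 : 0 < Dm) (hDm : Dm = Kb + δ) (hμ0 : 0 < μ0)
    (hc0 : c0 = νp * z0 ^ 2 * μ0 / (4 * Dm)) :
    (∑ c, ∑ d, T.omr (star (B c d) * D.R c * B c d)) +
      (∑ d, T.omr (star (∑ c, D.K c * B c d) * ∑ c, D.K c * B c d)) -
      νp * (∑ c, ∑ d, T.omr (star (B c d) * T.mul (D.z c * D.z c) * B c d)) ≤ -c0 := by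
  have hδ0 : 0 < δ := by rw [hδ]; positivity
  set pp : Fin r → M := fun c => D.p c + δ • 1 with hpp
  set N : ℝ := ∑ c, T.tr (D.j c) with hN
  have hG : ∀ c, z0 ^ 2 * (∑ d, T.omr (star (B c d) * 1 * B c d)) ≤
      ∑ d, T.omr (star (B c d) * T.mul (D.z c * D.z c) * B c d) := fun c => by
    rw [Finset.mul_sum]
    refine Finset.sum_le_sum fun d _ => ?_
    rw [← omr_smul]
    refine omr_mono ?_
    rw [← smul_mul_assoc, ← mul_smul_comm]
    refine star_left_conjugate_le_conjugate ?_ _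
    rw [← T.mul_one', ← mul_real_smul]
    refine mul_mono' ?_
    have hzs : IsSelfAdjoint (D.z c) := by
      have := IsSelfAdjoint.of_nonneg (sub_nonneg.2 (hD.z_ge c))
      simpa using this.add ((IsSelfAdjoint.all z0).smul (.one M))
    have hzz : IsSelfAdjoint (D.z c * D.z c) := (IsSelfAdjoint.commute_iff hzs hzs).1 rfl
    refine le_of_val (T.real_smul_mem_A (one_mem _) _) (mul_mem (hD.z_mem c) (hD.z_mem c))
      ((IsSelfAdjoint.all _).smul (.one M)) hzz fun χ => ?_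
    rw [val_smul_one, val_mul χ (hD.z_mem c) (hD.z_mem c) hzs]
    have := val_mono χ (T.real_smul_mem_A (one_mem _) z0) (hD.z_mem c) (hD.z_ge c)
    rw [val_smul_one] at this
    nlinarith
  have hD1 : ∀ c, ∑ d, T.omr (star (B c d) * T.mul (pp c) * B c d) ≤
      Dm * ∑ d, T.omr (star (B c d) * 1 * B c d) := fun c => by
    rw [Finset.mul_sum]
    refine Finset.sum_le_sum fun d _ => ?_
    rw [← omr_smul]
    refine omr_mono ?_
    rw [← smul_mul_assoc, ← mul_smul_comm]
    refine star_left_conjugate_le_conjugate ?_ _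
    rw [← T.mul_one', ← mul_real_smul]
    refine mul_mono' ?_
    rw [hpp, hDm, add_smul]
    refine add_le_add ((le_norm_smul_one (IsSelfAdjoint.of_nonneg (hD.p_nonneg c))).trans ?_) le_rfl
    exact smul_le_smul_of_nonneg_right (hD.p_le c) zero_le_one
  have hsplit : ∀ c, ∑ d, T.omr (star (B c d) * T.mul (D.p c) * B c d) =
      ∑ d, T.omr (star (B c d) * T.mul (pp c) * B c d) -
        δ * ∑ d, T.omr (star (B c d) * 1 * B c d) := fun c => by
    rw [Finset.mul_sum, ← Finset.sum_sub_distrib]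
    refine Finset.sum_congr rfl fun d _ => ?_
    rw [hpp, T.mul_add', mul_real_smul, T.mul_one', mul_add, add_mul, omr_add, mul_smul_comm,
      smul_mul_assoc, omr_smul]
    ring
  have hR' : ∀ c, ∑ d, T.omr (star (B c d) * D.R c * B c d) ≤
      T.tr (D.j c * D.lo c) - (T.tr (D.j c) - L c -
        δ * ∑ d, T.omr (star (B c d) * 1 * B c d)) := fun c => by
    refine (Finset.sum_le_sum fun d _ => hD.dom c _ (hBm c d) (hJB c d)).trans ?_
    rw [Finset.sum_sub_distrib, hsplit, hpp, hpb]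
    linarith [hPb c]
  set D1 : ℝ := ∑ c, ∑ d, T.omr (star (B c d) * 1 * B c d) with hD1def
  have hD10 : 0 ≤ D1 := Finset.sum_nonneg fun c _ => Finset.sum_nonneg fun d _ => by
    rw [mul_one]; exact omr_nonneg (star_mul_self_nonneg _)
  have hsum1 := Finset.sum_le_sum (fun c (_ : c ∈ Finset.univ) => hR' c)
  simp only [Finset.sum_sub_distrib, ← Finset.mul_sum]
    at hsum1
  have hsum2 := Finset.sum_le_sum (fun c (_ : c ∈ Finset.univ) => hD1 c)
  simp only [hpp, hpb, Finset.sum_sub_distrib, ← Finset.mul_sum]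
    at hsum2
  have hsum3 := Finset.sum_le_sum (fun c (_ : c ∈ Finset.univ) => hG c)
  simp only [← Finset.mul_sum] at hsum3
  have hN1 : T.tr D.alive + μ0 ≤ N - ∑ c, T.tr (D.j c * D.lo c) := by
    refine hD.count.trans_eq ?_
    rw [hN, ← Finset.sum_sub_distrib]
    simp only [mul_sub, mul_one, T.tr_sub]
  have hlo : 0 ≤ ∑ c, T.tr (D.j c * D.lo c) := Finset.sum_nonneg fun c _ =>
    T.tr_mul_nonneg (hD.j_proj c).nonneg (hD.lo_nonneg c)
  have hL0 : μ0 ≤ N - (∑ c, L c) := by linarith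
  have hDlow : μ0 ≤ Dm * D1 := hL0.trans hsum2
  have hmain : ∑ c, ∑ d, T.omr (star (B c d) * D.R c * B c d) ≤ 2 * δ * D1 := by
    refine hsum1.trans ?_
    linarith [mul_nonneg hδ0.le hD10]
  have hc : 2 * c0 ≤ νp * z0 ^ 2 / 2 * D1 := by
    rw [hc0, show 2 * (νp * z0 ^ 2 * μ0 / (4 * Dm)) = νp * z0 ^ 2 / 2 * (μ0 / Dm) by
      field_simp; ring]
    exact mul_le_mul_of_nonneg_left ((div_le_iff₀' hDm0).2 hDlow) (by positivity)
  have : νp * (z0 ^ 2 * D1) ≤ νp * ∑ c, ∑ d,
      T.omr (star (B c d) * T.mul (D.z c * D.z c) * B c d) :=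
    mul_le_mul_of_nonneg_left hsum3 hνp.le
  rw [hδ] at hmain
  linarith

variable (hT : T.OmCyclic)
include hT

/-- The operator-level construction: a finite family of operators on which the form is negative. -/
lemma DirData.exists_ops (r : ℕ) {Kb z0 μ0 νp : ℝ} (hKb : 0 ≤ Kb) (hz0 : 0 < z0)
    (hμ0 : 0 < μ0) (hνp : 0 < νp) :
    ∃ C c0 : ℝ, 0 ≤ C ∧ 0 < c0 ∧
      ∀ D : DirData T r, D.Valid Kb z0 μ0 →
        ∃ B : Fin r → Fin r → (T.L2A →L[ℂ] T.L2A),
          (∀ c d, T.mul (D.j c) * B c d = B c d) ∧ (∀ c d, T.Lift (B c d) C) ∧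
          (∑ c, ∑ d, T.omr (star (B c d) * D.R c * B c d)) +
            (∑ d, T.omr (star (∑ c, D.K c * B c d) * ∑ c, D.K c * B c d)) -
            νp * (∑ c, ∑ d, T.omr (star (B c d) * T.mul (D.z c * D.z c) * B c d)) ≤ -c0 := by
  set δ : ℝ := νp * z0 ^ 2 / 4 with hδ
  have hδ0 : 0 < δ := by positivity
  set v0 : ℝ := (Real.sqrt δ)⁻¹ with hv0
  have hv00 : 0 ≤ v0 := by positivity
  set Dm : ℝ := Kb + δ with hDm
  have hDm0 : 0 < Dm := by positivity
  set Λ : ℝ := (r : ℝ) * (Kb * v0) ^ 2 + 1 with hΛ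
  have hΛ1 : 1 ≤ Λ := by
    have : 0 ≤ (r : ℝ) * (Kb * v0) ^ 2 := by positivity
    linarith
  set c0 : ℝ := νp * z0 ^ 2 * μ0 / (4 * Dm) with hc0
  have hc00 : 0 < c0 := by positivity
  obtain ⟨n, hn⟩ : ∃ n : ℕ, Λ / c0 < n := exists_nat_gt _
  have hn0 : 0 < n := by
    rcases Nat.eq_zero_or_pos n with h | h
    · subst h; simp only [Nat.cast_zero] at hn
      linarith [div_pos (lt_of_lt_of_le one_pos hΛ1) hc00]
    · exact h
  refine ⟨v0 * (1 + Kb * v0 * (2 : ℝ) ^ n * (Kb * v0)), c0, by positivity, hc00,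
    fun D hD => ?_⟩
  -- the weights
  set pp : Fin r → M := fun c => D.p c + δ • 1 with hpp
  have hex := fun c => exists_weight (T := T) (hD.p_mem c) (hD.p_nonneg c) hδ0
  choose v hvA hvs hvn hvv using hex
  have hppA : ∀ c, pp c ∈ T.A := fun c => add_mem (hD.p_mem c) (T.real_smul_mem_A (one_mem _) _)
  set V : Fin r → (T.L2A →L[ℂ] T.L2A) := fun c => T.mul (v c) with hV
  set J : Fin r → (T.L2A →L[ℂ] T.L2A) := fun c => T.mul (D.j c) with hJ
  set K' : Fin r → (T.L2A →L[ℂ] T.L2A) := fun c => D.K c * V c * J c with hK'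
  have hJs : ∀ c, star (J c) = J c := fun c =>
    (isSelfAdjoint_mul' (hD.j_proj c).isSelfAdjoint).star_eq
  have hVs : ∀ c, star (V c) = V c := fun c => (isSelfAdjoint_mul' (hvs c)).star_eq
  have hJJ : ∀ c, J c * J c = J c := fun c => by
    rw [hJ, ← T.mul_mul' (hD.j_mem c) (hD.j_mem c), (hD.j_proj c).isIdempotentElem.eq]
  have hJV : ∀ c, J c * V c = V c * J c := fun c => mul_comm' (hD.j_mem c) (hvA c)
  have hK'J : ∀ c, K' c * J c = K' c := fun c => by
    rw [hK', mul_assoc, hJJ]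
  have hJK' : ∀ c, J c * star (K' c) = star (K' c) := fun c => by
    have := congrArg star (hK'J c)
    rwa [star_mul, hJs] at this
  have hK'n : ∀ c, ‖K' c‖ ≤ Kb * v0 := fun c => by
    refine (norm_mul_le _ _).trans ?_
    refine (mul_le_of_le_one_right (norm_nonneg _) ?_).trans ((norm_mul_le _ _).trans ?_)
    · exact (T.norm_mul_le' _).trans (hD.j_proj c).norm_le
    · exact mul_le_mul (hD.K_norm c) ((T.norm_mul_le' _).trans (hvn c)) (norm_nonneg _) hKb
  have hK'm : ∀ c, K' c ∈ T.opAlg := fun c =>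
    mul_mem (mul_mem (hD.K_mem c) (T.mul_mem_opAlg _)) (T.mul_mem_opAlg _)
  set S : T.L2A →L[ℂ] T.L2A := ∑ c, K' c * star (K' c) with hS
  have hSm : S ∈ T.opAlg := sum_mem fun c _ => mul_mem (hK'm c) (star_mem (hK'm c))
  have hS0 : 0 ≤ S := Finset.sum_nonneg fun c _ => mul_star_self_nonneg _
  have hSn : ‖S‖ ≤ Λ := by
    refine (norm_sum_le _ _).trans ?_
    calc ∑ c, ‖K' c * star (K' c)‖ ≤ ∑ _c : Fin r, (Kb * v0) ^ 2 :=
          Finset.sum_le_sum fun c _ => by
            rw [CStarRing.norm_self_mul_star, sq]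
            exact mul_le_mul (hK'n c) (hK'n c) (norm_nonneg _) (by positivity)
      _ ≤ Λ := by rw [Finset.sum_const, Finset.card_univ, Fintype.card_fin, nsmul_eq_mul]; linarith
  set s : T.L2A →L[ℂ] T.L2A := Λ⁻¹ • S with hs
  have hs0 : 0 ≤ s := smul_nonneg (by positivity) hS0
  have hs1 : s ≤ 1 := by
    have hsn : ‖s‖ ≤ 1 := by
      rw [hs, norm_smul, norm_inv, Real.norm_of_nonneg (by linarith),
        inv_mul_le_iff₀ (by linarith), mul_one]
      exact hSn
    exact (CStarAlgebra.norm_le_one_iff_of_nonneg s hs0).1 hsn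
  have hsm : s ∈ T.opAlg := by
    rw [hs, ← Complex.coe_smul]; exact T.opAlg.smul_mem hSm _
  have hSs : S = Λ • s := by rw [hs, smul_smul, mul_inv_cancel₀ (by linarith), one_smul]
  set R : T.L2A →L[ℂ] T.L2A := 1 - s with hR
  have hRm : R ∈ T.opAlg := sub_mem (one_mem _) hsm
  have hR0 : 0 ≤ R := sub_nonneg.2 hs1
  set g : T.L2A →L[ℂ] T.L2A := Λ⁻¹ • ∑ i ∈ Finset.range n, R ^ i with hg
  set h : T.L2A →L[ℂ] T.L2A := Λ⁻¹ • ∑ i ∈ Finset.range (2 * n), R ^ i with hh
  have hgs : star g = g := by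
    have hRs : IsSelfAdjoint R := IsSelfAdjoint.of_nonneg hR0
    rw [hg, star_smul, star_trivial, star_sum]
    simp only [star_pow, hRs.star_eq]
  have hh0 : 0 ≤ h := smul_nonneg (by positivity)
    (Finset.sum_nonneg fun i _ => cstar_pow_nonneg hR0 i)
  have hhm : h ∈ T.opAlg := by
    rw [hh, ← Complex.coe_smul]
    exact T.opAlg.smul_mem (sum_mem fun i _ => pow_mem hRm i) _
  obtain ⟨hSg, hgSg⟩ := geom_facts s (Λ := Λ) (by linarith) n
  obtain ⟨hSh, -⟩ := geom_facts s (Λ := Λ) (by linarith) (2 * n)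
  rw [← hSs, ← hg, ← hR] at hSg
  rw [← hSs, ← hR, ← hg, ← hh] at hgSg
  rw [← hSs, ← hR, ← hh] at hSh
  -- the operators
  set B : Fin r → Fin r → (T.L2A →L[ℂ] T.L2A) := corrOp V J K' g with hB
  have hJB : ∀ c d, J c * B c d = B c d := mul_corrOp hJJ hJV hJK'
  have hBm : ∀ c d, B c d ∈ T.opAlg := fun c d => by
    have hgm : g ∈ T.opAlg := by
      rw [hg, ← Complex.coe_smul]
      exact T.opAlg.smul_mem (sum_mem fun i _ => pow_mem hRm i) _
    refine mul_mem (T.mul_mem_opAlg _)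
      (sub_mem ?_ (mul_mem (mul_mem (star_mem (hK'm c)) hgm) (hK'm d)))
    split_ifs
    · exact T.mul_mem_opAlg _
    · exact zero_mem _
  have hH : ∀ c, ∑ d, B c d * star (B c d) =
      V c * J c * V c - V c * star (K' c) * h * (K' c * V c) := fun c => by
    rw [hB, sum_corrOp_mul_star hJJ hJs hVs hJK' hK'J hgs c, ← hS, hgSg]
  have hW0 : ∀ c, 0 ≤ V c * star (K' c) * h * (K' c * V c) := fun c => by
    have : star (K' c * V c) = V c * star (K' c) :=
      (star_mul (K' c) (V c)).trans (by rw [hVs])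
    rw [← this]; exact star_left_conjugate_nonneg hh0 _
  have hWm : ∀ c, V c * star (K' c) * h * (K' c * V c) ∈ T.opAlg := fun c =>
    mul_mem (mul_mem (mul_mem (T.mul_mem_opAlg _) (star_mem (hK'm c))) hhm)
      (mul_mem (hK'm c) (T.mul_mem_opAlg _))
  -- the sum over the sources
  have hsum : ∀ c, ∀ X ∈ T.opAlg, ∑ d, T.omr (star (B c d) * X * B c d) =
      T.omr (X * (V c * J c * V c)) - T.omr (X * (V c * star (K' c) * h * (K' c * V c))) := by
    intro c X hX
    rw [← omr_sub, ← mul_sub, ← hH c, Finset.mul_sum, omr_sum]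
    exact Finset.sum_congr rfl fun d _ => omr_conj_comm hT (hBm c d) hX
  have hVJV : ∀ c, V c * J c * V c = T.mul (v c * D.j c * v c) := fun c => by
    rw [T.mul_mul' (mul_mem (hvA c) (hD.j_mem c)) (hvA c), T.mul_mul' (hvA c) (hD.j_mem c)]
  set N : ℝ := ∑ c, T.tr (D.j c) with hN
  have hPb : ∀ c, ∑ d, T.omr (star (B c d) * D.P c * B c d) ≤ T.tr (D.j c * D.lo c) := fun c => by
    rw [hsum c _ (hD.P_mem c)]
    refine (sub_le_self _ (omr_mul_nonneg hT (hD.P_nonneg c) (hW0 c) (hD.P_mem c) (hWm c))).trans ?_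
    rw [omr_mul_comm hT (hD.P_mem c) (mul_mem (mul_mem (T.mul_mem_opAlg _) (T.mul_mem_opAlg _))
      (T.mul_mem_opAlg _)), hVJV]
    have hf : 0 ≤ v c * D.j c * v c := (hvs c).conjugate_nonneg (hD.j_proj c).nonneg
    have hfA : v c * D.j c * v c ∈ T.A := mul_mem (mul_mem (hvA c) (hD.j_mem c)) (hvA c)
    have hfj : v c * D.j c * v c * D.j c = v c * D.j c * v c := by
      calc v c * D.j c * v c * D.j c = v c * D.j c * (v c * D.j c) := mul_assoc _ _ _
        _ = v c * D.j c * (D.j c * v c) := congrArg (v c * D.j c * ·) (T.A_comm _ (hvA c) _ (hD.j_mem c))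
        _ = v c * (D.j c * D.j c) * v c := by noncomm_ring
        _ = v c * D.j c * v c := by rw [(hD.j_proj c).isIdempotentElem.eq]
    refine (hD.P_diag c _ hfA hf hfj).trans ?_
    have hle : D.p c ≤ pp c := le_add_of_nonneg_right (smul_nonneg hδ0.le zero_le_one)
    rw [← mul_assoc]
    refine (T.tr_mul_mono_right
      (mul_nonneg_A hfA (hD.lo_mem c) hf (hD.lo_nonneg c)) hle).trans_eq ?_
    congr 1
    rw [mul_assoc _ (D.lo c) (pp c), T.A_comm _ (hD.lo_mem c) _ (hppA c), ← mul_assoc]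
    refine congrArg (· * D.lo c) ?_
    rw [T.A_comm _ (hvA c) _ (hD.j_mem c), mul_assoc, mul_assoc,
      T.A_comm _ (hvA c) _ (hppA c), ← mul_assoc (v c) (pp c) (v c), hvv c, mul_one]
  have hpb : ∀ c, ∑ d, T.omr (star (B c d) * T.mul (pp c) * B c d) =
      T.tr (D.j c) - T.omr (h * (K' c * star (K' c))) := fun c => by
    rw [hsum c _ (T.mul_mem_opAlg _), hVJV, ← T.mul_mul' (hppA c)
      (mul_mem (mul_mem (hvA c) (hD.j_mem c)) (hvA c)), omr_mul]
    have e1 : pp c * (v c * D.j c * v c) = D.j c := by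
      rw [← T.A_comm _ (mul_mem (mul_mem (hvA c) (hD.j_mem c)) (hvA c)) _ (hppA c),
        T.A_comm _ (hvA c) _ (hD.j_mem c), mul_assoc, mul_assoc,
        T.A_comm _ (hvA c) _ (hppA c), ← mul_assoc (v c) (pp c) (v c), hvv c, mul_one]
    have e2 : K' c * V c * (T.mul (pp c) * (V c * star (K' c))) = K' c * star (K' c) := by
      rw [show K' c * V c * (T.mul (pp c) * (V c * star (K' c))) =
        K' c * (V c * T.mul (pp c) * V c) * star (K' c) by noncomm_ring, hV,
        ← T.mul_mul' (hvA c) (hppA c), ← T.mul_mul' (mul_mem (hvA c) (hppA c)) (hvA c), hvv c,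
        T.mul_one', mul_one]
    rw [e1]
    congr 1
    calc T.omr (T.mul (pp c) * (V c * star (K' c) * h * (K' c * V c)))
        = T.omr (T.mul (pp c) * (V c * star (K' c)) * h * (K' c * V c)) := by
          simp only [mul_assoc]
      _ = T.omr (K' c * V c * (T.mul (pp c) * (V c * star (K' c)) * h)) :=
          omr_mul_comm hT (mul_mem (mul_mem (T.mul_mem_opAlg _)
            (mul_mem (T.mul_mem_opAlg _) (star_mem (hK'm c)))) hhm)
            (mul_mem (hK'm c) (T.mul_mem_opAlg _))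
      _ = T.omr (K' c * star (K' c) * h) := by rw [← mul_assoc, e2]
      _ = _ := omr_mul_comm hT (mul_mem (hK'm c) (star_mem (hK'm c))) hhm
  have hloss : T.omr (h * S) ≤ T.tr D.alive := by
    rw [omr_mul_comm hT hhm hSm, hSh, ← omr_mul]
    set a := T.mul D.alive
    set f := (1 : T.L2A →L[ℂ] T.L2A) - R ^ (2 * n)
    have has : IsSelfAdjoint a := isSelfAdjoint_mul' hD.alive_proj.isSelfAdjoint
    have haS : a * S = S := by
      rw [hS, Finset.mul_sum]
      refine Finset.sum_congr rfl fun c _ => ?_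
      rw [← mul_assoc]
      congr 1
      show a * (D.K c * V c * J c) = D.K c * V c * J c
      rw [← mul_assoc, ← mul_assoc, hD.K_alive c]
    have haf : a * f = f := by rw [show f = S * h from hSh.symm, ← mul_assoc, haS]
    have hfs : IsSelfAdjoint f :=
      (IsSelfAdjoint.one _).sub ((IsSelfAdjoint.of_nonneg hR0).pow _)
    have hfa : f * a = f := by
      have := congrArg star haf
      rwa [star_mul, has.star_eq, hfs.star_eq] at this
    refine omr_mono ?_
    calc f = a * f * a := by rw [haf, hfa]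
      _ ≤ a * 1 * a := has.conjugate_le_conjugate (sub_le_self _ (cstar_pow_nonneg hR0 _))
      _ = a := by rw [mul_one, ← T.mul_mul' hD.alive_mem hD.alive_mem,
          hD.alive_proj.isIdempotentElem.eq]
  have hres : ∀ d, ∑ c, D.K c * B c d = R ^ n * K' d := fun d => by
    rw [hB, sum_mul_corrOp D.K (fun c => rfl) hJK' d, ← hS, hSg, sub_sub_cancel]
  have hresid : ∑ d, T.omr (star (∑ c, D.K c * B c d) * ∑ c, D.K c * B c d) ≤ c0 := by
    have h1 : ∀ d, T.omr (star (∑ c, D.K c * B c d) * ∑ c, D.K c * B c d) =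
        T.omr (R ^ (2 * n) * (K' d * star (K' d))) := fun d => by
      rw [hres, star_mul, star_pow, (IsSelfAdjoint.of_nonneg hR0).star_eq,
        mul_assoc, ← mul_assoc (R ^ n), ← pow_add, ← two_mul,
        omr_mul_comm hT (star_mem (hK'm d)) (mul_mem (pow_mem hRm _) (hK'm d)), mul_assoc]
    rw [Finset.sum_congr rfl fun d _ => h1 d, ← omr_sum, ← Finset.mul_sum, ← hS]
    refine (omr_le_norm _).trans ?_
    rw [hSs, mul_smul_comm, norm_smul, Real.norm_of_nonneg (by linarith), hR]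
    refine (mul_le_mul_of_nonneg_left (norm_pow_mul_le hs0 hs1 (by omega)) (by linarith)).trans ?_
    rw [mul_one_div, Nat.cast_mul, Nat.cast_two, div_le_iff₀ (by positivity)]
    rw [div_lt_iff₀ hc00] at hn
    nlinarith
  have hloss' : ∑ c, T.omr (h * (K' c * star (K' c))) ≤ T.tr D.alive := by
    rw [← omr_sum, ← Finset.mul_sum, ← hS]; exact hloss
  refine ⟨B, hJB, fun c d => ?_, ?_⟩
  · exact lift_corrOp hKb hv00 (by linarith : (0 : ℝ) < Λ) hΛ hD.K_lift hD.K_lift'
      (fun c => lift_mul (hvA c) (hvs c) (hvn c))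
      (fun c => lift_mul (hD.j_mem c) (hD.j_proj c).isSelfAdjoint (hD.j_proj c).norm_le)
      hJs hVs s hs n c d
  · exact negativity hKb hz0 hνp hD B hBm hJB hPb hpb hloss' hresid hδ hDm0 hDm hμ0 hc0

/-- A bounded direction supported in the colour projections on which the form is negative. -/
lemma DirData.exists_dir (r : ℕ) {Kb z0 μ0 νp : ℝ} (hKb : 0 ≤ Kb) (hz0 : 0 < z0)
    (hμ0 : 0 < μ0) (hνp : 0 < νp) :
    ∃ C c0 : ℝ, 0 ≤ C ∧ 0 < c0 ∧
      ∀ D : DirData T r, D.Valid Kb z0 μ0 →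
        ∃ y : Fin r → M, (∀ c, y c ∈ T.A) ∧ (∀ c, IsSelfAdjoint (y c)) ∧
          (∀ c, D.j c * y c = y c) ∧ (∀ c, ‖y c‖ ≤ C) ∧
          D.quad νp (fun c => T.iota (y c)) ≤ -c0 := by
  obtain ⟨C, c0, hC, hc0, hops⟩ :=
    DirData.exists_ops hT r hKb hz0 hμ0 hνp
  refine ⟨(r : ℝ) * C, c0 / 2, by positivity, by positivity, fun D hD => ?_⟩
  obtain ⟨B, hJB, hL, hneg⟩ := hops D hD
  -- the mean value of the form along a partition
  set mean : T.Part → ℝ := fun P =>
    ((∑ c, ∑ d, T.omSum P (star (B c d) * D.R c * B c d)) +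
      (∑ d, T.omSum P (star (∑ c, D.K c * B c d) * ∑ c, D.K c * B c d)) -
      (νp : ℂ) * (∑ c, ∑ d, T.omSum P (star (B c d) * T.mul (D.z c * D.z c) * B c d))).re with hmean
  have hlim : Tendsto mean (T.uf : Filter T.Part)
      (𝓝 ((∑ c, ∑ d, T.omr (star (B c d) * D.R c * B c d)) +
        (∑ d, T.omr (star (∑ c, D.K c * B c d) * ∑ c, D.K c * B c d)) -
        νp * (∑ c, ∑ d, T.omr (star (B c d) * T.mul (D.z c * D.z c) * B c d)))) := by
    have h1 := (((tendsto_finsetSum (Finset.univ : Finset (Fin r)) fun c _ =>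
      tendsto_finsetSum (Finset.univ : Finset (Fin r))
      fun d _ => T.tendsto_om (star (B c d) * D.R c * B c d)).add
        (tendsto_finsetSum (Finset.univ : Finset (Fin r)) fun d _ =>
          T.tendsto_om (star (∑ c, D.K c * B c d) * ∑ c, D.K c * B c d))).sub
      ((tendsto_finsetSum (Finset.univ : Finset (Fin r)) fun c _ =>
        tendsto_finsetSum (Finset.univ : Finset (Fin r))
        fun d _ => T.tendsto_om (star (B c d) * T.mul (D.z c * D.z c) * B c d)).const_mul (νp : ℂ)))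
    have h2 := (Complex.continuous_re.tendsto _).comp h1
    simp only [Complex.add_re, Complex.sub_re, Complex.re_ofReal_mul, Complex.re_sum] at h2
    exact h2
  obtain ⟨P, hP⟩ := (hlim.eventually (gt_mem_nhds
    (lt_of_le_of_lt hneg (by linarith : -c0 < -(c0 / 2))))).exists
  -- choice of the signs
  set v : Fin r × Fin P.n → (Fin r → T.L2A) := fun di c => B c di.1 (T.iota (P.e di.2)) with hv
  have h0 : D.quad νp 0 ≤ 0 := by simp [DirData.quad]
  obtain ⟨σ, hσ⟩ := exists_signs (D.quad νp) h0 (D.quad_parallelogram νp) v Finset.univ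
  have hsum : ∑ di, D.quad νp (v di) = mean P := by
    have h3 : ∀ c d i, ‖T.mul (D.z c) (B c d (T.iota (P.e i)))‖ ^ 2 =
        (⟪T.iota (P.e i), (star (B c d) * T.mul (D.z c * D.z c) * B c d) (T.iota (P.e i))⟫_ℂ).re :=
      fun c d i => by
      have hzs : IsSelfAdjoint (D.z c) := by
        have := IsSelfAdjoint.of_nonneg (sub_nonneg.2 (hD.z_ge c))
        simpa using this.add ((IsSelfAdjoint.all z0).smul (.one M))
      rw [mul_apply_eq_comp, mul_apply_eq_comp, T.mul_mul' (hD.z_mem c) (hD.z_mem c),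
        mul_apply_eq_comp, ContinuousLinearMap.star_eq_adjoint,
        ContinuousLinearMap.adjoint_inner_right, ← (isSelfAdjoint_mul' hzs).adjoint_eq,
        ContinuousLinearMap.adjoint_inner_right, (isSelfAdjoint_mul' hzs).adjoint_eq,
        norm_sq_eq_re_inner (𝕜 := ℂ)]
      rfl
    have h4 : ∀ d i, ‖∑ c, D.K c (B c d (T.iota (P.e i)))‖ ^ 2 =
        (⟪T.iota (P.e i), (star (∑ c, D.K c * B c d) * ∑ c, D.K c * B c d)
          (T.iota (P.e i))⟫_ℂ).re := fun d i => by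
      rw [mul_apply_eq_comp, ContinuousLinearMap.star_eq_adjoint,
        ContinuousLinearMap.adjoint_inner_right, norm_sq_eq_re_inner (𝕜 := ℂ)]
      simp [mul_apply_eq_comp]
    have h5 : ∀ c d i, (⟪B c d (T.iota (P.e i)), D.R c (B c d (T.iota (P.e i)))⟫_ℂ).re =
        (⟪T.iota (P.e i), (star (B c d) * D.R c * B c d) (T.iota (P.e i))⟫_ℂ).re := fun c d i => by
      rw [mul_apply_eq_comp, mul_apply_eq_comp, ContinuousLinearMap.star_eq_adjoint,
        ContinuousLinearMap.adjoint_inner_right]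
    simp only [hmean, Complex.add_re, Complex.sub_re, Complex.re_ofReal_mul, Complex.re_sum, omSum,
      DirData.quad, hv, h3, h4, h5, Finset.sum_add_distrib, Finset.sum_sub_distrib,
      ← Finset.mul_sum, Fintype.sum_prod_type]
    have key : ∀ F : Fin r → Fin r → Fin P.n → ℝ,
        ∑ d, ∑ i, ∑ c, F c d i = ∑ c, ∑ d, ∑ i, F c d i := fun F => by
      rw [Finset.sum_congr rfl fun d _ => Finset.sum_comm]
      exact Finset.sum_comm
    rw [key, key]
  set g : Fin r → M := fun d => ∑ i, if σ (d, i) then P.e i else -P.e i with hg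
  have hgP := fun d => sign_sum_mem_norm P (fun i => σ (d, i))
  have hex : ∀ c d, ∃ b ∈ T.A, IsSelfAdjoint b ∧ B c d (T.iota (g d)) = T.iota b ∧
      ‖b‖ ≤ C * ‖g d‖ := fun c d => hL c d (g d) (hgP d).1 (hgP d).2.1
  choose b hbA hbs hbe hbn using hex
  refine ⟨fun c => D.j c * ∑ d, b c d, fun c => mul_mem (hD.j_mem c) (sum_mem fun d _ => hbA c d),
    fun c => (IsSelfAdjoint.commute_iff (hD.j_proj c).isSelfAdjoint
      (isSelfAdjoint_sum _ fun d _ => hbs c d)).1
        (T.A_comm _ (hD.j_mem c) _ (sum_mem fun d _ => hbA c d)),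
    fun c => by rw [← mul_assoc, (hD.j_proj c).isIdempotentElem.eq], fun c => ?_, ?_⟩
  · refine (norm_mul_le _ _).trans ((mul_le_of_le_one_left (norm_nonneg _)
      (hD.j_proj c).norm_le).trans ((norm_sum_le _ _).trans ?_))
    calc ∑ d, ‖b c d‖ ≤ ∑ _d : Fin r, C := Finset.sum_le_sum fun d _ =>
          (hbn c d).trans (mul_le_of_le_one_right hC (hgP d).2.2)
      _ = r * C := by simp
  · have hy : (fun c => T.iota (D.j c * ∑ d, b c d)) =
        ∑ di, if σ di then v di else -v di := by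
      funext c
      rw [← T.mul_iota (hD.j_mem c) (sum_mem fun d _ => hbA c d), T.iota_sum, map_sum,
        Finset.sum_apply, Fintype.sum_prod_type]
      refine Finset.sum_congr rfl fun d _ => ?_
      rw [← hbe, ← mul_apply_eq_comp, hJB, hg, T.iota_sum, map_sum]
      refine Finset.sum_congr rfl fun i _ => ?_
      split_ifs with h
      · simp [hv]
      · have hn : T.iota (-P.e i) = -T.iota (P.e i) := by
          rw [← zero_sub, T.iota_sub, T.iota_zero, zero_sub]
        simp [hv, hn, map_neg]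
    rw [hy]
    linarith [hσ.trans_eq hsum]

end Vale.Agent.P078.Sharp
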