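import Mathlib
import Vale.Agent.P078.Square

/-!
# The diagonal of `Φ° a Φ°` under an off-diagonal bound
-/

open scoped ComplexOrder InnerProductSpace Topology
open Filter

namespace Vale.Agent.P078.Sharp

universe u

variable {M : Type u} [CStarAlgebra M] [PartialOrder M] [StarOrderedRing M]

open TracialMasa

/-- Bound `Bd` for the off-diagonal part of `Y` on cells below `jp`. -/
def OffDiag (T : TracialMasa M) (Y Bd jp : M) (Ce : ℝ) : Prop :=
  ∀ b ∈ T.A, 0 ≤ b → b * jp = b → ∀ e ∈ T.A, IsStarProjection e → e * jp = e →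
    ∀ c η h' : ℝ, 0 ≤ c → 0 < η → h' ≤ 1 / 100 → ‖(T.E Y - c • 1) * e‖ ≤ 2 * h' →
      T.tr (b * T.phi0A Y e) ≤ (c + η) * T.tr (b * Bd) +
        Ce * (‖b‖ * ‖Y‖ ^ 2 / η ^ 2) * T.n2 (e * Y * e - c • e) ^ 2

variable {T : TracialMasa M}

/-- Fine partitions decide a given projection. -/
lemma eventually_sub (T : TracialMasa M) {jp : M} (hjA : jp ∈ T.A) (hjP : IsStarProjection jp) :
    ∀ᶠ P : T.Part in atTop, ∀ k, P.e k * jp = P.e k ∨ P.e k * jp = 0 := by
  have h01 : jp * (1 - jp) = 0 := by rw [mul_sub, mul_one, hjP.isIdempotentElem.eq, sub_self]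
  have h10 : (1 - jp) * jp = 0 := by rw [sub_mul, one_mul, hjP.isIdempotentElem.eq, sub_self]
  let P0 : T.Part :=
    { n := 2
      e := ![jp, 1 - jp]
      mem := fun i => by fin_cases i <;> simp [hjA, sub_mem (one_mem T.A) hjA]
      proj := fun i => by fin_cases i <;> simp [hjP, hjP.one_sub]
      orth := fun i k hik => by fin_cases i <;> fin_cases k <;> simp_all
      sum_one := by simp [Fin.sum_univ_two] }
  refine (eventually_ge_atTop P0).mono fun P hP k => ?_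
  obtain ⟨i, hi⟩ := hP k
  revert hi
  fin_cases i <;> intro hi
  · left
    calc P.e k * jp = P.e k * jp := rfl
      _ = P.e k := by simpa [P0] using hi
  · right
    have hi' : P.e k * (1 - jp) = P.e k := by simpa [P0] using hi
    rw [← hi', mul_assoc, h10, mul_zero]

/-- One term of the diagonal sum of `Φ° a Φ°`. -/
lemma square_step {Y Bd jp : M} {Ce : ℝ} (hY : 0 ≤ Y) (hoff : OffDiag T Y Bd jp Ce) (hBA : Bd ∈ T.A) {u a : M} (hu : u ∈ T.A) (hu0 : 0 ≤ u) (ha : a ∈ T.A)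
    (ha0 : 0 ≤ a) (haj : a * jp = a) (hjA : jp ∈ T.A) (hCe : 0 ≤ Ce) (P : T.Part) (j : Fin P.n) {tj uj h η cu c : ℝ} (hh0 : 0 < h) (hη0 : 0 < η) (hh100 : h ≤ 1 / 100) (hej' : P.e j * jp = P.e j)
    (hh1 : h ≤ 1) (hhη : h ≤ η / 4) (hη1 : η ≤ 1)
    (htj : ‖(T.E Y - tj • 1) * P.e j‖ ≤ h) (huj : ‖(u - uj • 1) * P.e j‖ ≤ h)
    (hcu_def : cu = max uj 0 + h) (hc_def : c = max tj 0) :
    T.tr (T.phi0A Y (P.e j * u) * (a * T.phi0A Y (P.e j))) ≤
      cu * (c + η) * T.tr (a * Bd * T.phi0A Y (P.e j)) +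
        Ce * (‖a‖ * (2 * ‖Y‖) ^ 2 * ‖Y‖ ^ 2) * (‖u‖ + 2) / η ^ 2 *
          (2 * T.n2 (P.e j * Y * P.e j - T.E Y * P.e j) ^ 2 + 8 * h * T.tr (P.e j)) := by
  set t := T.E Y with htdef
  have htA : t ∈ T.A := T.E_mem Y
  have ht0 : 0 ≤ t := T.E_nonneg hY
  have hts := IsSelfAdjoint.of_nonneg ht0
  have hus := IsSelfAdjoint.of_nonneg hu0
  have hYs := IsSelfAdjoint.of_nonneg hY
  have he0 : 0 ≤ P.e j := (P.proj j).nonneg
  set e := P.e j with hej
  set G := T.phi0A Y e with hG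
  have hGA : G ∈ T.A := phi0A_mem _ _
  have hG0 : 0 ≤ G := phi0A_nonneg hYs he0
  have haG : 0 ≤ a * G := mul_nonneg_A ha hGA ha0 hG0
  have haGA : a * G ∈ T.A := mul_mem ha hGA
  have hue : e * u ≤ cu • e := by
    rw [(P.commute_A hu j).eq]
    refine ((le_smul_of_norm_sub_le hu hus (P.mem j) (P.proj j) (huj)).1).trans ?_
    exact smul_le_smul_of_nonneg_right (by simp [hcu_def]) he0
  have hcu : 0 ≤ cu := hcu_def ▸ add_nonneg (le_max_right _ _) hh0.le
  have h1 : T.tr (T.phi0A Y (e * u) * (a * G)) ≤ cu * T.tr (a * G * G) := by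
    rw [T.tr_comm]
    refine (T.tr_mul_mono_right haG (phi0A_mono hYs hue)).trans_eq ?_
    rw [phi0A_smul, mul_smul_comm, T.tr_smul]
  have hcj : 0 ≤ c := hc_def ▸ le_max_right _ _
  have hn : ‖a * G‖ * ‖Y‖ ^ 2 ≤ ‖a‖ * (2 * ‖Y‖) ^ 2 * ‖Y‖ ^ 2 := by
    refine mul_le_mul_of_nonneg_right ((norm_mul_le _ _).trans ?_) (sq_nonneg _)
    refine mul_le_mul_of_nonneg_left ?_ (norm_nonneg _)
    refine (norm_phi0A_le Y e).trans (mul_le_of_le_one_right (by positivity) ?_)
    exact (P.proj j).norm_le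
  have htc : ‖(t - c • 1) * e‖ ≤ 2 * h := by
    rcases le_total 0 (tj) with h5 | h5
    · simp only [hc_def, max_eq_left h5]; linarith [htj]
    · simp only [hc_def, max_eq_right h5, zero_smul, sub_zero]
      have h6 := (le_smul_of_norm_sub_le htA hts (P.mem j) (P.proj j) (htj)).1
      have h7 : 0 ≤ t * e := mul_nonneg_A htA (P.mem j) ht0 he0
      have h8 : t * e ≤ h • e :=
        h6.trans (smul_le_smul_of_nonneg_right (by linarith) he0)
      refine (CStarAlgebra.norm_le_norm_of_nonneg_of_le h7 h8).trans ?_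
      rw [norm_smul, Real.norm_of_nonneg hh0.le]
      calc h * ‖e‖ ≤ h * 1 := mul_le_mul_of_nonneg_left (P.proj j).norm_le hh0.le
        _ ≤ 2 * h := by linarith
  have haGj : a * G * jp = a * G := by
    rw [mul_assoc, T.A_comm G hGA jp hjA, ← mul_assoc, haj]
  have h3 := hoff (a * G) haGA haG haGj e (P.mem j) (P.proj j) hej' c η h hcj hη0 hh100 htc
  have h4 : T.tr (a * G * Bd) = T.tr (a * Bd * G) := by
    rw [mul_assoc, T.A_comm G hGA Bd hBA, ← mul_assoc]
  rw [h4] at h3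
  have h9 : T.n2 (e * Y * e - c • e) ^ 2 ≤
      2 * T.n2 (e * Y * e - t * e) ^ 2 + 8 * h * T.tr e := by
    have h10 : T.n2 ((t - c • 1) * e) ≤ 2 * h * T.n2 e := by
      calc T.n2 ((t - c • 1) * e) = T.n2 ((t - c • 1) * e * e) := by
            rw [mul_assoc, (P.proj j).isIdempotentElem.eq]
        _ ≤ ‖(t - c • 1) * e‖ * T.n2 e := T.n2_mul_le_left _ _
        _ ≤ _ := mul_le_mul_of_nonneg_right htc (T.n2_nonneg _)
    have h11 : T.n2 (e * Y * e - c • e) ≤
        T.n2 (e * Y * e - t * e) + 2 * h * T.n2 e := by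
      refine (T.n2_sub_le _ (t * e) _).trans (add_le_add le_rfl (le_of_eq_of_le ?_ h10))
      rw [sub_mul, smul_mul_assoc, one_mul]
    have h12 : T.n2 e ^ 2 = T.tr e := by
      rw [T.n2_sq, P.star_e, (P.proj j).isIdempotentElem.eq]
    have h13 : h * h ≤ h :=
      mul_le_of_le_one_left hh0.le (hh1)
    refine (pow_le_pow_left₀ (T.n2_nonneg _) h11 2).trans (le_trans (add_sq_le) ?_)
    rw [mul_pow, h12, mul_add]
    have := mul_le_mul_of_nonneg_right h13 (T.tr_nonneg he0)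
    linarith [this]
  have hcu' : cu ≤ ‖u‖ + 2 ∨ e = 0 := by
    rcases eq_or_ne e 0 with he | he
    · exact Or.inr he
    · left
      have h6 := huj
      have h7 : |uj| * ‖e‖ ≤ ‖u‖ * ‖e‖ + h := by
        rw [← Real.norm_eq_abs, ← norm_smul]
        calc ‖uj • e‖ = ‖u * e - (u - uj • 1) * e‖ := by
              rw [sub_mul, smul_mul_assoc, one_mul, sub_sub_cancel]
          _ ≤ ‖u * e‖ + ‖(u - uj • 1) * e‖ := norm_sub_le _ _
          _ ≤ _ := add_le_add (norm_mul_le _ _) h6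
      have he1 : ‖e‖ = 1 := by
        refine le_antisymm (P.proj j).norm_le ?_
        have h8 : ‖e‖ = ‖e‖ * ‖e‖ := by
          rw [← CStarRing.norm_star_mul_self, P.star_e, (P.proj j).isIdempotentElem.eq]
        nlinarith [norm_pos_iff.2 he]
      rw [he1, mul_one, mul_one] at h7
      have h9 : h ≤ 1 := hh1
      have := le_abs_self (uj)
      have : max (uj) 0 ≤ ‖u‖ + h := max_le (by linarith) (by positivity)
      have h14 : h ≤ η / 4 := hhη
      have h15 : η ≤ 1 := hη1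
      simp only [hcu_def]; linarith
  rcases hcu' with hcu' | he
  · refine h1.trans ((mul_le_mul_of_nonneg_left h3 hcu).trans ?_)
    rw [mul_add, ← mul_assoc]
    refine add_le_add le_rfl ?_
    calc cu * (Ce * (‖a * G‖ * ‖Y‖ ^ 2 / η ^ 2) * T.n2 (e * Y * e - c • e) ^ 2)
        ≤ (‖u‖ + 2) * (Ce * (‖a‖ * (2 * ‖Y‖) ^ 2 * ‖Y‖ ^ 2 / η ^ 2) *
          (2 * T.n2 (e * Y * e - t * e) ^ 2 + 8 * h * T.tr e)) := by
          refine mul_le_mul hcu' (mul_le_mul (mul_le_mul_of_nonneg_left (by gcongr) hCe) h9 (sq_nonneg _) (by positivity))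
            (by positivity) (by positivity)
      _ = _ := by ring
  · have hG' : G = 0 := by rw [hG, he, phi0A, mul_zero, zero_mul, T.E_zero]
    rw [hG', he]
    simp [tr, T.n2_zero]

/-- The diagonal of `Φ° a Φ°` is at most `t Φ°(t a)`. -/
lemma omr_square {Y Bd jp : M} {Ce : ℝ} (hY : 0 ≤ Y) (hoff : OffDiag T Y Bd jp Ce) (hBA : Bd ∈ T.A)
    (hB0 : 0 ≤ Bd) (hjA : jp ∈ T.A) (hjP : IsStarProjection jp) (hCe : 0 ≤ Ce) {u a : M} (hu : u ∈ T.A) (hu0 : 0 ≤ u) (ha : a ∈ T.A)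
    (ha0 : 0 ≤ a) (huj : u * jp = u) (haj : a * jp = a) :
    T.omr (T.mul u * (T.phi0 Y * T.mul a * T.phi0 Y)) ≤
      T.tr (u * (T.E Y * T.phi0A Y (Bd * a))) := by
  set t := T.E Y with htdef
  have htA : t ∈ T.A := T.E_mem Y
  have ht0 : 0 ≤ t := T.E_nonneg hY
  have hts := IsSelfAdjoint.of_nonneg ht0
  have hus := IsSelfAdjoint.of_nonneg hu0
  have hYs := IsSelfAdjoint.of_nonneg hY
  have hat : 0 ≤ a * Bd := mul_nonneg_A ha hBA ha0 hB0
  have htarget : T.tr (u * (t * T.phi0A Y (Bd * a))) = T.tr (a * Bd * T.phi0A Y (u * t)) := by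
    rw [← mul_assoc, tr_phi0A_symm Y (mul_mem hu htA) (mul_mem hBA ha), T.tr_comm,
      T.A_comm Bd hBA a ha]
  rw [htarget]
  refine le_of_forall_pos_le_add fun δ hδ => ?_
  set φ1 := T.tr (a * Bd * T.phi0A Y 1)
  have hφ1 : 0 ≤ φ1 := by
    exact T.tr_nonneg
      (mul_nonneg_A (mul_mem ha hBA) (phi0A_mem _ _) hat (phi0A_nonneg hYs zero_le_one))
  set K1 := (‖u‖ + ‖t‖ + 3) * φ1 with hK1
  set K2 := Ce * (‖a‖ * (2 * ‖Y‖) ^ 2 * ‖Y‖ ^ 2) * (‖u‖ + 2) with hK2
  have hK1' : 0 ≤ K1 := by positivity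
  have hK2' : 0 ≤ K2 := by positivity
  -- choice of the two scales
  set η : ℝ := min 1 (δ / (6 * (K1 + 1))) with hη
  have hη0 : 0 < η := lt_min one_pos (by positivity)
  set h : ℝ := min (η / 4) (min (1 / 100) (δ * η ^ 2 / (3 * 8 * (K2 + 1)))) with hh
  have hh0 : 0 < h := lt_min (by positivity) (lt_min (by norm_num) (by positivity))
  have hstair1 := eventually_staircase htA hts hh0
  have hstair2 := eventually_staircase hu hus hh0
  have hpinch : ∀ᶠ P : T.Part in atTop, T.n2 (pinch P Y - t) ^ 2 ≤ h := by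
    have h1 : Tendsto (fun P : T.Part => T.n2 (pinch P Y - t) ^ 2) atTop (𝓝 0) := by
      simpa using (T.tends_E Y).pow 2
    exact h1.eventually (ge_mem_nhds hh0)
  have hev : ∀ᶠ P : T.Part in atTop,
      (T.omSum P (T.mul u * (T.phi0 Y * T.mul a * T.phi0 Y))).re ≤
        T.tr (a * Bd * T.phi0A Y (u * t)) + δ := by
    filter_upwards [hstair1, hstair2, hpinch, eventually_sub T hjA hjP] with P ⟨tj, htj⟩ ⟨uj, huj'⟩ hp hsub
    rw [omSum_square_eq P Y hu ha]
    set cu : Fin P.n → ℝ := fun j => max (uj j) 0 + h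
    set c : Fin P.n → ℝ := fun j => max (tj j) 0
    have he0 : ∀ j, 0 ≤ P.e j := fun j => (P.proj j).nonneg
    have hh100 : h ≤ 1 / 100 := (min_le_right _ _).trans (min_le_left _ _)
    have hstep : ∀ j, T.tr (T.phi0A Y (P.e j * u) * (a * T.phi0A Y (P.e j))) ≤
        cu j * (c j + η) * T.tr (a * Bd * T.phi0A Y (P.e j)) +
          Ce * (‖a‖ * (2 * ‖Y‖) ^ 2 * ‖Y‖ ^ 2) * (‖u‖ + 2) / η ^ 2 *
            (2 * T.n2 (P.e j * Y * P.e j - t * P.e j) ^ 2 + 8 * h * T.tr (P.e j)) := by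
      intro j
      rcases hsub j with hj1 | hj0
      · exact square_step hY hoff hBA hu hu0 ha ha0 haj hjA hCe P j hh0 hη0 hh100 hj1
          (hh100.trans (by norm_num)) (min_le_left _ _) (min_le_left _ _) (htj j) (huj' j) rfl rfl
      · have e0 : P.e j * u = 0 := by
          rw [← huj, T.A_comm u hu jp hjA, ← mul_assoc, hj0, zero_mul]
        rw [e0, phi0A, mul_zero, zero_mul, T.E_zero, zero_mul,
          show T.tr (0 : M) = 0 by simp [tr]]
        refine add_nonneg (mul_nonneg (mul_nonneg (add_nonneg (le_max_right _ _) hh0.le)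
          (add_nonneg (le_max_right _ _) hη0.le)) (T.tr_nonneg (mul_nonneg_A (mul_mem ha hBA)
            (phi0A_mem _ _) hat (phi0A_nonneg hYs (he0 j))))) (mul_nonneg (by positivity)
            (add_nonneg (by positivity) (mul_nonneg (by positivity) (T.tr_nonneg (he0 j)))))
    refine (Finset.sum_le_sum fun j _ => hstep j).trans ?_
    rw [Finset.sum_add_distrib, ← Finset.mul_sum, Finset.sum_add_distrib, ← Finset.mul_sum,
      ← Finset.mul_sum, n2_sub_pinch_sq P Y htA, ← T.tr_sum, P.sum_one, T.tr_one]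
    have hmain : ∑ j, cu j * (c j + η) * T.tr (a * Bd * T.phi0A Y (P.e j)) ≤
        T.tr (a * Bd * T.phi0A Y (u * t)) + (η + 4 * h) * K1 := by
      have hsum := stair_upper hu hu0 htA ht0 P hh0 hη0 (min_le_left _ _) (min_le_left _ _) htj huj'
      have h40 := T.tr_mul_mono_right hat (phi0A_mono (T := T) hYs hsum)
      rw [phi0A_sum] at h40
      simp only [phi0A_smul, Finset.mul_sum, T.tr_sum, mul_smul_comm, T.tr_smul] at h40
      refine h40.trans_eq ?_
      have hadd : T.phi0A Y (u * t + ((η + 4 * h) * (‖u‖ + ‖t‖ + 3)) • (1 : M)) =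
          T.phi0A Y (u * t) + ((η + 4 * h) * (‖u‖ + ‖t‖ + 3)) • T.phi0A Y 1 := by
        rw [← phi0A_smul]
        simp only [phi0A, ← T.E_add, mul_add, add_mul]
      rw [hadd, mul_add, T.tr_add, mul_smul_comm, T.tr_smul, hK1]
      ring
    refine le_trans (add_le_add hmain le_rfl) ?_
    have e1 : η * (6 * (K1 + 1)) ≤ δ :=
      (le_div_iff₀ (by positivity)).1 (min_le_right _ _)
    have e2 : h * (3 * 8 * (K2 + 1)) ≤ δ * η ^ 2 :=
      (le_div_iff₀ (by positivity)).1 ((min_le_right _ _).trans (min_le_right _ _))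
    have e3 : h ≤ η / 4 := min_le_left _ _
    have e4 : (η + 4 * h) * K1 ≤ δ / 3 := by nlinarith
    have e5 : K2 / η ^ 2 * (2 * T.n2 (pinch P Y - t) ^ 2 + 8 * h * 1) ≤ δ / 2 := by
      refine (mul_le_mul_of_nonneg_left (?_ : _ ≤ 10 * h) (by positivity)).trans ?_
      · linarith
      · rw [div_mul_eq_mul_div, div_le_iff₀ (by positivity)]
        nlinarith
    linarith
  refine le_of_tendsto (((Complex.continuous_re.tendsto _).comp (T.tendsto_om _))) ?_
  exact hev.filter_mono T.uf_le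

end Vale.Agent.P078.Sharp
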