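import Mathlib
import Vale.Agent.P078.DriftId
import Vale.Agent.P078.Sharp.Square

/-!
# Domination of the drift of one colour and one sign by a test operator
-/

open scoped ComplexOrder InnerProductSpace Topology
open Filter

set_option linter.unusedSectionVars false

namespace Vale.Agent.P078.Sharp

universe u

variable {M : Type u} [CStarAlgebra M] [PartialOrder M] [StarOrderedRing M]

open TracialMasa hiding Colour omr_square

/-- The data of one colour used in the drift. -/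
structure Colour (T : TracialMasa M) where
  /-- `U G U` -/
  Y : M
  /-- `U G² U` -/
  Z : M
  /-- active projection -/
  j : M
  /-- weight of the third order term -/
  a' : M
  /-- weight of the test -/
  b : M
  lam : M
  bet : M
  /-- coefficient of the cross term -/
  g : M
  /-- negative zeroth order term -/
  neg : M
  /-- bound of the off-diagonal part -/
  Bd : M
  /-- curvature -/
  κ : M
  /-- margin -/
  eta : M
  /-- share of the cross term -/
  m : ℝ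

variable {T : TracialMasa M}

/-- Hypotheses on the data of one colour. -/
structure Colour.Valid (D : Colour T) (Ce : ℝ) : Prop where
  Y_nonneg : 0 ≤ D.Y
  Z_nonneg : 0 ≤ D.Z
  j_mem : D.j ∈ T.A
  j_proj : IsStarProjection D.j
  a'_mem : D.a' ∈ T.A
  a'_nonneg : 0 ≤ D.a'
  b_mem : D.b ∈ T.A
  b_nonneg : 0 ≤ D.b
  lam_mem : D.lam ∈ T.A
  lam_sa : IsSelfAdjoint D.lam
  bet_mem : D.bet ∈ T.A
  bet_sa : IsSelfAdjoint D.bet
  g_mem : D.g ∈ T.A
  neg_mem : D.neg ∈ T.A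
  neg_sa : IsSelfAdjoint D.neg
  cross : D.lam * D.bet * D.b = (1 / 2 : ℝ) • (D.g * D.j)
  bet_j : D.b * D.j = D.b
  Bd_mem : D.Bd ∈ T.A
  Bd_nonneg : 0 ≤ D.Bd
  κ_ra : T.IsRA D.κ
  eta_mem : D.eta ∈ T.A
  eta_nonneg : 0 ≤ D.eta
  m_nonneg : 0 ≤ D.m
  Ce_nonneg : 0 ≤ Ce
  offdiag : OffDiag T D.Y D.Bd D.j Ce
  bd_le : D.Bd * (D.bet * D.bet * D.b) ≤ D.m • D.a'
  lam_le : D.eta * (D.lam * D.lam * D.b) ≤ D.neg
  margin : ∀ χ : T.Chi, T.val χ D.j = 1 →
    (1 + T.val χ D.eta) * (1 + D.m) * T.val χ (T.E D.Y) ≤ T.val χ D.κ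

/-- The test operator. -/
noncomputable def Colour.testOp (D : Colour T) (ω : ℝ) : T.L2A →L[ℂ] T.L2A :=
  ω • T.Phi D.Y D.Z + T.Phi D.Y ((D.Y - T.E D.Y) * D.a' * (D.Y - T.E D.Y)) +
    star (T.mul D.lam + T.mul D.bet * T.phi0 D.Y) * T.mul D.b *
      (T.mul D.lam + T.mul D.bet * T.phi0 D.Y)

/-- The weight of the test. -/
noncomputable def Colour.testWeight (D : Colour T) (ω : ℝ) : M :=
  ω • (T.E D.Y * T.E D.Z) + T.E D.Y * T.phi0A D.Y D.a' + D.lam * D.lam * D.b +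
    T.E D.Y * T.phi0A D.Y (D.Bd * (D.bet * D.bet * D.b))

/-- The drift operator. -/
noncomputable def Colour.driftOp (D : Colour T) (ω : ℝ) : T.L2A →L[ℂ] T.L2A :=
  ω • (T.Phi D.Y D.Z - T.mul (D.κ * T.E D.Z)) +
    T.Phi D.Y ((D.Y - T.E D.Y) * D.a' * (D.Y - T.E D.Y)) - T.mul (D.κ * T.phi0A D.Y D.a') +
    (1 / 2 : ℝ) • (T.mul D.g * T.phi0 D.Y + T.phi0 D.Y * T.mul D.g) - T.mul D.neg

lemma Colour.testOp_expand (D : Colour T) {Ce : ℝ} (hD : D.Valid Ce) (ω : ℝ) :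
    D.testOp ω = ω • T.Phi D.Y D.Z + T.Phi D.Y ((D.Y - T.E D.Y) * D.a' * (D.Y - T.E D.Y)) +
      (T.mul (D.lam * D.lam * D.b) + T.mul (D.lam * D.bet * D.b) * T.phi0 D.Y +
        T.phi0 D.Y * T.mul (D.lam * D.bet * D.b) +
        T.phi0 D.Y * T.mul (D.bet * D.bet * D.b) * T.phi0 D.Y) := by
  have hYs := IsSelfAdjoint.of_nonneg hD.Y_nonneg
  have hlb : star (T.mul D.lam + T.mul D.bet * T.phi0 D.Y) =
      T.mul D.lam + T.phi0 D.Y * T.mul D.bet := by
    rw [star_add, star_mul, star_phi0 hYs, (isSelfAdjoint_mul' hD.lam_sa).star_eq,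
      (isSelfAdjoint_mul' hD.bet_sa).star_eq]
  have e1 : T.mul D.lam * T.mul D.b * T.mul D.lam = T.mul (D.lam * D.lam * D.b) := by
    rw [← T.mul_mul' hD.lam_mem hD.b_mem, ← T.mul_mul' (mul_mem hD.lam_mem hD.b_mem) hD.lam_mem]
    congr 1
    rw [mul_assoc, T.A_comm _ hD.b_mem _ hD.lam_mem, ← mul_assoc]
  have e2 : T.mul D.lam * T.mul D.b * T.mul D.bet = T.mul (D.lam * D.bet * D.b) := by
    rw [← T.mul_mul' hD.lam_mem hD.b_mem, ← T.mul_mul' (mul_mem hD.lam_mem hD.b_mem) hD.bet_mem]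
    congr 1
    rw [mul_assoc, T.A_comm _ hD.b_mem _ hD.bet_mem, ← mul_assoc]
  have e3 : T.mul D.bet * T.mul D.b * T.mul D.lam = T.mul (D.lam * D.bet * D.b) := by
    rw [← T.mul_mul' hD.bet_mem hD.b_mem, ← T.mul_mul' (mul_mem hD.bet_mem hD.b_mem) hD.lam_mem]
    congr 1
    rw [T.A_comm _ (mul_mem hD.bet_mem hD.b_mem) _ hD.lam_mem, mul_assoc]
  have e4 : T.mul D.bet * T.mul D.b * T.mul D.bet = T.mul (D.bet * D.bet * D.b) := by
    rw [← T.mul_mul' hD.bet_mem hD.b_mem, ← T.mul_mul' (mul_mem hD.bet_mem hD.b_mem) hD.bet_mem]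
    congr 1
    rw [mul_assoc, T.A_comm _ hD.b_mem _ hD.bet_mem, ← mul_assoc]
  rw [Colour.testOp, hlb, ← e1, ← e2]
  conv_rhs => rw [show T.phi0 D.Y * (T.mul D.lam * T.mul D.b * T.mul D.bet) =
    T.phi0 D.Y * (T.mul D.bet * T.mul D.b * T.mul D.lam) by rw [e2, e3], ← e4]
  noncomm_ring

lemma Colour.testOp_mem (D : Colour T) (ω : ℝ) : D.testOp ω ∈ T.opAlg := by
  refine add_mem (add_mem ?_ (T.Phi_mem _ _)) ?_
  · rw [← Complex.coe_smul]; exact T.opAlg.smul_mem (T.Phi_mem _ _) _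
  · have h : T.mul D.lam + T.mul D.bet * T.phi0 D.Y ∈ T.opAlg :=
      add_mem (T.mul_mem_opAlg _) (mul_mem (T.mul_mem_opAlg _) (phi0_mem _))
    exact mul_mem (mul_mem (star_mem h) (T.mul_mem_opAlg _)) h

lemma Colour.testOp_nonneg (D : Colour T) {Ce : ℝ} (hD : D.Valid Ce) {ω : ℝ}
    (hω : 0 ≤ ω) : 0 ≤ D.testOp ω := by
  refine add_nonneg (add_nonneg (smul_nonneg hω (T.Phi_nonneg hD.Y_nonneg hD.Z_nonneg))
    (T.Phi_nonneg hD.Y_nonneg ?_)) (star_left_conjugate_nonneg (T.mul_nonneg' hD.b_nonneg) _)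
  exact (isSelfAdjoint_sub_E (IsSelfAdjoint.of_nonneg hD.Y_nonneg)).conjugate_nonneg hD.a'_nonneg

lemma Colour.bb_mem {D : Colour T} {Ce : ℝ} (hD : D.Valid Ce) :
    D.bet * D.bet * D.b ∈ T.A := mul_mem (mul_mem hD.bet_mem hD.bet_mem) hD.b_mem

lemma Colour.bb_nonneg {D : Colour T} {Ce : ℝ} (hD : D.Valid Ce) :
    0 ≤ D.bet * D.bet * D.b := by
  refine mul_nonneg_A (mul_mem hD.bet_mem hD.bet_mem) hD.b_mem ?_ hD.b_nonneg
  conv => arg 2; arg 1; rw [← hD.bet_sa.star_eq]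
  exact star_mul_self_nonneg _

lemma Colour.testWeight_mem (D : Colour T) {Ce : ℝ} (hD : D.Valid Ce) (ω : ℝ) :
    D.testWeight ω ∈ T.A :=
  add_mem (add_mem (add_mem (T.real_smul_mem_A (mul_mem (T.E_mem _) (T.E_mem _)) _)
    (mul_mem (T.E_mem _) (phi0A_mem _ _))) (mul_mem (mul_mem hD.lam_mem hD.lam_mem) hD.b_mem))
    (mul_mem (T.E_mem _) (phi0A_mem _ _))

lemma Colour.testWeight_nonneg (D : Colour T) {Ce : ℝ} (hD : D.Valid Ce) {ω : ℝ}
    (hω : 0 ≤ ω) : 0 ≤ D.testWeight ω := by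
  have hYs := IsSelfAdjoint.of_nonneg hD.Y_nonneg
  have ht := T.E_nonneg hD.Y_nonneg
  refine add_nonneg (add_nonneg (add_nonneg (smul_nonneg hω
    (mul_nonneg_A (T.E_mem _) (T.E_mem _) ht (T.E_nonneg hD.Z_nonneg)))
    (mul_nonneg_A (T.E_mem _) (phi0A_mem _ _) ht (phi0A_nonneg hYs hD.a'_nonneg)))
    (mul_nonneg_A (mul_mem hD.lam_mem hD.lam_mem) hD.b_mem ?_ hD.b_nonneg)) ?_
  · conv => arg 2; arg 1; rw [← hD.lam_sa.star_eq]
    exact star_mul_self_nonneg _
  · exact mul_nonneg_A (T.E_mem _) (phi0A_mem _ _) ht (phi0A_nonneg hYs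
      (mul_nonneg_A hD.Bd_mem (Colour.bb_mem hD) hD.Bd_nonneg (Colour.bb_nonneg hD)))

/-- The diagonal of the test operator is at most its weight. -/
lemma Colour.testOp_diag (D : Colour T) {Ce : ℝ} (hD : D.Valid Ce) {ω : ℝ}
    (f : M) (hf : f ∈ T.A) (hf0 : 0 ≤ f) (hfj : f * D.j = f) :
    T.omr (T.mul f * D.testOp ω) ≤ T.tr (f * D.testWeight ω) := by
  have hl : D.lam * D.bet * D.b ∈ T.A :=
    mul_mem (mul_mem hD.lam_mem hD.bet_mem) hD.b_mem
  have c1 : T.omr (T.mul f * (T.mul (D.lam * D.bet * D.b) * T.phi0 D.Y)) = 0 := by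
    rw [← mul_assoc, ← T.mul_mul' hf hl, omr_mul_phi0 (mul_mem hf hl)]
  have c2 : T.omr (T.mul f * (T.phi0 D.Y * T.mul (D.lam * D.bet * D.b))) = 0 := by
    rw [phi0, Phi_comp_mul hl, omr_mul_Phi hf, E_sub_E, zero_mul, mul_zero, tr, map_zero,
      Complex.zero_re]
  have c3 := omr_square hD.Y_nonneg hD.offdiag hD.Bd_mem hD.Bd_nonneg hD.j_mem hD.j_proj
    hD.Ce_nonneg hf hf0 (Colour.bb_mem hD) (Colour.bb_nonneg hD) hfj (by rw [mul_assoc, hD.bet_j])
  have hm : T.omr (T.mul f * T.mul (D.lam * D.lam * D.b)) =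
      T.tr (f * (D.lam * D.lam * D.b)) := by
    rw [← T.mul_mul' hf (mul_mem (mul_mem hD.lam_mem hD.lam_mem) hD.b_mem), omr_mul]
  rw [Colour.testOp_expand D hD, Colour.testWeight]
  simp only [mul_add, mul_smul_comm, omr_add, omr_smul, T.tr_add, T.tr_smul, c1, c2, hm,
    omr_mul_Phi hf]
  rw [phi0A]
  have : T.omr (T.mul f * (T.phi0 D.Y * T.mul (D.bet * D.bet * D.b) * T.phi0 D.Y)) ≤ _ := c3
  linarith

/-- Conjugated by the active projection, the drift is at most the test minus its weight. -/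
lemma Colour.drift_le (D : Colour T) {Ce : ℝ} (hD : D.Valid Ce) {ω : ℝ} (hω : 0 ≤ ω)
    (B : T.L2A →L[ℂ] T.L2A) (hB : T.mul D.j * B = B) :
    T.omr (star B * D.driftOp ω * B) ≤
      T.omr (star B * D.testOp ω * B) - T.omr (star B * T.mul ((1 + D.eta) * D.testWeight ω) * B) := by
  have hYs := IsSelfAdjoint.of_nonneg hD.Y_nonneg
  have hjs : star (T.mul D.j) = T.mul D.j :=
    (isSelfAdjoint_mul' hD.j_proj.isSelfAdjoint).star_eq
  have hBj : star B * T.mul D.j = star B := by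
    have := congrArg star hB
    rwa [star_mul, hjs] at this
  set t := T.E D.Y with ht_def
  set pz := T.phi0A D.Y D.a'
  set p2 := T.phi0A D.Y (D.Bd * (D.bet * D.bet * D.b))
  set ll := D.lam * D.lam * D.b
  have hbb := Colour.bb_mem hD
  have hbb0 := Colour.bb_nonneg hD
  have hllA : ll ∈ T.A := mul_mem (mul_mem hD.lam_mem hD.lam_mem) hD.b_mem
  have hll0 : 0 ≤ ll := by
    refine mul_nonneg_A (mul_mem hD.lam_mem hD.lam_mem) hD.b_mem ?_ hD.b_nonneg
    conv => arg 2; arg 1; rw [← hD.lam_sa.star_eq]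
    exact star_mul_self_nonneg _
  set W : M := ω • (D.κ * T.E D.Z) + D.κ * pz + D.neg + ll with hW
  -- the cross term
  have hcr : star B * (T.mul (D.lam * D.bet * D.b) * T.phi0 D.Y +
      T.phi0 D.Y * T.mul (D.lam * D.bet * D.b)) * B =
      star B * ((1 / 2 : ℝ) • (T.mul D.g * T.phi0 D.Y + T.phi0 D.Y * T.mul D.g)) * B := by
    have h1 : star B * T.mul (D.g * D.j) = star B * T.mul D.g := by
      rw [T.A_comm _ hD.g_mem _ hD.j_mem, T.mul_mul' hD.j_mem hD.g_mem, ← mul_assoc, hBj]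
    have h2 : T.mul (D.g * D.j) * B = T.mul D.g * B := by
      rw [T.mul_mul' hD.g_mem hD.j_mem, mul_assoc, hB]
    rw [hD.cross, mul_real_smul, smul_mul_assoc, mul_smul_comm, ← smul_add, mul_smul_comm,
      mul_smul_comm, smul_mul_assoc, smul_mul_assoc]
    congr 1
    simp only [mul_add, add_mul]
    congr 1
    · simp only [← mul_assoc, h1]
    · simp only [mul_assoc, h2]
  have key : star B * D.testOp ω * B - star B * D.driftOp ω * B =
      star B * T.mul W * B +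
        star B * (T.phi0 D.Y * T.mul (D.bet * D.bet * D.b) * T.phi0 D.Y) * B := by
    rw [Colour.testOp_expand D hD, Colour.driftOp, hW, T.mul_add', T.mul_add', T.mul_add',
      mul_real_smul]
    simp only [mul_add, add_mul, mul_sub, sub_mul, smul_sub, mul_smul_comm, smul_mul_assoc,
      smul_smul]
    simp only [mul_add, add_mul, mul_smul_comm, smul_mul_assoc] at hcr
    rw [← hcr]
    abel
  have hsq : 0 ≤ T.omr (star B * (T.phi0 D.Y * T.mul (D.bet * D.bet * D.b) * T.phi0 D.Y) * B) := by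
    refine omr_nonneg (star_left_conjugate_nonneg ?_ _)
    exact (show IsSelfAdjoint (T.phi0 D.Y) from star_phi0 hYs).conjugate_nonneg (T.mul_nonneg' hbb0)
  -- pointwise comparison on the active set
  have hκA := hD.κ_ra.mem
  have hWA : W ∈ T.A := add_mem (add_mem (add_mem
    (T.real_smul_mem_A (mul_mem hκA (T.E_mem _)) _) (mul_mem hκA (phi0A_mem _ _))) hD.neg_mem) hllA
  have hpA : D.testWeight ω ∈ T.A := D.testWeight_mem hD ω
  have htA : t ∈ T.A := T.E_mem _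
  have hEZ : T.IsRA (T.E D.Z) := isRA_E (IsSelfAdjoint.of_nonneg hD.Z_nonneg)
  have hpzR : T.IsRA pz :=
    ⟨phi0A_mem _ _, phi0A_isSelfAdjoint hYs (IsSelfAdjoint.of_nonneg hD.a'_nonneg)⟩
  have hp20 : 0 ≤ p2 := phi0A_nonneg hYs (mul_nonneg_A hD.Bd_mem hbb hD.Bd_nonneg hbb0)
  have hp2R : T.IsRA p2 := ⟨phi0A_mem _ _, IsSelfAdjoint.of_nonneg hp20⟩
  have htR : T.IsRA t := isRA_E hYs
  have hllR : T.IsRA ll := ⟨hllA, IsSelfAdjoint.of_nonneg hll0⟩
  have hnegR : T.IsRA D.neg := ⟨hD.neg_mem, hD.neg_sa⟩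
  have heR : T.IsRA D.eta := ⟨hD.eta_mem, IsSelfAdjoint.of_nonneg hD.eta_nonneg⟩
  have hjR := isRA_of_proj hD.j_mem hD.j_proj
  have hWR : T.IsRA W :=
    ((((hD.κ_ra.mul hEZ).smul ω).add (hD.κ_ra.mul hpzR)).add hnegR).add hllR
  have hwR : T.IsRA (D.testWeight ω) := ⟨hpA, IsSelfAdjoint.of_nonneg (D.testWeight_nonneg hD hω)⟩
  have hpR := (isRA_one.add heR).mul hwR
  have hpp : (1 + D.eta) * D.testWeight ω * D.j ≤ W * D.j := by
    refine (hpR.mul hjR).le_of_val (hWR.mul hjR) fun χ => ?_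
    rw [hpR.val_mul χ hjR, hWR.val_mul χ hjR]
    rcases hjR.val_proj χ hD.j_proj with hj | hj
    · simp [hj]
    rw [hj, mul_one, mul_one]
    have h0 : 0 ≤ T.val χ t := val_nonneg χ htA (T.E_nonneg hD.Y_nonneg)
    have hz := val_nonneg χ (T.E_mem D.Z) (T.E_nonneg hD.Z_nonneg)
    have hpz0 : 0 ≤ T.val χ pz := val_nonneg χ (phi0A_mem _ _) (phi0A_nonneg hYs hD.a'_nonneg)
    have he0 := val_nonneg χ hD.eta_mem hD.eta_nonneg
    have hneg : T.val χ D.eta * T.val χ ll ≤ T.val χ D.neg := by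
      rw [← heR.val_mul χ hllR]
      exact val_mono χ (heR.mul hllR).mem hD.neg_mem hD.lam_le
    have hp2 : T.val χ p2 ≤ D.m * T.val χ pz := by
      have h3 := val_mono χ (phi0A_mem _ _) (phi0A_mem _ _) (phi0A_mono (T := T) hYs hD.bd_le)
      rwa [phi0A_smul, val_smul χ _ (phi0A_mem _ _)] at h3
    have hm := hD.m_nonneg
    have hmarg := hD.margin χ hj
    have hA1 := ((htR.mul hEZ).smul ω).add (htR.mul hpzR)
    have hB1 := ((hD.κ_ra.mul hEZ).smul ω).add (hD.κ_ra.mul hpzR)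
    rw [(isRA_one.add heR).val_mul χ hwR, isRA_one.val_add χ heR, val_one, Colour.testWeight, hW,
      (hA1.add hllR).val_add χ (htR.mul hp2R), hA1.val_add χ hllR,
      ((htR.mul hEZ).smul ω).val_add χ (htR.mul hpzR), (htR.mul hEZ).val_smul, htR.val_mul χ hEZ,
      htR.val_mul χ hpzR, htR.val_mul χ hp2R,
      (hB1.add hnegR).val_add χ hllR, hB1.val_add χ hnegR,
      ((hD.κ_ra.mul hEZ).smul ω).val_add χ (hD.κ_ra.mul hpzR), (hD.κ_ra.mul hEZ).val_smul,
      hD.κ_ra.val_mul χ hEZ, hD.κ_ra.val_mul χ hpzR]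
    set tv := T.val χ t
    set ev := T.val χ D.eta
    set Z := T.val χ (T.E D.Z)
    set κv := T.val χ D.κ
    have e1 : (1 + ev) * (ω * (tv * Z)) ≤ ω * (κv * Z) := by
      have : (1 + ev) * tv ≤ κv := by
        nlinarith [mul_nonneg (mul_nonneg (add_nonneg zero_le_one he0) hm) h0]
      have := mul_le_mul_of_nonneg_right this (mul_nonneg hω hz)
      linarith
    have e2 : (1 + ev) * (tv * T.val χ pz + tv * T.val χ p2) ≤ κv * T.val χ pz := by
      have h1 := mul_le_mul_of_nonneg_left hp2 (mul_nonneg (add_nonneg zero_le_one he0) h0)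
      have h2 := mul_le_mul_of_nonneg_right hmarg hpz0
      linarith
    linarith
  have hmulj : ∀ z ∈ T.A, star B * T.mul (z * D.j) * B = star B * T.mul z * B := fun z hz => by
    rw [T.mul_mul' hz hD.j_mem, mul_assoc (star B), mul_assoc (T.mul z), hB, ← mul_assoc]
  have hWp : T.omr (star B * T.mul ((1 + D.eta) * D.testWeight ω) * B) ≤
      T.omr (star B * T.mul W * B) := by
    rw [← hmulj W hWA, ← hmulj _ hpR.mem]
    exact omr_mono (star_left_conjugate_le_conjugate (mul_mono' hpp) _)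
  have hk := congrArg T.omr key
  rw [omr_sub, omr_add] at hk
  linarith

/-- The weighted second order term of the cavity value, with a variable curvature. -/
lemma third_order_identity {T : TracialMasa M} {Y a y k : M} (ha : T.IsRA a) (hy : T.IsRA y)
    (hk : T.IsRA k) :
    T.tr (a * (T.E (Y * y * Y * y * Y) - T.E (Y * (k * (y * y)) * Y) +
        T.E Y * T.E Y * (k * (y * y)) - T.E Y * T.E Y * T.E Y * (y * y) -
        (2 : ℝ) • (T.E Y * (y * T.phi0A Y y)))) =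
      T.form (T.Phi Y ((Y - T.E Y) * a * (Y - T.E Y))) y -
        T.tr (k * T.phi0A Y a * (y * y)) := by
  have hq := hk.mul (hy.mul hy)
  have h0 := TracialMasa.third_order_identity (Y := Y) ha hy 0
  simp only [zero_smul, sub_zero, add_zero, zero_mul] at h0
  have h1 : T.tr (a * T.E (Y * (k * (y * y)) * Y)) =
      T.tr (k * T.phi0A Y a * (y * y)) + T.tr (a * (T.E Y * T.E Y * (k * (y * y)))) := by
    set q := k * (y * y)
    have e : k * T.phi0A Y a * (y * y) = T.phi0A Y a * q := by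
      rw [T.A_comm k hk.mem _ (phi0A_mem _ _), mul_assoc]
    rw [e, tr_mul_E ha.mem, show a * (Y * q * Y) = a * Y * q * Y by noncomm_ring,
      T.tr_comm, show Y * (a * Y * q) = Y * a * Y * q by noncomm_ring, T.tr_comm,
      ← tr_mul_E hq.mem, phi0A_eq Y ha.mem, T.tr_comm q, sub_mul, T.tr_sub,
      T.A_comm (T.E Y) (T.E_mem Y) a ha.mem]
    simp only [mul_assoc]
    ring
  simp only [mul_sub, mul_add, T.tr_sub, T.tr_add] at h0 ⊢
  linarith

end Vale.Agent.P078.Sharp
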