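import Mathlib
import Vale.Agent.P078.DriftId
import Vale.Agent.P078.Resolvent

/-!
# The excess of the cavity value, and the off-diagonal part of `Φ°` on the bands

For `H = 1 - U F U + R` with `E (U U) = 1` the cavity value is at least `1 / (1 + E (U R U))`, and
the cross term `E (x F x)` of `x = U U - 1` is at most its excess. Consequently the off-diagonal
part of `Y = U H⁻¹ U` is small where the cavity value is close to one.
-/

open scoped ComplexOrder InnerProductSpace Topology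
open Filter

set_option linter.unusedSectionVars false

namespace Vale.Agent.P078.Sharp

universe u

variable {M : Type u} [CStarAlgebra M] [PartialOrder M] [StarOrderedRing M]

/-- `U` is the square root of an operator between `0` and `2` with expectation `1`. -/
structure Adm (T : TracialMasa M) (U : M) : Prop where
  nonneg : 0 ≤ U
  sq_le : U * U ≤ (2 : ℝ) • (1 : M)
  norm_le : ‖U‖ ≤ 2
  E_sq : T.E (U * U) = 1

/-- Hypotheses on one cell of the walk. -/
structure Cell (T : TracialMasa M) (U R F : M) (a : ℝ) : Prop where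
  adm : Adm T U
  R_nonneg : 0 ≤ R
  F_ra : T.IsRA F
  F_nonneg : 0 ≤ F
  F_le : F ≤ 1
  a_pos : 0 < a
  barrier : a • (1 : M) ≤ 1 - U * F * U + R

/-- `U G U` of a cell. -/
noncomputable def cellY (U R F : M) (a : ℝ) : M := U * capInv a (1 - U * F * U + R) * U

/-- `U (1 + R)⁻¹ U`. -/
noncomputable def cellT1 (U R : M) : M := U * capInv 1 (1 + R) * U

variable {T : TracialMasa M} {U R F : M} {a : ℝ}

lemma E_smul_real (T : TracialMasa M) (c : ℝ) (x : M) : T.E (c • x) = c • T.E x := by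
  rw [← Complex.coe_smul, T.E_smul, Complex.coe_smul]

lemma E_mono' (T : TracialMasa M) {x y : M} (h : x ≤ y) : T.E x ≤ T.E y := by
  have := T.E_nonneg (sub_nonneg.2 h)
  rwa [T.E_sub, sub_nonneg] at this

lemma E_conj_A (T : TracialMasa M) {f : M} (hf : f ∈ T.A) (x : M) :
    T.E (f * x) = f * T.E x ∧ T.E (x * f) = T.E x * f := ⟨T.E_mul_left hf x, T.E_mul_right x hf⟩

/-- The scalar estimate on a band. -/
lemma band_arith {ep f tv X ρ X1 W : ℝ} (hep : 0 < ep) (hep1 : ep ≤ 1 / 10000) (hf : 2 / 5 ≤ f)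
    (hf1 : f ≤ 1) (ht0 : 0 < tv) (hts : tv ≤ (1 + 28 * ep) * (1 + f * tv))
    (hu : ep ≤ 2 * (1 - f * (1 + 28 * ep))) (hρ : ρ ≤ ep) (hX0 : 0 ≤ X) (hρ0 : 0 ≤ ρ)
    (hex : 1 / tv + f ≤ 1 - X + ρ) (hX1 : X1 ≤ 2 * X + 4 * ρ)
    (hW : W ≤ tv * (1 - f) ^ 2 - (1 - f) + ρ) :
    ((1 - f)⁻¹) ^ 2 * (10 * X1 + 2 * W) ≤ 16000 * ep * (1 + f * tv) ^ 2 := by
  set q := 1 + f * tv with hq
  have hft : 0 ≤ f * tv := mul_nonneg (by linarith) ht0.le
  have hq1 : 1 ≤ q := by linarith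
  set s := tv / q with hs
  have hsq : tv = s * q := by rw [hs]; field_simp
  have hsS : s ≤ 1 + 28 * ep := by rw [hs, div_le_iff₀ (by linarith)]; exact hts
  have hinv : 1 / s = 1 / tv + f := by rw [hs, hq]; field_simp
  have hs0 : 0 < s := by rw [hs]; positivity
  have hqs : q * (1 - f * s) = 1 := by
    have e1 : q * (f * s) = f * tv := by rw [hsq]; ring
    linarith
  have hfs : 0 < 1 - f * (1 + 28 * ep) := by linarith
  have h1f : 14 * ep ≤ 1 - f := by nlinarith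
  have h1f0 : 0 < 1 - f := by linarith
  have hXb : X ≤ 29 * ep := by
    have h2 : 1 / s ≤ 1 - X + ρ := by linarith
    rw [div_le_iff₀ hs0] at h2
    nlinarith
  have hqb : (1 - f) * q ≤ 57 := by
    have h2 : q * (1 - f * (1 + 28 * ep)) ≤ 1 := by
      have h5 : f * s ≤ f * (1 + 28 * ep) := mul_le_mul_of_nonneg_left hsS (by linarith)
      have := mul_le_mul_of_nonneg_left h5 (by linarith : 0 ≤ q)
      linarith
    have h3 : (1 - f) ≤ 57 * (1 - f * (1 + 28 * ep)) := by nlinarith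
    have h4 := mul_le_mul_of_nonneg_left h3 (by linarith : 0 ≤ q)
    linarith
  have hWb : W ≤ 1597 * ep := by
    have e1 : tv * (1 - f) ^ 2 - (1 - f) = (1 - f) * q * (s - 1) := by
      have e2 : tv * (1 - f) - 1 = q * (s - 1) := by
        have e3 : q * (s - 1) = s * q - q := by ring
        rw [e3, ← hsq, hq]; ring
      calc tv * (1 - f) ^ 2 - (1 - f) = (1 - f) * (tv * (1 - f) - 1) := by ring
        _ = _ := by rw [e2]; ring
    rw [e1] at hW
    have h2 : (1 - f) * q * (s - 1) ≤ (1 - f) * q * (28 * ep) :=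
      mul_le_mul_of_nonneg_left (by linarith) (mul_nonneg h1f0.le (by linarith))
    have h3 : (1 - f) * q * (28 * ep) ≤ 57 * (28 * ep) :=
      mul_le_mul_of_nonneg_right hqb (by linarith)
    linarith
  have hsum : 10 * X1 + 2 * W ≤ 4000 * ep := by linarith
  have hq2 : 1 ≤ 2 * (q * (1 - f)) := by
    have h2 : 1 - f * s ≤ 2 * (1 - f) := by
      have : 1 / s ≤ 1 + ep := by linarith
      rw [div_le_iff₀ hs0] at this
      nlinarith
    have := mul_le_mul_of_nonneg_left h2 (by linarith : 0 ≤ q)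
    linarith
  rw [inv_pow, inv_mul_le_iff₀ (by positivity)]
  refine hsum.trans ?_
  have := mul_le_mul_of_nonneg_left (one_le_pow₀ (n := 2) hq2) (by linarith : 0 ≤ 4000 * ep)
  linarith

namespace Cell

variable (h : Cell T U R F a)
include h

lemma U_sa : IsSelfAdjoint U := IsSelfAdjoint.of_nonneg h.adm.nonneg

lemma R_sa : IsSelfAdjoint R := IsSelfAdjoint.of_nonneg h.R_nonneg

lemma H_sa : IsSelfAdjoint (1 - U * F * U + R) :=
  ((IsSelfAdjoint.one M).sub (IsSelfAdjoint.conjugate_self h.F_ra.sa h.U_sa)).add h.R_sa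

lemma Y_nonneg : 0 ≤ cellY U R F a := h.U_sa.conjugate_nonneg (capInv_nonneg h.a_pos _)

lemma isRA_t : T.IsRA (T.E (cellY U R F a)) :=
  TracialMasa.isRA_E (IsSelfAdjoint.of_nonneg h.Y_nonneg)

lemma isRA_X : T.IsRA (T.E ((U * U - 1) * F * (U * U - 1))) :=
  TracialMasa.isRA_E (IsSelfAdjoint.conjugate_self h.F_ra.sa
    (((IsSelfAdjoint.commute_iff h.U_sa h.U_sa).1 rfl).sub (.one M)))

lemma isRA_ρ : T.IsRA (T.E (U * R * U)) :=
  TracialMasa.isRA_E (IsSelfAdjoint.conjugate_self h.R_sa h.U_sa)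

lemma val_ρ_nonneg (χ : T.Chi) : 0 ≤ T.val χ (T.E (U * R * U)) :=
  TracialMasa.val_nonneg χ (T.E_mem _) (T.E_nonneg (h.U_sa.conjugate_nonneg h.R_nonneg))

lemma val_X_nonneg (χ : T.Chi) : 0 ≤ T.val χ (T.E ((U * U - 1) * F * (U * U - 1))) :=
  TracialMasa.val_nonneg χ (T.E_mem _) (T.E_nonneg
    ((((IsSelfAdjoint.commute_iff h.U_sa h.U_sa).1 rfl).sub (.one M)).conjugate_nonneg h.F_nonneg))

lemma val_F (χ : T.Chi) : 0 ≤ T.val χ F ∧ T.val χ F ≤ 1 := by
  refine ⟨TracialMasa.val_nonneg χ h.F_ra.mem h.F_nonneg, ?_⟩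
  have := TracialMasa.val_mono χ h.F_ra.mem (one_mem _) h.F_le
  rwa [TracialMasa.val_one] at this

/-- The expectation of `U H U`. -/
lemma E_UHU : T.E (U * (1 - U * F * U + R) * U) =
    1 - F - T.E ((U * U - 1) * F * (U * U - 1)) + T.E (U * R * U) := by
  have e : U * (1 - U * F * U + R) * U = (U * U) - ((U * U - 1) * F * (U * U - 1) +
      (U * U) * F + F * (U * U) - F) + U * R * U := by noncomm_ring
  rw [e, T.E_add, T.E_sub, T.E_sub, T.E_add, T.E_add, T.E_mul_right _ h.F_ra.mem,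
    T.E_mul_left h.F_ra.mem, T.E_of_mem h.F_ra.mem, h.adm.E_sq, one_mul, mul_one]
  abel

/-- The excess bound. -/
lemma excess (χ : T.Chi) : 0 < T.val χ (T.E (cellY U R F a)) ∧
    1 / T.val χ (T.E (cellY U R F a)) + T.val χ F ≤
      1 - T.val χ (T.E ((U * U - 1) * F * (U * U - 1))) + T.val χ (T.E (U * R * U)) := by
  set H := 1 - U * F * U + R with hH
  set G := capInv a H with hG
  obtain ⟨hGH, hHG⟩ := capInv_mul_self h.a_pos h.H_sa h.barrier
  set t := T.val χ (T.E (cellY U R F a))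
  set d := 1 - T.val χ F - T.val χ (T.E ((U * U - 1) * F * (U * U - 1))) +
    T.val χ (T.E (U * R * U)) with hd
  have key : ∀ l : ℝ, 2 * l - l ^ 2 * d ≤ t := fun l => by
    have hs : IsSelfAdjoint (1 - l • H) :=
      (IsSelfAdjoint.one M).sub ((IsSelfAdjoint.all l).smul h.H_sa)
    have h0 := h.U_sa.conjugate_nonneg (hs.conjugate_nonneg (capInv_nonneg h.a_pos H))
    have e : U * ((1 - l • H) * G * (1 - l • H)) * U =
        cellY U R F a - (2 * l) • (U * U) + (l ^ 2) • (U * H * U) := by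
      rw [← hH, ← hG] at hGH hHG
      have e1 : (1 - l • H) * G * (1 - l • H) = G - (2 * l) • (1 : M) + (l ^ 2) • H := by
        simp only [sub_mul, mul_sub, one_mul, mul_one, smul_mul_assoc, mul_smul_comm, hGH, hHG,
          smul_sub, smul_smul, sq, two_mul, add_smul]
        abel
      rw [e1]
      simp only [cellY, ← hH, ← hG, mul_add, add_mul, mul_sub, sub_mul, mul_smul_comm,
        smul_mul_assoc, mul_one]
    rw [← hG, e] at h0
    have h1 := T.E_nonneg h0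
    rw [T.E_add, T.E_sub, E_smul_real, E_smul_real, h.adm.E_sq, hH, h.E_UHU] at h1
    have hq := ((TracialMasa.isRA_one.sub h.F_ra).sub h.isRA_X).add h.isRA_ρ
    have hall := (h.isRA_t.sub (TracialMasa.isRA_one.smul (2 * l))).add (hq.smul (l ^ 2))
    have h2 := TracialMasa.val_nonneg χ hall.mem h1
    rw [(h.isRA_t.sub (TracialMasa.isRA_one.smul (2 * l))).val_add χ (hq.smul _),
      h.isRA_t.val_sub χ (TracialMasa.isRA_one.smul _), TracialMasa.val_smul_one, hq.val_smul,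
      ((TracialMasa.isRA_one.sub h.F_ra).sub h.isRA_X).val_add χ h.isRA_ρ,
      (TracialMasa.isRA_one.sub h.F_ra).val_sub χ h.isRA_X,
      TracialMasa.isRA_one.val_sub χ h.F_ra, TracialMasa.val_one, ← hd] at h2
    linarith
  have hd0 : 0 < d := by
    by_contra hc
    have := key ((|t| + 1) / 2)
    nlinarith [sq_nonneg ((|t| + 1) / 2), le_abs_self t, not_lt.1 hc,
      mul_nonneg (sq_nonneg ((|t| + 1) / 2)) (neg_nonneg.2 (not_lt.1 hc))]
  have h3 : 1 / d ≤ t := by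
    have := key (1 / d)
    have e : 2 * (1 / d) - (1 / d) ^ 2 * d = 1 / d := by field_simp; ring
    linarith
  have ht : 0 < t := lt_of_lt_of_le (by positivity) h3
  refine ⟨ht, ?_⟩
  have h4 : 1 / t ≤ d := (one_div_le ht hd0).2 h3
  linarith

lemma one_le_oneR : (1 : ℝ) • (1 : M) ≤ 1 + R := by
  rw [one_smul]; exact le_add_of_nonneg_right h.R_nonneg

lemma oneR_sa : IsSelfAdjoint (1 + R) := (IsSelfAdjoint.one M).add h.R_sa

lemma G1_facts : 0 ≤ 1 - capInv 1 (1 + R) ∧ 1 - capInv 1 (1 + R) ≤ R := by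
  obtain ⟨h1, h2⟩ := capInv_mul_self one_pos h.oneR_sa h.one_le_oneR
  set G1 := capInv 1 (1 + R)
  have h0 : 0 ≤ G1 := capInv_nonneg one_pos _
  refine ⟨sub_nonneg.2 ?_, ?_⟩
  · have hn : ‖G1‖ ≤ 1 := (norm_capInv_le one_pos _).trans_eq inv_one
    exact (CStarAlgebra.norm_le_one_iff_of_nonneg G1 h0).1 hn
  · rw [mul_add, mul_one] at h1
    rw [add_mul, one_mul] at h2
    have e : 1 - G1 = R - R * G1 * R := by
      have e1 : 1 - G1 = G1 * R := sub_eq_iff_eq_add'.2 h1.symm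
      have e2 : G1 = 1 - R * G1 := eq_sub_iff_add_eq.2 h2
      calc 1 - G1 = G1 * R := e1
        _ = (1 - R * G1) * R := by rw [← e2]
        _ = _ := by rw [sub_mul, one_mul]
    rw [e]
    exact sub_le_self _ (h.R_sa.conjugate_nonneg h0)

lemma T1_nonneg : 0 ≤ cellT1 U R := h.U_sa.conjugate_nonneg (capInv_nonneg one_pos _)

lemma T1_le : cellT1 U R ≤ U * U := by
  have := h.U_sa.conjugate_nonneg h.G1_facts.1
  rw [mul_sub, sub_mul, mul_one, sub_nonneg] at this
  exact this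

lemma norm_x1_le : ‖cellT1 U R - 1‖ ≤ 3 := by
  have h1 : ‖cellT1 U R‖ ≤ 2 := by
    refine norm_le_of_neg_le_of_le zero_le_two (IsSelfAdjoint.of_nonneg h.T1_nonneg) ?_
      (h.T1_le.trans h.adm.sq_le)
    exact (neg_nonpos.2 (smul_nonneg zero_le_two zero_le_one)).trans h.T1_nonneg
  refine (norm_sub_le _ _).trans ?_
  linarith [(IsStarProjection.one M).norm_le]

lemma defect_le : U * U - cellT1 U R ≤ U * R * U := by
  have := h.U_sa.conjugate_le_conjugate h.G1_facts.2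
  rwa [mul_sub, sub_mul, mul_one] at this

lemma isRA_t1 : T.IsRA (T.E (cellT1 U R)) :=
  TracialMasa.isRA_E (IsSelfAdjoint.of_nonneg h.T1_nonneg)

lemma val_t1 (χ : T.Chi) : 1 - T.val χ (T.E (U * R * U)) ≤ T.val χ (T.E (cellT1 U R)) ∧
    T.val χ (T.E (cellT1 U R)) ≤ 1 := by
  have h1 := TracialMasa.val_mono χ (T.E_mem _) (T.E_mem _) (E_mono' T h.T1_le)
  have h2 := TracialMasa.val_mono χ (T.E_mem _) (T.E_mem _) (E_mono' T h.defect_le)
  rw [T.E_sub, h.adm.E_sq, TracialMasa.isRA_one.val_sub χ h.isRA_t1, TracialMasa.val_one] at h2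
  rw [h.adm.E_sq, TracialMasa.val_one] at h1
  exact ⟨by linarith, h1⟩

/-- The resolvent identity. -/
lemma Y_eq : cellY U R F a = cellT1 U R + cellT1 U R * F * cellY U R F a ∧
    cellY U R F a = cellT1 U R + cellY U R F a * F * cellT1 U R := by
  set H := 1 - U * F * U + R with hH
  set G := capInv a H with hG
  set G1 := capInv 1 (1 + R) with hG1
  obtain ⟨hGH, hHG⟩ := capInv_mul_self h.a_pos h.H_sa h.barrier
  obtain ⟨h1, h2⟩ := capInv_mul_self one_pos h.oneR_sa h.one_le_oneR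
  have hUFU : U * F * U = (1 + R) - H := by rw [hH]; abel
  have e1 : G = G1 + G1 * (U * F * U) * G := by
    rw [hUFU, mul_sub, h1, sub_mul, one_mul, mul_assoc, hHG, mul_one, add_sub_cancel]
  have e2 : G = G1 + G * (U * F * U) * G1 := by
    rw [hUFU, mul_sub, sub_mul, mul_assoc, h2, mul_one, hGH, one_mul, add_sub_cancel]
  constructor
  · show U * G * U = U * G1 * U + U * G1 * U * F * (U * G * U)
    conv_lhs => rw [e1]
    noncomm_ring
  · show U * G * U = U * G1 * U + U * G * U * F * (U * G1 * U)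
    conv_lhs => rw [e2]
    noncomm_ring

/-- The bound on `E (x₁ F x₁)`. -/
lemma val_X1 (χ : T.Chi) : T.val χ (T.E ((cellT1 U R - 1) * F * (cellT1 U R - 1))) ≤
    2 * T.val χ (T.E ((U * U - 1) * F * (U * U - 1))) + 4 * T.val χ (T.E (U * R * U)) := by
  set δ := U * U - cellT1 U R with hδ
  have hUU : IsSelfAdjoint (U * U) := (IsSelfAdjoint.commute_iff h.U_sa h.U_sa).1 rfl
  have hδ0 : 0 ≤ δ := sub_nonneg.2 h.T1_le
  have hδs := IsSelfAdjoint.of_nonneg hδ0
  have hδ2 : δ * δ ≤ (2 : ℝ) • δ := by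
    have h1 : δ ≤ (2 : ℝ) • (1 : M) := (sub_le_self _ h.T1_nonneg).trans h.adm.sq_le
    have hc : Commute ((2 : ℝ) • (1 : M) - δ) δ :=
      ((Commute.one_left δ).smul_left _).sub_left (Commute.refl δ)
    have := hc.mul_nonneg (sub_nonneg.2 h1) hδ0
    rwa [sub_mul, smul_mul_assoc, one_mul, sub_nonneg] at this
  have hδF : δ * F * δ ≤ (2 : ℝ) • δ := by
    have := hδs.conjugate_le_conjugate h.F_le
    rw [mul_one] at this
    exact this.trans hδ2
  set x := U * U - 1 with hx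
  have hxs : IsSelfAdjoint (x + δ) := (hUU.sub (.one M)).add hδs
  have h0 := hxs.conjugate_nonneg h.F_nonneg
  have hle : (cellT1 U R - 1) * F * (cellT1 U R - 1) ≤
      (2 : ℝ) • (x * F * x) + (4 : ℝ) • (U * R * U) := by
    refine (le_add_of_nonneg_right h0).trans ?_
    have e : (cellT1 U R - 1) * F * (cellT1 U R - 1) + (x + δ) * F * (x + δ) =
        (2 : ℝ) • (x * F * x) + (2 : ℝ) • (δ * F * δ) := by
      rw [show cellT1 U R - 1 = x - δ by rw [hx, hδ]; abel, two_smul, two_smul]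
      noncomm_ring
    rw [e]
    refine add_le_add le_rfl ((smul_le_smul_of_nonneg_left hδF zero_le_two).trans ?_)
    rw [smul_smul, show (2 : ℝ) * 2 = 4 by norm_num]
    exact smul_le_smul_of_nonneg_left h.defect_le (by norm_num)
  have hL : T.IsRA (T.E ((cellT1 U R - 1) * F * (cellT1 U R - 1))) :=
    TracialMasa.isRA_E (IsSelfAdjoint.conjugate_self h.F_ra.sa
      ((IsSelfAdjoint.of_nonneg h.T1_nonneg).sub (.one M)))
  have h2 := TracialMasa.val_mono χ hL.mem (T.E_mem _) (E_mono' T hle)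
  rw [T.E_add, E_smul_real, E_smul_real, (h.isRA_X.smul _).val_add χ (h.isRA_ρ.smul _),
    h.isRA_X.val_smul, h.isRA_ρ.val_smul] at h2
  exact h2

/-- The bound on `E (x₁ F Y F x₁)`. -/
lemma val_W1 (χ : T.Chi) :
    T.val χ (T.E ((cellT1 U R - 1) * F * cellY U R F a * F * (cellT1 U R - 1))) ≤
      T.val χ (T.E (cellY U R F a)) * (1 - T.val χ F) ^ 2 - (1 - T.val χ F) +
        T.val χ (T.E (U * R * U)) := by
  obtain ⟨e1, e2⟩ := h.Y_eq
  set Y := cellY U R F a
  set T1 := cellT1 U R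
  have hF := h.F_ra
  have hT1s := IsSelfAdjoint.of_nonneg h.T1_nonneg
  have eA : T1 * F * Y = Y - T1 := eq_sub_iff_add_eq'.2 e1.symm
  have eB : Y * F * T1 = Y - T1 := eq_sub_iff_add_eq'.2 e2.symm
  have e : (T1 - 1) * F * Y * F * (T1 - 1) =
      (Y - T1 - T1 * F * T1) - (Y - T1) * F - F * (Y - T1) + F * Y * F := by
    calc (T1 - 1) * F * Y * F * (T1 - 1)
        = T1 * F * Y * F * T1 - T1 * F * Y * F - F * (Y * F * T1) + F * Y * F := by noncomm_ring
      _ = (Y - T1) * F * T1 - (Y - T1) * F - F * (Y - T1) + F * Y * F := by rw [eA, eB]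
      _ = (Y * F * T1 - T1 * F * T1) - (Y - T1) * F - F * (Y - T1) + F * Y * F := by
          noncomm_ring
      _ = _ := by rw [eB]
  have ht := h.isRA_t
  have ht1 := h.isRA_t1
  have hm : T.IsRA (T.E (T1 * F * T1)) :=
    TracialMasa.isRA_E (IsSelfAdjoint.conjugate_self hF.sa hT1s)
  have hd := ht.sub ht1
  have hE : T.E ((T1 - 1) * F * Y * F * (T1 - 1)) =
      (T.E Y - T.E T1 - T.E (T1 * F * T1)) - (T.E Y - T.E T1) * F - F * (T.E Y - T.E T1) +
        F * T.E Y * F := by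
    rw [e, T.E_add, T.E_sub, T.E_sub, T.E_sub, T.E_sub, T.E_mul_right (F * Y) hF.mem,
      T.E_mul_left hF.mem, T.E_mul_left hF.mem, T.E_mul_right _ hF.mem, T.E_sub]
  rw [hE, (((hd.sub hm).sub (hd.mul hF)).sub (hF.mul hd)).val_add χ ((hF.mul ht).mul hF),
    ((hd.sub hm).sub (hd.mul hF)).val_sub χ (hF.mul hd), (hd.sub hm).val_sub χ (hd.mul hF),
    hd.val_sub χ hm, hd.val_mul χ hF, hF.val_mul χ hd, (hF.mul ht).val_mul χ hF,
    hF.val_mul χ ht, ht.val_sub χ ht1]
  have hlow : T.val χ (T.E T1) * T.val χ F * T.val χ (T.E T1) ≤ T.val χ (T.E (T1 * F * T1)) := by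
    have h0 := T.E_nonneg ((hT1s.sub ht1.sa).conjugate_nonneg h.F_nonneg)
    have hp : T.E T1 * F ∈ T.A := mul_mem (T.E_mem _) hF.mem
    have e3 : (T1 - T.E T1) * F * (T1 - T.E T1) =
        T1 * F * T1 - T1 * (F * T.E T1) - T.E T1 * F * T1 + T.E T1 * F * T.E T1 := by
      noncomm_ring
    rw [e3, T.E_add, T.E_sub, T.E_sub, T.E_mul_right _ (mul_mem hF.mem (T.E_mem _)),
      T.E_mul_left hp, T.E_of_mem (mul_mem hp (T.E_mem _)),
      show T.E T1 * (F * T.E T1) = T.E T1 * F * T.E T1 by rw [mul_assoc]] at h0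
    have hq := (ht1.mul hF).mul ht1
    have h4 := TracialMasa.val_nonneg χ (((hm.sub hq).sub hq).add hq).mem h0
    rw [((hm.sub hq).sub hq).val_add χ hq, (hm.sub hq).val_sub χ hq, hm.val_sub χ hq,
      (ht1.mul hF).val_mul χ ht1, ht1.val_mul χ hF] at h4
    linarith
  obtain ⟨hl, hu⟩ := h.val_t1 χ
  obtain ⟨f0, f1⟩ := h.val_F χ
  have hρ := h.val_ρ_nonneg χ
  have ht10 : 0 ≤ T.val χ (T.E T1) :=
    TracialMasa.val_nonneg χ (T.E_mem _) (T.E_nonneg h.T1_nonneg)
  nlinarith [mul_nonneg (sub_nonneg.2 hu)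
    (mul_nonneg f0 (sub_nonneg.2 hu) : 0 ≤ T.val χ F * (1 - T.val χ (T.E T1)))]

/-- Splitting of the off-diagonal part. -/
lemma conj_phi0A_le {e : M} (heA : e ∈ T.A) (heP : IsStarProjection e) :
    (1 - F) * T.phi0A (cellY U R F a) e * (1 - F) ≤
      (2 : ℝ) • T.E ((cellT1 U R - 1) * e * (cellT1 U R - 1)) +
      (2 : ℝ) • T.E ((cellT1 U R - 1) * F * cellY U R F a * e * cellY U R F a * F *
        (cellT1 U R - 1)) := by
  set Y := cellY U R F a with hY
  set x1 := cellT1 U R - 1 with hx1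
  have hF := h.F_ra
  have hYs : IsSelfAdjoint Y := IsSelfAdjoint.of_nonneg h.Y_nonneg
  have hx1s : IsSelfAdjoint x1 := (IsSelfAdjoint.of_nonneg h.T1_nonneg).sub (.one M)
  set Z := (1 - F) * Y with hZ
  have hF1 : 1 - F ∈ T.A := sub_mem (one_mem _) hF.mem
  have hZ1 : Z - 1 = x1 + x1 * F * Y := by
    obtain ⟨e1, -⟩ := h.Y_eq
    rw [← hY] at e1
    have e2 : cellT1 U R * F * Y = Y - cellT1 U R := eq_sub_iff_add_eq'.2 e1.symm
    rw [hx1, sub_mul, sub_mul, one_mul, e2, hZ]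
    noncomm_ring
  have hstar : star Z = Y * (1 - F) := by
    rw [hZ, star_mul, hYs.star_eq, ((TracialMasa.isRA_one (T := T)).sub hF).sa.star_eq]
  have h0 : 0 ≤ (T.E Z - 1) * e * star (T.E Z - 1) :=
    star_right_conjugate_nonneg heP.nonneg _
  have h1 : (1 - F) * T.phi0A Y e * (1 - F) =
      T.E ((Z - 1) * e * star (Z - 1)) - (T.E Z - 1) * e * star (T.E Z - 1) := by
    rw [TracialMasa.phi0A_eq Y heA, mul_sub (1 - F) (T.E (Y * e * Y)) _,
      sub_mul ((1 - F) * T.E (Y * e * Y)) _ (1 - F), ← T.E_mul_left hF1, ← T.E_mul_right _ hF1,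
      show (1 - F) * (Y * e * Y) * (1 - F) = Z * e * star Z by rw [hstar, hZ]; noncomm_ring]
    have e4 : (1 - F) * (T.E Y * e * T.E Y) * (1 - F) = T.E Z * e * star (T.E Z) := by
      rw [← T.E_star, hstar, hZ, T.E_mul_left hF1, T.E_mul_right _ hF1]
      noncomm_ring
    rw [e4]
    simp only [star_sub, star_one, sub_mul, mul_sub, one_mul, mul_one, T.E_sub]
    rw [T.E_mul_right _ heA, T.E_mul_left heA, T.E_of_mem heA, ← T.E_star]
    abel
  rw [h1]
  refine (sub_le_self _ h0).trans ?_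
  rw [← E_smul_real, ← E_smul_real, ← T.E_add]
  refine E_mono' T ?_
  rw [hZ1]
  have h2 : 0 ≤ (x1 - x1 * F * Y) * e * star (x1 - x1 * F * Y) :=
    star_right_conjugate_nonneg heP.nonneg _
  refine (le_add_of_nonneg_right h2).trans_eq ?_
  simp only [star_add, star_sub, star_mul, hx1s.star_eq, hYs.star_eq, hF.sa.star_eq, two_smul]
  noncomm_ring

/-- The off-diagonal bound on a band. -/
theorem offdiag {j : M} (hjA : j ∈ T.A) (hjP : IsStarProjection j) {ep : ℝ} (hep : 0 < ep)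
    (hep1 : ep ≤ 1 / 10000)
    (hj : ∀ χ : T.Chi, T.val χ j = 1 → 2 / 5 ≤ T.val χ F ∧
      T.val χ (T.E (cellY U R F a)) ≤
        (1 + 28 * ep) * (1 + T.val χ F * T.val χ (T.E (cellY U R F a))) ∧
      ep ≤ 2 * (1 - T.val χ F * (1 + 28 * ep)) ∧ T.val χ (T.E (U * R * U)) ≤ ep)
    {b e : M} (hb : b ∈ T.A) (hb0 : 0 ≤ b) (hbj : b * j = b) (heA : e ∈ T.A)
    (heP : IsStarProjection e) (hej : e * j = e) {c η h' : ℝ} (hc : 0 ≤ c) (hη : 0 < η)
    (hh : h' ≤ 1 / 100) (hcell : ‖(T.E (cellY U R F a) - c • 1) * e‖ ≤ 2 * h') :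
    T.tr (b * T.phi0A (cellY U R F a) e) ≤
      (c + η) * T.tr (b * ((16000 * ep) • ((1 + F * T.E (cellY U R F a)) *
        (1 + F * T.E (cellY U R F a))))) +
        18 / (14 * ep) ^ 2 * (‖b‖ * ‖cellY U R F a‖ ^ 2 / η ^ 2) *
          T.n2 (e * cellY U R F a * e - c • e) ^ 2 := by
  set Y := cellY U R F a with hY
  set t := T.E Y with htdef
  set x1 := cellT1 U R - 1 with hx1
  have hF := h.F_ra
  have ht := h.isRA_t
  have hYs := IsSelfAdjoint.of_nonneg h.Y_nonneg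
  have hx1s : IsSelfAdjoint x1 := (IsSelfAdjoint.of_nonneg h.T1_nonneg).sub (.one M)
  have hjR := TracialMasa.isRA_of_proj hjA hjP
  have heR := TracialMasa.isRA_of_proj heA heP
  have hbR : T.IsRA b := ⟨hb, IsSelfAdjoint.of_nonneg hb0⟩
  set v := capInv (14 * ep) (1 - F) with hv
  have hvR : T.IsRA v := (TracialMasa.isRA_one.sub hF).cfc _
  have hvv : ∀ χ, T.val χ v = (max (14 * ep) (1 - T.val χ F))⁻¹ := fun χ => by
    rw [hv, capInv, (TracialMasa.isRA_one.sub hF).val_cfc χ (continuous_capInv (by positivity)),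
      TracialMasa.isRA_one.val_sub χ hF, TracialMasa.val_one]
  set b2 := b * v * v with hb2
  have hb2R : T.IsRA b2 := (hbR.mul hvR).mul hvR
  have hb20 : 0 ≤ b2 := by
    refine hb2R.nonneg_of_val fun χ => ?_
    rw [hb2, (hbR.mul hvR).val_mul χ hvR, hbR.val_mul χ hvR, mul_assoc]
    exact mul_nonneg (TracialMasa.val_nonneg χ hb hb0) (mul_self_nonneg _)
  -- facts on the band
  have hband : ∀ χ : T.Chi, T.val χ j = 1 →
      14 * ep ≤ 1 - T.val χ F ∧
      1 / 2 + 2 * h' ≤ T.val χ t ∧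
      (T.val χ v) ^ 2 * (10 * T.val χ (T.E (x1 * F * x1)) + 2 * T.val χ (T.E (x1 * F * Y * F * x1)))
        ≤ 16000 * ep * (1 + T.val χ F * T.val χ t) ^ 2 := by
    intro χ hχ
    obtain ⟨hf, hts, hu, hρ⟩ := hj χ hχ
    obtain ⟨ht0, hex⟩ := h.excess χ
    have hX0 := h.val_X_nonneg χ
    have hρ0 := h.val_ρ_nonneg χ
    have hX1 := h.val_X1 χ
    have hW := h.val_W1 χ
    rw [← hY] at ht0 hex hW
    rw [← hx1] at hX1 hW
    rw [← htdef] at ht0 hex hW
    set f := T.val χ F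
    set tv := T.val χ t
    set X := T.val χ (T.E ((U * U - 1) * F * (U * U - 1)))
    set ρ := T.val χ (T.E (U * R * U))
    have h1f : 14 * ep ≤ 1 - f := by nlinarith
    refine ⟨h1f, ?_, ?_⟩
    · have h1 : 1 / tv ≤ 1 + ep := by linarith
      rw [div_le_iff₀ ht0] at h1
      nlinarith
    rw [hvv χ, max_eq_right h1f]
    exact band_arith hep hep1 hf (h.val_F χ).2 ht0 hts hu hρ hX0 hρ0 hex hX1 hW
  -- splitting
  have hF1 : 1 - F ∈ T.A := sub_mem (one_mem _) hF.mem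
  have hS1 : (1 - F) * T.phi0A Y e * (1 - F) ≤
      (2 : ℝ) • T.E (x1 * e * x1) + (2 : ℝ) • T.E (x1 * F * Y * e * Y * F * x1) :=
    h.conj_phi0A_le heA heP
  have hphiA := TracialMasa.phi0A_mem (T := T) Y e
  have hp0 := TracialMasa.phi0A_nonneg (T := T) hYs heP.nonneg
  have hpR : T.IsRA (T.phi0A Y e) := ⟨hphiA, IsSelfAdjoint.of_nonneg hp0⟩
  have hstep1 : T.tr (b * T.phi0A Y e) ≤ 2 * T.tr (b2 * (x1 * e * x1)) +
      2 * T.tr (b2 * (x1 * F * Y * e * Y * F * x1)) := by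
    have h1R := (TracialMasa.isRA_one (T := T)).sub hF
    have e1 : b * T.phi0A Y e = b2 * ((1 - F) * T.phi0A Y e * (1 - F)) := by
      refine (hbR.mul hpR).eq_of_val (hb2R.mul ((h1R.mul hpR).mul h1R)) fun χ => ?_
      rw [hbR.val_mul χ hpR, hb2R.val_mul χ ((h1R.mul hpR).mul h1R), (h1R.mul hpR).val_mul χ h1R,
        h1R.val_mul χ hpR, TracialMasa.isRA_one.val_sub χ hF, TracialMasa.val_one, hb2,
        (hbR.mul hvR).val_mul χ hvR, hbR.val_mul χ hvR, hvv χ]
      rcases hjR.val_proj χ hjP with hj0 | hj1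
      · have : T.val χ b = 0 := by rw [← hbj, hbR.val_mul χ hjR, hj0, mul_zero]
        simp [this]
      · obtain ⟨h1f, -, -⟩ := hband χ hj1
        rw [max_eq_right h1f]
        have : (1 - T.val χ F) ≠ 0 := by linarith
        field_simp
    rw [e1]
    refine (T.tr_mul_mono_right hb20 hS1).trans_eq ?_
    rw [mul_add, T.tr_add, mul_smul_comm, mul_smul_comm, T.tr_smul, T.tr_smul,
      TracialMasa.tr_mul_E hb2R.mem, TracialMasa.tr_mul_E hb2R.mem]
  rcases eq_or_ne e 0 with he0 | he0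
  · have : T.phi0A Y e = 0 := by rw [he0, TracialMasa.phi0A, mul_zero, zero_mul, T.E_zero]
    rw [this, mul_zero, show T.tr (0 : M) = 0 by simp [TracialMasa.tr]]
    refine add_nonneg (mul_nonneg (by linarith) (T.tr_mul_nonneg hb0 ?_)) (by positivity)
    refine smul_nonneg (by positivity) ?_
    have h1 := (TracialMasa.isRA_one (T := T)).add (hF.mul ht)
    exact (h1.mul h1).nonneg_of_val fun χ => by rw [h1.val_mul χ h1]; exact mul_self_nonneg _
  have hc2 : 1 ≤ 2 * (c + η) := by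
    obtain ⟨χ, hχ⟩ : ∃ χ : T.Chi, T.val χ e = 1 := by
      by_contra hc'
      push Not at hc'
      exact he0 (heR.eq_of_val TracialMasa.isRA_zero fun χ => by
        rw [TracialMasa.val_zero]; exact (heR.val_proj χ heP).resolve_right (hc' χ))
    have hjχ : T.val χ j = 1 := by
      have := congrArg (T.val χ) hej
      rwa [heR.val_mul χ hjR, hχ, one_mul] at this
    have hz := (ht.sub (TracialMasa.isRA_one.smul c)).mul heR
    have h5 := (hz.abs_val_le χ).trans hcell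
    rw [(ht.sub (TracialMasa.isRA_one.smul c)).val_mul χ heR,
      ht.val_sub χ (TracialMasa.isRA_one.smul c), TracialMasa.val_smul_one, hχ, mul_one] at h5
    linarith [(abs_le.1 h5).2, (hband χ hjχ).2.1]
  -- the first term
  have hterm1 : T.tr (b2 * (x1 * e * x1)) ≤
      5 / 2 * (2 * (c + η)) * T.tr (b2 * T.E (x1 * F * x1)) := by
    have he5 : e ≤ (5 / 2 : ℝ) • F := by
      refine heR.le_of_val (hF.smul _) fun χ => ?_
      rw [hF.val_smul]
      rcases heR.val_proj χ heP with h0 | h1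
      · rw [h0]; linarith [(h.val_F χ).1]
      · have hjχ : T.val χ j = 1 := by
          have := congrArg (T.val χ) hej
          rwa [heR.val_mul χ hjR, h1, one_mul] at this
        rw [h1]; linarith [(hj χ hjχ).1]
    have h1 := T.tr_mul_mono_right hb20 (hx1s.conjugate_le_conjugate he5)
    rw [mul_smul_comm, smul_mul_assoc, mul_smul_comm, T.tr_smul] at h1
    rw [TracialMasa.tr_mul_E hb2R.mem]
    have h2 : 0 ≤ T.tr (b2 * (x1 * F * x1)) :=
      T.tr_mul_nonneg hb20 (hx1s.conjugate_nonneg h.F_nonneg)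
    refine h1.trans ?_
    nlinarith
  -- the second term
  have hterm2 : T.tr (b2 * (x1 * F * Y * e * Y * F * x1)) ≤
      (c + η) * T.tr (b2 * T.E (x1 * F * Y * F * x1)) +
        9 / (14 * ep) ^ 2 * (‖b‖ * ‖Y‖ ^ 2 / η ^ 2) * T.n2 (e * Y * e - c • e) ^ 2 := by
    set b' := F * x1 * b2 * x1 * F with hb'
    have hb'0 : 0 ≤ b' := by
      have h1 := hF.sa.conjugate_nonneg (hx1s.conjugate_nonneg hb20)
      calc (0 : M) ≤ F * (x1 * b2 * x1) * F := h1
        _ = b' := by rw [hb']; noncomm_ring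
    have hk := TracialMasa.tr_conj_le (T := T) h.Y_nonneg hb'0 heP hc hη
    have e1 : T.tr (b' * (Y * e * Y)) = T.tr (b2 * (x1 * F * Y * e * Y * F * x1)) := by
      rw [hb', show F * x1 * b2 * x1 * F * (Y * e * Y) =
        (F * x1) * (b2 * (x1 * F * Y * e * Y)) by noncomm_ring, T.tr_comm]
      congr 1; noncomm_ring
    have e2 : T.tr (b' * Y) = T.tr (b2 * T.E (x1 * F * Y * F * x1)) := by
      rw [TracialMasa.tr_mul_E hb2R.mem, hb', show F * x1 * b2 * x1 * F * Y =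
        (F * x1) * (b2 * (x1 * F * Y)) by noncomm_ring, T.tr_comm]
      congr 1; noncomm_ring
    rw [← hY, e1, e2] at hk
    refine hk.trans (add_le_add le_rfl (mul_le_mul_of_nonneg_right ?_ (sq_nonneg _)))
    have hvn : ‖v‖ ≤ (14 * ep)⁻¹ := norm_capInv_le (by positivity) _
    have hFn : ‖F‖ ≤ 1 := (CStarAlgebra.norm_le_one_iff_of_nonneg F h.F_nonneg).2 h.F_le
    have hxn : ‖x1‖ ≤ 3 := h.norm_x1_le
    have hbn : ‖b'‖ ≤ 9 / (14 * ep) ^ 2 * ‖b‖ := by
      calc ‖b'‖ ≤ ‖F‖ * ‖x1‖ * (‖b‖ * ‖v‖ * ‖v‖) * ‖x1‖ * ‖F‖ := by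
            refine (norm_mul_le _ _).trans ?_; gcongr
            refine (norm_mul_le _ _).trans ?_; gcongr
            refine (norm_mul_le _ _).trans ?_; gcongr
            · exact norm_mul_le _ _
            · exact norm_mul₃_le
        _ ≤ 1 * 3 * (‖b‖ * (14 * ep)⁻¹ * (14 * ep)⁻¹) * 3 * 1 := by gcongr
        _ = _ := by field_simp; ring
    calc ‖b'‖ * ‖Y‖ ^ 2 / η ^ 2 ≤ 9 / (14 * ep) ^ 2 * ‖b‖ * ‖Y‖ ^ 2 / η ^ 2 := by gcongr
      _ = _ := by ring
  have hX1R : T.IsRA (T.E (x1 * F * x1)) :=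
    TracialMasa.isRA_E (IsSelfAdjoint.conjugate_self hF.sa hx1s)
  have hW1R : T.IsRA (T.E (x1 * F * Y * F * x1)) := by
    refine TracialMasa.isRA_E ?_
    rw [show x1 * F * Y * F * x1 = x1 * (F * Y * F) * x1 by noncomm_ring]
    exact IsSelfAdjoint.conjugate_self (IsSelfAdjoint.conjugate_self hYs hF.sa) hx1s
  have hqR := (TracialMasa.isRA_one (T := T)).add (hF.mul ht)
  have hfinal : b2 * ((10 : ℝ) • T.E (x1 * F * x1) + (2 : ℝ) • T.E (x1 * F * Y * F * x1)) ≤
      b * ((16000 * ep) • ((1 + F * t) * (1 + F * t))) := by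
    refine (hb2R.mul ((hX1R.smul _).add (hW1R.smul _))).le_of_val
      (hbR.mul ((hqR.mul hqR).smul _)) fun χ => ?_
    rw [hb2R.val_mul χ ((hX1R.smul _).add (hW1R.smul _)),
      (hX1R.smul _).val_add χ (hW1R.smul _), hX1R.val_smul, hW1R.val_smul,
      hbR.val_mul χ ((hqR.mul hqR).smul _), (hqR.mul hqR).val_smul, hqR.val_mul χ hqR,
      TracialMasa.isRA_one.val_add χ (hF.mul ht), TracialMasa.val_one, hF.val_mul χ ht, hb2,
      (hbR.mul hvR).val_mul χ hvR, hbR.val_mul χ hvR]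
    rcases hjR.val_proj χ hjP with hj0 | hj1
    · have : T.val χ b = 0 := by rw [← hbj, hbR.val_mul χ hjR, hj0, mul_zero]
      simp [this]
    · obtain ⟨-, -, hk⟩ := hband χ hj1
      have := mul_le_mul_of_nonneg_left hk (TracialMasa.val_nonneg χ hb hb0)
      linarith
  have hf := mul_le_mul_of_nonneg_left (T.tr_mono hfinal) (by linarith : 0 ≤ c + η)
  rw [mul_add, T.tr_add, mul_smul_comm, mul_smul_comm, T.tr_smul, T.tr_smul] at hf
  have e18 : 18 / (14 * ep) ^ 2 * (‖b‖ * ‖Y‖ ^ 2 / η ^ 2) * T.n2 (e * Y * e - c • e) ^ 2 =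
      2 * (9 / (14 * ep) ^ 2 * (‖b‖ * ‖Y‖ ^ 2 / η ^ 2) * T.n2 (e * Y * e - c • e) ^ 2) := by ring
  rw [e18]
  linarith

end Cell

end Vale.Agent.P078.Sharp
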