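import Mathlib
import Vale.Agent.P078.Scalar

/-!
# Second-order expansion of the two-sided quality, with a variable curvature
-/

namespace Vale.Agent.P078.Sharp

/-- The parameter box. -/
def box (B : ℝ) : Set (ℝ × ℝ × ℝ × ℝ × ℝ × ℝ × ℝ) :=
  Set.Icc 0 1 ×ˢ Set.Icc 0 B ×ˢ Set.Icc 0 B ×ˢ Set.Icc (-B) B ×ˢ Set.Icc (-B) B ×ˢ Set.Icc (-B) B ×ˢ
    Set.Icc (-B) B

lemma isCompact_box (B : ℝ) : IsCompact (box B) :=
  isCompact_Icc.prod (isCompact_Icc.prod (isCompact_Icc.prod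
    (isCompact_Icc.prod (isCompact_Icc.prod (isCompact_Icc.prod isCompact_Icc)))))

lemma exists_bound_box (B : ℝ) (f : ℝ → ℝ → ℝ → ℝ → ℝ → ℝ → ℝ → ℝ → ℝ)
    (hf : Continuous fun p : (ℝ × ℝ × ℝ × ℝ × ℝ × ℝ × ℝ) × ℝ =>
      f p.1.1 p.1.2.1 p.1.2.2.1 p.1.2.2.2.1 p.1.2.2.2.2.1 p.1.2.2.2.2.2.1 p.1.2.2.2.2.2.2 p.2) :
    ∃ C, ∀ s t F y t1 t2 κ : ℝ, 0 ≤ s → s ≤ 1 → 0 ≤ t → t ≤ B → 0 ≤ F → F ≤ B → |y| ≤ B →
      |t1| ≤ B → |t2| ≤ B → |κ| ≤ B → |f s t F y t1 t2 κ (1 + F * t)⁻¹| ≤ C := by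
  have hq : ∀ p ∈ box B, 1 + p.2.2.1 * p.2.1 ≠ 0 := by
    rintro ⟨s, t, F, y, t1, t2, κ⟩ ⟨_, ht, hF, _⟩
    have := mul_nonneg hF.1 ht.1
    exact (show 0 < 1 + F * t by linarith).ne'
  have hi : ContinuousOn (fun p : ℝ × ℝ × ℝ × ℝ × ℝ × ℝ × ℝ => (1 + p.2.2.1 * p.2.1)⁻¹) (box B) :=
    (show Continuous fun p : ℝ × ℝ × ℝ × ℝ × ℝ × ℝ × ℝ => 1 + p.2.2.1 * p.2.1 by
      fun_prop).continuousOn.inv₀ hq
  obtain ⟨C, hC⟩ := (isCompact_box B).exists_bound_of_continuousOn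
    (hf.comp_continuousOn (continuousOn_id.prodMk hi))
  exact ⟨C, fun s t F y t1 t2 κ hs hs1 ht htB hF hFB hy ht1 ht2 hκ =>
    hC (s, t, F, y, t1, t2, κ) ⟨⟨hs, hs1⟩, ⟨ht, htB⟩, ⟨hF, hFB⟩, abs_le.1 hy, abs_le.1 ht1,
      abs_le.1 ht2, abs_le.1 hκ⟩⟩

lemma exists_bound_rem (B : ℝ) :
    ∃ C, ∀ s t F y t1 t2 κ : ℝ, 0 ≤ s → s ≤ 1 → 0 ≤ t → t ≤ B → 0 ≤ F → F ≤ B → |y| ≤ B →
      |t1| ≤ B → |t2| ≤ B → |κ| ≤ B → |rem B κ s t F y t1 t2 (1 + F * t)⁻¹| ≤ C :=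
  exists_bound_box B (fun s t F y t1 t2 κ v => rem B κ s t F y t1 t2 v)
    (by simp only [rem]; fun_prop)

lemma exists_bound_denInc (B : ℝ) :
    ∃ C, ∀ s t F y t1 t2 κ : ℝ, 0 ≤ s → s ≤ 1 → 0 ≤ t → t ≤ B → 0 ≤ F → F ≤ B → |y| ≤ B →
      |t1| ≤ B → |t2| ≤ B → |κ| ≤ B → |denInc B κ s t F y t1 t2| ≤ C :=
  exists_bound_box B (fun s t F y t1 t2 κ _ => denInc B κ s t F y t1 t2)
    (by simp only [denInc]; fun_prop)

lemma exists_bound_scavD2 (B : ℝ) :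
    ∃ C, ∀ s t F y t1 t2 κ : ℝ, 0 ≤ s → s ≤ 1 → 0 ≤ t → t ≤ B → 0 ≤ F → F ≤ B → |y| ≤ B →
      |t1| ≤ B → |t2| ≤ B → |κ| ≤ B → |scavD2 κ t F y t1 t2| ≤ C := by
  obtain ⟨C, hC⟩ := exists_bound_box B (fun _ t _ y t1 t2 κ v =>
    (t2 + κ * t ^ 2 * y ^ 2 - t ^ 3 * y ^ 2 - 2 * t * y * (t1 - t ^ 2 * y)) * v ^ 2) (by fun_prop)
  refine ⟨C, fun s t F y t1 t2 κ h1 h2 h3 h4 h5 h6 h7 h8 h9 h10 => ?_⟩
  rw [scavD2, div_eq_mul_inv, ← inv_pow]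
  exact hC s t F y t1 t2 κ h1 h2 h3 h4 h5 h6 h7 h8 h9 h10

/-- Second-order upper expansion of the cavity value. -/
lemma scav_step {B : ℝ} :
    ∃ C s0 : ℝ, 0 ≤ C ∧ 0 < s0 ∧ ∀ s t F y t1 t2 κ tn Fn : ℝ, 0 ≤ s → s ≤ s0 →
      0 ≤ t → t ≤ B → 0 ≤ F → F ≤ B → |y| ≤ B → |t1| ≤ B → |t2| ≤ B → |κ| ≤ B →
      0 ≤ tn → tn ≤ t + s * t1 + s ^ 2 * t2 + B * s ^ 3 →
      0 ≤ Fn → F + s * y - κ * s ^ 2 * y ^ 2 - B * s ^ 3 ≤ Fn →
      |scavD2 κ t F y t1 t2| ≤ C ∧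
      scav tn Fn ≤ scav t F + s * ((t1 - t ^ 2 * y) / (1 + F * t) ^ 2) +
        s ^ 2 * scavD2 κ t F y t1 t2 + C * s ^ 3 := by
  obtain ⟨C1, hC1⟩ := exists_bound_denInc B
  obtain ⟨C2, hC2⟩ := exists_bound_scavD2 B
  obtain ⟨C3, hC3⟩ := exists_bound_rem B
  refine ⟨max C2 (2 * max C3 0), min 1 (1 / (2 * (|C1| + 1))),
    le_trans (by positivity) (le_max_right _ _), by positivity, ?_⟩
  intro s t F y t1 t2 κ tn Fn hs hs0 ht htB hF hFB hy ht1 ht2 hκ htn htn' hFn hFn'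
  have hs1 : s ≤ 1 := hs0.trans (min_le_left _ _)
  have hs2 : s * (|C1| + 1) ≤ 1 / 2 := by
    have h := hs0.trans (min_le_right _ _)
    rw [le_div_iff₀ (by positivity)] at h
    linarith
  refine ⟨(hC2 s t F y t1 t2 κ hs hs1 ht htB hF hFB hy ht1 ht2 hκ).trans (le_max_left _ _), ?_⟩
  have hFt : 0 ≤ F * t := mul_nonneg hF ht
  set T' := t + s * t1 + s ^ 2 * t2 + B * s ^ 3 with hT'
  set G := F + s * y - κ * s ^ 2 * y ^ 2 - B * s ^ 3 with hG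
  have hD : 1 / 2 ≤ 1 + G * T' := by
    have he : G * T' - F * t = s * denInc B κ s t F y t1 t2 := by
      simp only [denInc, hG, hT']; ring
    have h := hC1 s t F y t1 t2 κ hs hs1 ht htB hF hFB hy ht1 ht2 hκ
    have h' : |s * denInc B κ s t F y t1 t2| ≤ 1 / 2 := by
      rw [abs_mul, abs_of_nonneg hs]
      exact (mul_le_mul_of_nonneg_left (h.trans ((le_abs_self C1).trans (by linarith))) hs).trans
        hs2
    linarith [(abs_le.1 h').1]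
  have hT0 : 0 ≤ T' := htn.trans htn'
  have hmono : scav tn Fn ≤ T' / (1 + G * T') := by
    calc scav tn Fn ≤ T' / (1 + Fn * T') := by
          unfold scav
          rw [div_le_div_iff₀ (by positivity) (by positivity)]
          nlinarith [mul_nonneg hFn htn, mul_nonneg hFn hT0]
      _ ≤ T' / (1 + G * T') := by
          gcongr
  refine hmono.trans ?_
  set xi := t1 - t ^ 2 * y with hxi
  set a1 := xi / (1 + F * t) ^ 2 with ha1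
  set e2 := F * xi ^ 2 / (1 + F * t) ^ 3 with he2
  have he20 : 0 ≤ e2 := by positivity
  have hR := hC3 s t F y t1 t2 κ hs hs1 ht htB hF hFB hy ht1 ht2 hκ
  have key : T' - (scav t F + s * a1 + s ^ 2 * (scavD2 κ t F y t1 t2 - e2)) * (1 + G * T')
      = s ^ 3 * rem B κ s t F y t1 t2 (1 + F * t)⁻¹ := by
    have hne : (1 + F * t) ≠ 0 := by positivity
    simp only [scavD2, hT', hG, ha1, he2, hxi, scav, div_eq_mul_inv, ← inv_pow]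
    exact rem_eq B κ s t F y t1 t2 _ (mul_inv_cancel₀ hne)
  have h1 : s ^ 3 * rem B κ s t F y t1 t2 (1 + F * t)⁻¹ ≤ max C2 (2 * max C3 0) * s ^ 3 * (1 + G * T') := by
    have hs3 : 0 ≤ s ^ 3 := pow_nonneg hs 3
    calc s ^ 3 * rem B κ s t F y t1 t2 (1 + F * t)⁻¹ ≤ s ^ 3 * max C3 0 :=
          mul_le_mul_of_nonneg_left ((le_abs_self _).trans (hR.trans (le_max_left _ _))) hs3
      _ = 2 * max C3 0 * s ^ 3 * (1 / 2) := by ring
      _ ≤ max C2 (2 * max C3 0) * s ^ 3 * (1 + G * T') := by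
          gcongr
          exact le_max_right _ _
  rw [div_le_iff₀ (by linarith)]
  have h2 : 0 ≤ s ^ 2 * e2 * (1 + G * T') := by positivity
  show T' ≤ (scav t F + s * a1 + s ^ 2 * scavD2 κ t F y t1 t2 + _ * s ^ 3) * (1 + G * T')
  linear_combination key + h1 + h2

/-- The quality of one colour at one site. -/
noncomputable def qual (e w tp tm F N : ℝ) : ℝ :=
  2 * (1 + 10 * e) * w - w * (scav tp F + scav tm F) + N

/-- The first order coefficient of the cavity value. -/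
noncomputable def scavD1 (t F y t1 : ℝ) : ℝ := (t1 - t ^ 2 * y) / (1 + F * t) ^ 2

/-- Second-order bound on the drop of the quality along a step. -/
lemma qual_step {B : ℝ} (hB : 1 ≤ B) :
    ∃ C s0 : ℝ, 0 ≤ C ∧ 0 < s0 ∧ ∀ s e w h F y κ tp tp1 tp2 tm tm1 tm2 N dN ddN tpn tmn Fn Nn : ℝ,
      0 ≤ s → s ≤ s0 → 0 ≤ w → w ≤ B → |h| ≤ B → 0 ≤ F → F ≤ B → |y| ≤ B → |κ| ≤ B →
      0 ≤ tp → tp ≤ B → |tp1| ≤ B → |tp2| ≤ B → 0 ≤ tm → tm ≤ B → |tm1| ≤ B → |tm2| ≤ B →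
      0 ≤ w + s * h →
      0 ≤ tpn → tpn ≤ tp + s * tp1 + s ^ 2 * tp2 + B * s ^ 3 →
      0 ≤ tmn → tmn ≤ tm + s * tm1 + s ^ 2 * tm2 + B * s ^ 3 →
      0 ≤ Fn → F + s * y - κ * s ^ 2 * y ^ 2 - B * s ^ 3 ≤ Fn →
      N + s * (dN * h) + s ^ 2 * (ddN * h ^ 2 / 2) - B * s ^ 3 ≤ Nn →
      qual e w tp tm F N - qual e (w + s * h) tpn tmn Fn Nn ≤
        s * ((w * scavD1 tp F y tp1 + h * scav tp F) + (w * scavD1 tm F y tm1 + h * scav tm F) -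
            (2 * (1 + 10 * e) + dN) * h) +
          s ^ 2 * ((w * scavD2 κ tp F y tp1 tp2 + h * scavD1 tp F y tp1) +
            (w * scavD2 κ tm F y tm1 tm2 + h * scavD1 tm F y tm1) - ddN * h ^ 2 / 2) +
          C * s ^ 3 := by
  obtain ⟨C, s0, hC, hs0, hstep⟩ := scav_step (B := B)
  refine ⟨6 * B * C + B, min s0 1, by positivity, lt_min hs0 one_pos, ?_⟩
  intro s e w h F y κ tp tp1 tp2 tm tm1 tm2 N dN ddN tpn tmn Fn Nn hs hs' hw hwB hh hF hFB hy hκ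
    htp htpB htp1 htp2 htm htmB htm1 htm2 hwn htpn htpn' htmn htmn' hFn hFn' hNn
  have hss : s ≤ s0 := hs'.trans (min_le_left _ _)
  have hs1 : s ≤ 1 := hs'.trans (min_le_right _ _)
  have key : ∀ t t1 t2 tn : ℝ, 0 ≤ t → t ≤ B → |t1| ≤ B → |t2| ≤ B → 0 ≤ tn →
      tn ≤ t + s * t1 + s ^ 2 * t2 + B * s ^ 3 →
      (w + s * h) * scav tn Fn - w * scav t F ≤
        s * (w * scavD1 t F y t1 + h * scav t F) +
          s ^ 2 * (w * scavD2 κ t F y t1 t2 + h * scavD1 t F y t1) + 3 * B * C * s ^ 3 := by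
    intro t t1 t2 tn ht htB ht1 ht2 htn htn'
    obtain ⟨hD, hle⟩ := hstep s t F y t1 t2 κ tn Fn hs hss ht htB hF hFB hy ht1 ht2 hκ htn htn'
      hFn hFn'
    have h1 := mul_le_mul_of_nonneg_left hle hwn
    have h2 : h * scavD2 κ t F y t1 t2 ≤ B * C := by
      refine (le_abs_self _).trans ?_
      rw [abs_mul]
      exact mul_le_mul hh hD (abs_nonneg _) (by linarith)
    have h3 : (w + s * h) * (C * s ^ 3) ≤ 2 * B * (C * s ^ 3) := by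
      refine mul_le_mul_of_nonneg_right ?_ (by positivity)
      have : s * h ≤ B := by
        nlinarith [le_abs_self h, mul_le_mul hs1 hh (abs_nonneg h) zero_le_one]
      linarith
    have h4 := mul_le_mul_of_nonneg_left h2 (pow_nonneg hs 3)
    unfold scavD1
    linear_combination h1 + h3 + h4
  have hp := key tp tp1 tp2 tpn htp htpB htp1 htp2 htpn htpn'
  have hm := key tm tm1 tm2 tmn htm htmB htm1 htm2 htmn htmn'
  unfold qual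
  linear_combination hp + hm + hNn

end Vale.Agent.P078.Sharp
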