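import Mathlib
import Vale.Agent.P078.Sharp.Bands
import Vale.Agent.P078.Sharp.Scalar
import Vale.Agent.P078.Sharp.Excess
import Vale.Agent.P078.Sharp.Dir
import Vale.Agent.P078.Sharp.Drift

/-!
# States of the two-sided walk and the direction data attached to a state
-/

open scoped ComplexOrder InnerProductSpace Topology
open Filter

set_option linter.unusedSectionVars false

namespace Vale.Agent.P078.Sharp

universe u

variable {M : Type u} [CStarAlgebra M] [PartialOrder M] [StarOrderedRing M]

namespace Prm

variable (p : Prm)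

/-- Profile, extended to the line. -/
noncomputable def Fc (x : ℝ) : ℝ := p.f (p.cl x)

/-- Constant of the off-diagonal error. -/
noncomputable def Ce : ℝ := 18 / (14 * p.e) ^ 2 + 1

end Prm

/-- A state of the walk. -/
structure State (T : TracialMasa M) (p : Prm) where
  w : Fin p.r → M
  R : Bool → Fin p.r → M
  fin : Fin p.r → M

variable {T : TracialMasa M} {p : Prm}

namespace State

variable (S : State T p) (U : Bool → M) (b : Bool) (c : Fin p.r) (k : ℕ)

/-- The part of the unit which is not finished. -/
noncomputable def alive : M := 1 - ∑ c, S.fin c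

/-- The profile value. -/
noncomputable def F : M := cfc p.Fc (S.w c)

/-- The barrier. -/
noncomputable def H : M := 1 - U b * cfc p.Fc (S.w c) * U b + S.R b c

/-- The resolvent. -/
noncomputable def G : M := capInv p.a (S.H U b c)

/-- `U G U`. -/
noncomputable def Y : M := U b * S.G U b c * U b

/-- `U G² U`. -/
noncomputable def Z : M := U b * (S.G U b c * S.G U b c) * U b

/-- `E (U G U)`. -/
noncomputable def t : M := T.E (S.Y U b c)

/-- `1 / (1 + F t)`. -/
noncomputable def qi : M := cfc (fun x : ℝ => (max 1 x)⁻¹) (1 + S.F c * S.t U b c)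

/-- `(1 + F t)²`. -/
noncomputable def qs : M := (1 + S.F c * S.t U b c) * (1 + S.F c * S.t U b c)

/-- The cavity value. -/
noncomputable def sc : M := S.t U b c * S.qi U b c

/-- The damage `E (U R U)`. -/
noncomputable def rho : M := T.E (U b * S.R b c * U b)

/-- Total damage at a site. -/
noncomputable def rhoSum : M := ∑ c, (S.rho U true c + S.rho U false c)

/-- `1 / f'`. -/
noncomputable def zeta : M := cfc (fun x => p.zeta (p.cl x)) (S.w c)

/-- Curvature. -/
noncomputable def curv : M := cfc (fun x => p.curv (p.cl x)) (S.w c)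

/-- The bonus. -/
noncomputable def N : M := cfc (fun x => p.N (p.cl x)) (S.w c)

/-- Derivative of the bonus. -/
noncomputable def dN : M := cfc (fun x => p.dN (p.cl x)) (S.w c)

/-- Second derivative of the bonus. -/
noncomputable def ddN : M := cfc (fun x => p.ddN (p.cl x)) (S.w c)

/-- The quality of one colour. -/
noncomputable def Qterm : M :=
  (2 * (1 + 10 * p.e)) • S.w c - S.w c * (S.sc U true c + S.sc U false c) + S.N c

/-- The quality. -/
noncomputable def Q : M := ∑ c, S.Qterm U c

/-- The positive part of the deficit. -/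
noncomputable def pen : M := cfc (fun x : ℝ => max x 0) ((16 * p.e) • (1 : M) - S.Q U)

/-- Sites with small deficit and small damage. -/
noncomputable def good : M :=
  S.alive * (1 - T.cut (S.alive * S.pen U) (2 * p.e)) * (1 - T.cut (S.rhoSum U) p.e)

/-- Sites where both cavity values of a colour are small. -/
noncomputable def act : M :=
  S.good U * (1 - T.cut (S.sc U true c) p.S) * (1 - T.cut (S.sc U false c) p.S)

/-- A band of a colour. -/
noncomputable def band : M := T.cut (S.w c) (p.lev k) * (1 - T.cut (S.w c) (p.lev (k + 1)))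

/-- Active projection of a colour in a band. -/
noncomputable def jk : M := S.act U c * S.band c k

/-- The margin of a band. -/
noncomputable def etak : M := cfc (p.ηb k) (S.w c)

/-- `1 / (1 + η)`. -/
noncomputable def lok : M := cfc (fun x => (1 + p.ηb k x)⁻¹) (S.w c)

/-- The band in which a colour moves. -/
noncomputable def kc : ℕ :=
  Classical.choose (Finset.exists_max_image (Finset.range (p.nb + 1))
    (fun k => T.tr (S.jk U c k * (1 - S.lok c k))) ⟨0, Finset.mem_range.2 (Nat.succ_pos _)⟩)

/-- Active projection of a colour. -/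
noncomputable def j : M := S.jk U c (S.kc U c)

/-- Weight of the penalty. -/
noncomputable def bw : M := (2 : ℝ) • (S.alive * S.pen U)

/-- Weight of the third order term. -/
noncomputable def a' : M := S.bw U * S.w c * (S.qi U b c * S.qi U b c)

/-- Constraint row. -/
noncomputable def K : T.L2A →L[ℂ] T.L2A :=
  T.mul (S.alive * (S.w c * (S.qi U true c * S.qi U true c))) * T.phi0 (S.Y U true c) +
    T.mul (S.alive * (S.w c * (S.qi U false c * S.qi U false c))) * T.phi0 (S.Y U false c) +
    T.mul (S.alive * ((S.sc U true c + S.sc U false c - (2 * (1 + 10 * p.e)) • 1 - S.dN c) *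
      S.zeta c))

/-- The colour data of one sign for the drift. -/
noncomputable def colour : Colour T where
  Y := S.Y U b c
  Z := S.Z U b c
  j := S.j U c
  a' := S.a' U b c
  b := S.bw U * S.j U c
  lam := S.zeta c * cfc (fun x : ℝ =>
    Real.sqrt (p.β (S.kc U c) / (4 * p.mm (S.kc U c) * max x p.σ))) (S.w c)
  bet := S.qi U b c * S.qi U b c * cfc (fun x : ℝ =>
    Real.sqrt (p.mm (S.kc U c) * max x p.σ / p.β (S.kc U c))) (S.w c)
  g := S.bw U * S.zeta c * (S.qi U b c * S.qi U b c)
  neg := (1 / 4 : ℝ) • (S.bw U * (S.zeta c * S.zeta c) * S.ddN c)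
  Bd := p.β (S.kc U c) • S.qs U b c
  κ := S.curv c
  eta := S.etak c (S.kc U c)
  m := p.mm (S.kc U c)

/-- The data for the direction lemma. -/
noncomputable def dir : DirData T p.r where
  j := S.j U
  alive := S.alive
  z := S.zeta
  p := fun c => (1 + S.etak c (S.kc U c)) *
    ((S.colour U true c).testWeight (p.a ^ 2) + (S.colour U false c).testWeight (p.a ^ 2))
  lo := fun c => S.lok c (S.kc U c)
  K := S.K U
  P := fun c => (S.colour U true c).testOp (p.a ^ 2) + (S.colour U false c).testOp (p.a ^ 2)
  R := fun c => (S.colour U true c).driftOp (p.a ^ 2) + (S.colour U false c).driftOp (p.a ^ 2)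

/-- The invariants of the walk. -/
structure Inv : Prop where
  w_mem : ∀ c, S.w c ∈ T.A
  w_nonneg : ∀ c, 0 ≤ S.w c
  w_le : ∀ c, S.w c ≤ (2 * p.θ) • (1 : M)
  R_nonneg : ∀ b c, 0 ≤ S.R b c
  fin_mem : ∀ c, S.fin c ∈ T.A
  fin_proj : ∀ c, IsStarProjection (S.fin c)
  fin_orth : ∀ c d, c ≠ d → S.fin c * S.fin d = 0
  fin_le : ∀ c, p.θ • S.fin c ≤ S.w c * S.fin c
  w_alive : ∀ c, S.w c * S.alive ≤ p.θ • S.alive
  barrier : ∀ b c, p.a • (1 : M) ≤ S.H U b c

/-- The potential. -/
noncomputable def pot : ℝ :=
  (∑ c, ((p.a ^ 2 * T.tr (S.G U true c) + T.tr (S.R true c)) +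
      (p.a ^ 2 * T.tr (S.G U false c) + T.tr (S.R false c)))) +
    T.tr (S.alive * (S.pen U * S.pen U)) - p.νp * ∑ c, T.tr (S.w c * S.w c)

end State

end Vale.Agent.P078.Sharp
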