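import Mathlib
import Vale.Agent.P078.Sharp.State
import Vale.Agent.P078.FinalIter

/-!
# Facts about the states of the two-sided walk
-/

open scoped ComplexOrder InnerProductSpace Topology
open Filter

set_option linter.unusedSectionVars false

namespace Vale.Agent.P078.Sharp

universe u

variable {M : Type u} [CStarAlgebra M] [PartialOrder M] [StarOrderedRing M]

open TracialMasa hiding Colour DirData omr_square third_order_identity

namespace Prm

variable {p : Prm} (hp : p.Good)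
include hp

lemma continuous_Fc : Continuous p.Fc := continuous_comp_cl hp fun _ hw => continuousAt_f hp hw

lemma Fc_mem (x : ℝ) : 0 ≤ p.Fc x ∧ p.Fc x ≤ 1 := by
  obtain ⟨h0, -, h1⟩ := f_mem hp (cl_mem hp x)
  exact ⟨h0, h1.trans (by rw [div_le_one hp.S_pos]; exact hp.one_le_S)⟩

lemma continuous_zc : Continuous fun x => p.zeta (p.cl x) :=
  continuous_comp_cl hp fun _ hw => continuousAt_zeta hp hw

lemma continuous_curvc : Continuous fun x => p.curv (p.cl x) :=
  continuous_comp_cl hp fun _ hw => continuousAt_curv hp hw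

lemma continuous_Nc : Continuous fun x => p.N (p.cl x) :=
  continuous_comp_cl hp fun _ hw => (hasDerivAt_N hp hw.1).continuousAt

lemma continuous_dNc : Continuous fun x => p.dN (p.cl x) :=
  continuous_comp_cl hp fun _ hw => (hasDerivAt_dN hp hw.1).continuousAt

lemma continuous_ddNc : Continuous fun x => p.ddN (p.cl x) :=
  continuous_comp_cl hp fun _ hw => (contDiffAt_ddN hp hw.1).continuousAt

lemma Ce_pos : 0 < p.Ce := by
  have := hp.e_pos
  unfold Ce; positivity

end Prm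

variable {T : TracialMasa M} {p : Prm} {U : Bool → M}

namespace State

variable {S : State T p}

section

variable (hp : p.Good) (hS : S.Inv U) (hU : ∀ b, Adm T (U b))
include hS

lemma isRA_w (c : Fin p.r) : T.IsRA (S.w c) :=
  ⟨hS.w_mem c, IsSelfAdjoint.of_nonneg (hS.w_nonneg c)⟩

lemma val_w (c : Fin p.r) (χ : T.Chi) : 0 ≤ T.val χ (S.w c) ∧ T.val χ (S.w c) ≤ 2 * p.θ := by
  refine ⟨val_nonneg χ (hS.w_mem c) (hS.w_nonneg c), ?_⟩
  have := val_mono χ (hS.w_mem c) (T.real_smul_mem_A (one_mem _) _) (hS.w_le c)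
  rwa [val_smul_one] at this

lemma val_w_dom (c : Fin p.r) (χ : T.Chi) : T.val χ (S.w c) ∈ p.dom := val_w hS c χ

lemma alive_proj : IsStarProjection S.alive := by
  have h : IsStarProjection (∑ c, S.fin c) := by
    refine ⟨?_, isSelfAdjoint_sum _ fun c _ => (hS.fin_proj c).isSelfAdjoint⟩
    show (∑ c, S.fin c) * ∑ c, S.fin c = ∑ c, S.fin c
    rw [Finset.sum_mul]
    refine Finset.sum_congr rfl fun c _ => ?_
    rw [Finset.mul_sum, Finset.sum_eq_single c]
    · exact (hS.fin_proj c).isIdempotentElem.eq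
    · exact fun d _ hd => hS.fin_orth c d (Ne.symm hd)
    · simp
  exact h.one_sub

lemma isRA_alive : T.IsRA S.alive :=
  isRA_one.sub (isRA_sum fun c _ => isRA_of_proj (hS.fin_mem c) (hS.fin_proj c))

lemma alive_mul_fin (c : Fin p.r) : S.alive * S.fin c = 0 := by
  rw [alive, sub_mul, one_mul, Finset.sum_mul, Finset.sum_eq_single c,
    (hS.fin_proj c).isIdempotentElem.eq, sub_self]
  · exact fun d _ hd => hS.fin_orth d c hd
  · simp

lemma val_w_alive (c : Fin p.r) (χ : T.Chi) (h : T.val χ S.alive = 1) :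
    T.val χ (S.w c) ≤ p.θ := by
  have hA := isRA_alive hS
  have := val_mono χ ((isRA_w hS c).mul hA).mem (hA.smul p.θ).mem (hS.w_alive c)
  rwa [(isRA_w hS c).val_mul χ hA, hA.val_smul, h, mul_one, mul_one] at this

lemma isRA_F (c : Fin p.r) : T.IsRA (S.F c) := (isRA_w hS c).cfc _

lemma isRA_zeta (c : Fin p.r) : T.IsRA (S.zeta c) := (isRA_w hS c).cfc _

lemma isRA_curv (c : Fin p.r) : T.IsRA (S.curv c) := (isRA_w hS c).cfc _

lemma isRA_N (c : Fin p.r) : T.IsRA (S.N c) := (isRA_w hS c).cfc _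

lemma isRA_dN (c : Fin p.r) : T.IsRA (S.dN c) := (isRA_w hS c).cfc _

lemma isRA_ddN (c : Fin p.r) : T.IsRA (S.ddN c) := (isRA_w hS c).cfc _

lemma isRA_etak (c : Fin p.r) (k : ℕ) : T.IsRA (S.etak c k) := (isRA_w hS c).cfc _

lemma isRA_lok (c : Fin p.r) (k : ℕ) : T.IsRA (S.lok c k) := (isRA_w hS c).cfc _

include hp

lemma val_F (c : Fin p.r) (χ : T.Chi) : T.val χ (S.F c) = p.f (T.val χ (S.w c)) := by
  rw [F, (isRA_w hS c).val_cfc χ (Prm.continuous_Fc hp), Prm.Fc,
    Prm.cl_eq hp (val_w_dom hS c χ)]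

lemma val_zeta (c : Fin p.r) (χ : T.Chi) : T.val χ (S.zeta c) = p.zeta (T.val χ (S.w c)) := by
  rw [zeta, (isRA_w hS c).val_cfc χ (Prm.continuous_zc hp), Prm.cl_eq hp (val_w_dom hS c χ)]

lemma val_curv (c : Fin p.r) (χ : T.Chi) : T.val χ (S.curv c) = p.curv (T.val χ (S.w c)) := by
  rw [curv, (isRA_w hS c).val_cfc χ (Prm.continuous_curvc hp), Prm.cl_eq hp (val_w_dom hS c χ)]

lemma val_N (c : Fin p.r) (χ : T.Chi) : T.val χ (S.N c) = p.N (T.val χ (S.w c)) := by
  rw [N, (isRA_w hS c).val_cfc χ (Prm.continuous_Nc hp), Prm.cl_eq hp (val_w_dom hS c χ)]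

lemma val_dN (c : Fin p.r) (χ : T.Chi) : T.val χ (S.dN c) = p.dN (T.val χ (S.w c)) := by
  rw [dN, (isRA_w hS c).val_cfc χ (Prm.continuous_dNc hp), Prm.cl_eq hp (val_w_dom hS c χ)]

lemma val_ddN (c : Fin p.r) (χ : T.Chi) : T.val χ (S.ddN c) = p.ddN (T.val χ (S.w c)) := by
  rw [ddN, (isRA_w hS c).val_cfc χ (Prm.continuous_ddNc hp), Prm.cl_eq hp (val_w_dom hS c χ)]

lemma val_etak (c : Fin p.r) (k : ℕ) (χ : T.Chi) :
    T.val χ (S.etak c k) = p.ηb k (T.val χ (S.w c)) := by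
  rw [etak, (isRA_w hS c).val_cfc χ (Prm.continuous_ηb hp k)]

lemma val_lok (c : Fin p.r) (k : ℕ) (χ : T.Chi) :
    T.val χ (S.lok c k) = (1 + p.ηb k (T.val χ (S.w c)))⁻¹ :=
  (isRA_w hS c).val_cfc χ (f := fun x => (1 + p.ηb k x)⁻¹)
    (Continuous.inv₀ (continuous_const.add (Prm.continuous_ηb hp k)) fun x =>
      (add_pos_of_pos_of_nonneg one_pos (Prm.ηb_mem hp k x).1).ne')

lemma F_bounds (c : Fin p.r) : 0 ≤ S.F c ∧ S.F c ≤ 1 :=
  ⟨cfc_nonneg fun x _ => (Prm.Fc_mem hp x).1, cfc_le_one _ _ fun x _ => (Prm.Fc_mem hp x).2⟩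

include hU

lemma cell (b : Bool) (c : Fin p.r) : Cell T (U b) (S.R b c) (S.F c) p.a where
  adm := hU b
  R_nonneg := hS.R_nonneg b c
  F_ra := isRA_F hS c
  F_nonneg := (F_bounds hp hS c).1
  F_le := (F_bounds hp hS c).2
  a_pos := hp.a_pos
  barrier := hS.barrier b c

lemma isSelfAdjoint_H (b : Bool) (c : Fin p.r) : IsSelfAdjoint (S.H U b c) :=
  (cell hp hS hU b c).H_sa

lemma G_nonneg (b : Bool) (c : Fin p.r) : 0 ≤ S.G U b c := capInv_nonneg hp.a_pos _

lemma Y_nonneg (b : Bool) (c : Fin p.r) : 0 ≤ S.Y U b c := (cell hp hS hU b c).Y_nonneg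

lemma Z_nonneg (b : Bool) (c : Fin p.r) : 0 ≤ S.Z U b c := by
  refine (IsSelfAdjoint.of_nonneg (hU b).nonneg).conjugate_nonneg ?_
  conv => arg 2; arg 1; rw [← (IsSelfAdjoint.of_nonneg (G_nonneg hp hS hU b c)).star_eq]
  exact star_mul_self_nonneg _

lemma isRA_t (b : Bool) (c : Fin p.r) : T.IsRA (S.t U b c) :=
  isRA_E (IsSelfAdjoint.of_nonneg (Y_nonneg hp hS hU b c))

lemma val_t_nonneg (b : Bool) (c : Fin p.r) (χ : T.Chi) : 0 ≤ T.val χ (S.t U b c) :=
  val_nonneg χ (T.E_mem _) (T.E_nonneg (Y_nonneg hp hS hU b c))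

omit hU in
lemma val_F_nonneg (c : Fin p.r) (χ : T.Chi) : 0 ≤ T.val χ (S.F c) :=
  val_nonneg χ (isRA_F hS c).mem (F_bounds hp hS c).1

lemma val_Ft (b : Bool) (c : Fin p.r) (χ : T.Chi) :
    T.val χ (1 + S.F c * S.t U b c) = 1 + T.val χ (S.F c) * T.val χ (S.t U b c) := by
  rw [isRA_one.val_add χ ((isRA_F hS c).mul (isRA_t hp hS hU b c)), val_one,
    (isRA_F hS c).val_mul χ (isRA_t hp hS hU b c)]

lemma one_le_Ft (b : Bool) (c : Fin p.r) (χ : T.Chi) :
    1 ≤ 1 + T.val χ (S.F c) * T.val χ (S.t U b c) := by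
  linarith [mul_nonneg (val_F_nonneg hp hS c χ) (val_t_nonneg hp hS hU b c χ)]

lemma isRA_qi (b : Bool) (c : Fin p.r) : T.IsRA (S.qi U b c) :=
  (isRA_one.add ((isRA_F hS c).mul (isRA_t hp hS hU b c))).cfc _

lemma isRA_qs (b : Bool) (c : Fin p.r) : T.IsRA (S.qs U b c) :=
  (isRA_one.add ((isRA_F hS c).mul (isRA_t hp hS hU b c))).mul
    (isRA_one.add ((isRA_F hS c).mul (isRA_t hp hS hU b c)))

lemma val_qs (b : Bool) (c : Fin p.r) (χ : T.Chi) :
    T.val χ (S.qs U b c) = (1 + T.val χ (S.F c) * T.val χ (S.t U b c)) ^ 2 := by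
  have h := isRA_one.add ((isRA_F hS c).mul (isRA_t hp hS hU b c))
  rw [qs, h.val_mul χ h, val_Ft hp hS hU, sq]

lemma val_qi (b : Bool) (c : Fin p.r) (χ : T.Chi) :
    T.val χ (S.qi U b c) = (1 + T.val χ (S.F c) * T.val χ (S.t U b c))⁻¹ := by
  rw [qi, (isRA_one.add ((isRA_F hS c).mul (isRA_t hp hS hU b c))).val_cfc χ
    (continuous_capInv one_pos), val_Ft hp hS hU, max_eq_right (one_le_Ft hp hS hU b c χ)]

lemma val_qi_mem (b : Bool) (c : Fin p.r) (χ : T.Chi) :
    0 ≤ T.val χ (S.qi U b c) ∧ T.val χ (S.qi U b c) ≤ 1 := by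
  have := one_le_Ft hp hS hU b c χ
  rw [val_qi hp hS hU]
  exact ⟨inv_nonneg.2 (by linarith), inv_le_one_of_one_le₀ this⟩

lemma isRA_qq (b : Bool) (c : Fin p.r) : T.IsRA (S.qi U b c * S.qi U b c) :=
  (isRA_qi hp hS hU b c).mul (isRA_qi hp hS hU b c)

lemma val_qq (b : Bool) (c : Fin p.r) (χ : T.Chi) :
    T.val χ (S.qi U b c * S.qi U b c) = T.val χ (S.qi U b c) * T.val χ (S.qi U b c) :=
  (isRA_qi hp hS hU b c).val_mul χ (isRA_qi hp hS hU b c)

lemma isRA_sc (b : Bool) (c : Fin p.r) : T.IsRA (S.sc U b c) :=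
  (isRA_t hp hS hU b c).mul (isRA_qi hp hS hU b c)

lemma val_sc (b : Bool) (c : Fin p.r) (χ : T.Chi) :
    T.val χ (S.sc U b c) = scav (T.val χ (S.t U b c)) (T.val χ (S.F c)) := by
  rw [sc, (isRA_t hp hS hU b c).val_mul χ (isRA_qi hp hS hU b c), val_qi hp hS hU, scav,
    div_eq_mul_inv]

lemma isRA_rho (b : Bool) (c : Fin p.r) : T.IsRA (S.rho U b c) := (cell hp hS hU b c).isRA_ρ

lemma rho_nonneg (b : Bool) (c : Fin p.r) : 0 ≤ S.rho U b c :=
  T.E_nonneg ((IsSelfAdjoint.of_nonneg (hU b).nonneg).conjugate_nonneg (hS.R_nonneg b c))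

lemma isRA_rhoSum : T.IsRA (S.rhoSum U) :=
  isRA_sum fun c _ => (isRA_rho hp hS hU true c).add (isRA_rho hp hS hU false c)

/-- The cavity value is at least `1 - ρ`. -/
lemma sc_ge (b : Bool) (c : Fin p.r) (χ : T.Chi) :
    1 - T.val χ (S.rho U b c) ≤ T.val χ (S.sc U b c) := by
  have h := cell hp hS hU b c
  obtain ⟨ht, hex⟩ : 0 < T.val χ (S.t U b c) ∧ 1 / T.val χ (S.t U b c) + T.val χ (S.F c) ≤
      1 - T.val χ (T.E ((U b * U b - 1) * S.F c * (U b * U b - 1))) + T.val χ (S.rho U b c) :=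
    h.excess χ
  have hX := h.val_X_nonneg χ
  rw [val_sc hp hS hU, scav]
  set t := T.val χ (S.t U b c)
  set f := T.val χ (S.F c)
  set ρ := T.val χ (S.rho U b c)
  have hρ : 0 ≤ ρ := h.val_ρ_nonneg χ
  have hq := one_le_Ft hp hS hU b c χ
  have h1 : 1 / t + f ≤ 1 + ρ := by linarith
  rw [div_add' _ _ _ ht.ne', div_le_iff₀ ht] at h1
  rw [le_div_iff₀ (by linarith)]
  rcases le_total 1 ρ with h2 | h2
  · nlinarith
  · nlinarith [mul_le_mul_of_nonneg_left h1 (by linarith : 0 ≤ 1 - ρ), mul_nonneg ht.le (sq_nonneg ρ)]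

lemma isRA_Qterm (c : Fin p.r) : T.IsRA (S.Qterm U c) :=
  (((isRA_w hS c).smul _).sub ((isRA_w hS c).mul
    ((isRA_sc hp hS hU true c).add (isRA_sc hp hS hU false c)))).add (isRA_N hS c)

lemma isRA_Q : T.IsRA (S.Q U) := isRA_sum fun c _ => isRA_Qterm hp hS hU c

lemma val_Qterm (c : Fin p.r) (χ : T.Chi) : T.val χ (S.Qterm U c) =
    qual p.e (T.val χ (S.w c)) (T.val χ (S.t U true c)) (T.val χ (S.t U false c))
      (T.val χ (S.F c)) (p.N (T.val χ (S.w c))) := by
  have hw := isRA_w hS c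
  have hs := (isRA_sc hp hS hU true c).add (isRA_sc hp hS hU false c)
  rw [Qterm, ((hw.smul _).sub (hw.mul hs)).val_add χ (isRA_N hS c),
    (hw.smul _).val_sub χ (hw.mul hs), hw.val_smul, hw.val_mul χ hs,
    (isRA_sc hp hS hU true c).val_add χ (isRA_sc hp hS hU false c), val_sc hp hS hU,
    val_sc hp hS hU, val_N hp hS, qual]

lemma val_Q (χ : T.Chi) : T.val χ (S.Q U) = ∑ c, qual p.e (T.val χ (S.w c))
    (T.val χ (S.t U true c)) (T.val χ (S.t U false c)) (T.val χ (S.F c))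
    (p.N (T.val χ (S.w c))) := by
  rw [Q, val_sum χ _ _ fun c _ => (isRA_Qterm hp hS hU c).mem]
  exact Finset.sum_congr rfl fun c _ => val_Qterm hp hS hU c χ

lemma isRA_pen : T.IsRA (S.pen U) := ((isRA_one.smul _).sub (isRA_Q hp hS hU)).cfc _

lemma val_pen (χ : T.Chi) : T.val χ (S.pen U) = max (16 * p.e - T.val χ (S.Q U)) 0 := by
  rw [pen, ((isRA_one.smul _).sub (isRA_Q hp hS hU)).val_cfc χ
    (continuous_id'.max continuous_const), (isRA_one.smul _).val_sub χ (isRA_Q hp hS hU),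
    val_smul_one]

lemma isRA_cutpen : T.IsRA (T.cut (S.alive * S.pen U) (2 * p.e)) :=
  isRA_of_proj (T.cut_mem_A _ ((isRA_alive hS).mul (isRA_pen hp hS hU)).mem)
    (T.cut_isStarProjection _ _)

lemma isRA_cutrho : T.IsRA (T.cut (S.rhoSum U) p.e) :=
  isRA_of_proj (T.cut_mem_A _ (isRA_rhoSum hp hS hU).mem) (T.cut_isStarProjection _ _)

lemma isRA_good : T.IsRA (S.good U) :=
  ((isRA_alive hS).mul (isRA_one.sub (isRA_cutpen hp hS hU))).mul
    (isRA_one.sub (isRA_cutrho hp hS hU))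

lemma good_proj : IsStarProjection (S.good U) := by
  have h1 := isRA_one.sub (isRA_cutpen hp hS hU)
  have h2 := isRA_one.sub (isRA_cutrho hp hS hU)
  exact ((alive_proj hS).mul (T.cut_isStarProjection _ _).one_sub
    (T.A_comm _ (isRA_alive hS).mem _ h1.mem)).mul (T.cut_isStarProjection _ _).one_sub
    (T.A_comm _ ((isRA_alive hS).mul h1).mem _ h2.mem)

lemma val_good (χ : T.Chi) : T.val χ (S.good U) = T.val χ S.alive *
    (1 - T.val χ (T.cut (S.alive * S.pen U) (2 * p.e))) *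
    (1 - T.val χ (T.cut (S.rhoSum U) p.e)) := by
  have h1 := isRA_one.sub (isRA_cutpen hp hS hU)
  have h2 := isRA_one.sub (isRA_cutrho hp hS hU)
  rw [good, ((isRA_alive hS).mul h1).val_mul χ h2, (isRA_alive hS).val_mul χ h1,
    isRA_one.val_sub χ (isRA_cutpen hp hS hU), isRA_one.val_sub χ (isRA_cutrho hp hS hU), val_one]

/-- At a good site the deficit and the damage are small. -/
lemma good_spec (χ : T.Chi) (h : T.val χ (S.good U) = 1) :
    T.val χ S.alive = 1 ∧ 14 * p.e ≤ T.val χ (S.Q U) ∧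
      ∀ b c, T.val χ (S.rho U b c) ≤ p.e := by
  rw [val_good hp hS hU] at h
  rcases (isRA_alive hS).val_proj χ (alive_proj hS) with ha | ha
  · simp [ha] at h
  rcases (isRA_cutpen hp hS hU).val_proj χ (T.cut_isStarProjection _ _) with h1 | h1
  swap
  · simp [h1] at h
  rcases (isRA_cutrho hp hS hU).val_proj χ (T.cut_isStarProjection _ _) with h2 | h2
  swap
  · simp [h2] at h
  have hap := (isRA_alive hS).mul (isRA_pen hp hS hU)
  have hpen := val_le_of_cut χ hap.mem hap.sa h1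
  rw [(isRA_alive hS).val_mul χ (isRA_pen hp hS hU), ha, one_mul, val_pen hp hS hU] at hpen
  have hρ := val_le_of_cut χ (isRA_rhoSum hp hS hU).mem (isRA_rhoSum hp hS hU).sa h2
  rw [rhoSum, val_sum χ _ _ fun c _ =>
    ((isRA_rho hp hS hU true c).add (isRA_rho hp hS hU false c)).mem] at hρ
  refine ⟨ha, by linarith [le_max_left (16 * p.e - T.val χ (S.Q U)) 0], fun b c => ?_⟩
  have hn : ∀ b c, 0 ≤ T.val χ (S.rho U b c) := fun b c =>
    val_nonneg χ (T.E_mem _) (rho_nonneg hp hS hU b c)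
  refine le_trans ?_ hρ
  refine le_trans ?_ (Finset.single_le_sum (fun d _ => ?_) (Finset.mem_univ c))
  · rw [(isRA_rho hp hS hU true c).val_add χ (isRA_rho hp hS hU false c)]
    have := hn true c
    have := hn false c
    cases b <;> linarith
  · rw [(isRA_rho hp hS hU true d).val_add χ (isRA_rho hp hS hU false d)]
    have := hn true d
    have := hn false d
    linarith

lemma isRA_cutsc (b : Bool) (c : Fin p.r) : T.IsRA (T.cut (S.sc U b c) p.S) :=
  isRA_of_proj (T.cut_mem_A _ (isRA_sc hp hS hU b c).mem) (T.cut_isStarProjection _ _)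

omit hU in
lemma isRA_cutw (c : Fin p.r) (x : ℝ) : T.IsRA (T.cut (S.w c) x) :=
  isRA_of_proj (T.cut_mem_A _ (hS.w_mem c)) (T.cut_isStarProjection _ _)

lemma isRA_act (c : Fin p.r) : T.IsRA (S.act U c) :=
  ((isRA_good hp hS hU).mul (isRA_one.sub (isRA_cutsc hp hS hU true c))).mul
    (isRA_one.sub (isRA_cutsc hp hS hU false c))

lemma act_proj (c : Fin p.r) : IsStarProjection (S.act U c) := by
  have h1 := isRA_one.sub (isRA_cutsc hp hS hU true c)
  have h2 := isRA_one.sub (isRA_cutsc hp hS hU false c)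
  exact ((good_proj hp hS hU).mul (T.cut_isStarProjection _ _).one_sub
    (T.A_comm _ (isRA_good hp hS hU).mem _ h1.mem)).mul (T.cut_isStarProjection _ _).one_sub
    (T.A_comm _ ((isRA_good hp hS hU).mul h1).mem _ h2.mem)

lemma val_act (c : Fin p.r) (χ : T.Chi) : T.val χ (S.act U c) = T.val χ (S.good U) *
    (1 - T.val χ (T.cut (S.sc U true c) p.S)) * (1 - T.val χ (T.cut (S.sc U false c) p.S)) := by
  have h1 := isRA_one.sub (isRA_cutsc hp hS hU true c)
  have h2 := isRA_one.sub (isRA_cutsc hp hS hU false c)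
  rw [act, ((isRA_good hp hS hU).mul h1).val_mul χ h2, (isRA_good hp hS hU).val_mul χ h1,
    isRA_one.val_sub χ (isRA_cutsc hp hS hU true c), isRA_one.val_sub χ (isRA_cutsc hp hS hU false c),
    val_one]

omit hU in
lemma isRA_band (c : Fin p.r) (k : ℕ) : T.IsRA (S.band c k) :=
  (isRA_cutw hp hS c _).mul (isRA_one.sub (isRA_cutw hp hS c _))

omit hU in
lemma band_proj (c : Fin p.r) (k : ℕ) : IsStarProjection (S.band c k) :=
  (T.cut_isStarProjection _ _).mul (T.cut_isStarProjection _ _).one_sub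
    (T.A_comm _ (isRA_cutw hp hS c _).mem _ (isRA_one.sub (isRA_cutw hp hS c _)).mem)

omit hU in
lemma val_band (c : Fin p.r) (k : ℕ) (χ : T.Chi) : T.val χ (S.band c k) =
    T.val χ (T.cut (S.w c) (p.lev k)) * (1 - T.val χ (T.cut (S.w c) (p.lev (k + 1)))) := by
  rw [band, (isRA_cutw hp hS c _).val_mul χ (isRA_one.sub (isRA_cutw hp hS c _)),
    isRA_one.val_sub χ (isRA_cutw hp hS c _), val_one]

lemma isRA_jk (c : Fin p.r) (k : ℕ) : T.IsRA (S.jk U c k) :=
  (isRA_act hp hS hU c).mul (isRA_band hp hS c k)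

lemma jk_proj (c : Fin p.r) (k : ℕ) : IsStarProjection (S.jk U c k) :=
  (act_proj hp hS hU c).mul (band_proj hp hS c k)
    (T.A_comm _ (isRA_act hp hS hU c).mem _ (isRA_band hp hS c k).mem)

lemma val_jk (c : Fin p.r) (k : ℕ) (χ : T.Chi) :
    T.val χ (S.jk U c k) = T.val χ (S.act U c) * T.val χ (S.band c k) :=
  (isRA_act hp hS hU c).val_mul χ (isRA_band hp hS c k)

omit hp hS hU in
lemma kc_spec (S : State T p) (U : Bool → M) (c : Fin p.r) : S.kc U c ≤ p.nb ∧
    ∀ k ≤ p.nb, T.tr (S.jk U c k * (1 - S.lok c k)) ≤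
      T.tr (S.j U c * (1 - S.lok c (S.kc U c))) := by
  have h := Classical.choose_spec (Finset.exists_max_image (Finset.range (p.nb + 1))
    (fun k => T.tr (S.jk U c k * (1 - S.lok c k))) ⟨0, Finset.mem_range.2 (Nat.succ_pos _)⟩)
  exact ⟨Nat.le_of_lt_succ (Finset.mem_range.1 h.1),
    fun k hk => h.2 k (Finset.mem_range.2 (Nat.lt_succ_of_le hk))⟩

/-- What is known at an active site. -/
lemma jk_spec (c : Fin p.r) (k : ℕ) (χ : T.Chi) (h : T.val χ (S.jk U c k) = 1) :
    T.val χ S.alive = 1 ∧ p.lev k ≤ T.val χ (S.w c) ∧ T.val χ (S.w c) ≤ p.lev (k + 1) ∧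
      T.val χ (S.w c) ≤ p.θ ∧
      ∀ b, T.val χ (S.rho U b c) ≤ p.e ∧
        T.val χ (S.t U b c) ≤ p.S * (1 + T.val χ (S.F c) * T.val χ (S.t U b c)) := by
  rw [val_jk hp hS hU, val_band hp hS, val_act hp hS hU] at h
  rcases (isRA_good hp hS hU).val_proj χ (good_proj hp hS hU) with hg | hg
  · simp [hg] at h
  obtain ⟨ha, -, hρ⟩ := good_spec hp hS hU χ hg
  rcases (isRA_cutsc hp hS hU true c).val_proj χ (T.cut_isStarProjection _ _) with ht | ht
  swap
  · simp [ht] at h
  rcases (isRA_cutsc hp hS hU false c).val_proj χ (T.cut_isStarProjection _ _) with hf | hf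
  swap
  · simp [hf] at h
  rcases (isRA_cutw hp hS c (p.lev k)).val_proj χ (T.cut_isStarProjection _ _) with h1 | h1
  · simp [h1] at h
  rcases (isRA_cutw hp hS c (p.lev (k + 1))).val_proj χ (T.cut_isStarProjection _ _) with h2 | h2
  swap
  · simp [h2] at h
  refine ⟨ha, le_val_of_cut χ (hS.w_mem c) (isRA_w hS c).sa h1,
    val_le_of_cut χ (hS.w_mem c) (isRA_w hS c).sa h2, val_w_alive hS c χ ha, fun b => ⟨hρ b c, ?_⟩⟩
  have hcut : T.val χ (T.cut (S.sc U b c) p.S) = 0 := by cases b <;> assumption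
  have hle := val_le_of_cut χ (isRA_sc hp hS hU b c).mem (isRA_sc hp hS hU b c).sa hcut
  rwa [val_sc hp hS hU, scav, div_le_iff₀ (by linarith [one_le_Ft hp hS hU b c χ])] at hle

/-- Bound on `t` at an active site. -/
lemma t_le_u (c : Fin p.r) (k : ℕ) (χ : T.Chi) (h : T.val χ (S.jk U c k) = 1) (b : Bool) :
    T.val χ (S.t U b c) ≤ p.S * p.u (T.val χ (S.w c)) := by
  obtain ⟨-, -, -, -, hb⟩ := jk_spec hp hS hU c k χ h
  have hs := (hb b).2
  have hw := val_w_dom hS c χ
  obtain ⟨hf0, hf1, -⟩ := Prm.f_mem hp hw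
  have hu := Prm.one_le_u hp hw
  rw [val_F hp hS] at hs
  set t := T.val χ (S.t U b c)
  set f := p.f (T.val χ (S.w c))
  set u := p.u (T.val χ (S.w c))
  have h1 : t * (1 / u) ≤ p.S := by
    have : t * (1 / u) = t - t * (f * p.S) := by rw [hf1]; ring
    linarith
  rw [mul_one_div, div_le_iff₀ (by linarith)] at h1
  exact h1

/-- At good sites the weights in the bands give the count. -/
lemma count_pointwise (χ : T.Chi) (h : T.val χ (S.good U) = 1) :
    4 ≤ ∑ c, ∑ k ∈ Finset.range (p.nb + 1),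
      p.pwt k * (T.val χ (S.jk U c k) * (1 - T.val χ (S.lok c k))) := by
  obtain ⟨ha, hQ, hρ⟩ := good_spec hp hS hU χ h
  have he := hp.e_pos
  have hw : ∀ c, 0 ≤ T.val χ (S.w c) ∧ T.val χ (S.w c) ≤ p.θ := fun c =>
    ⟨(val_w hS c χ).1, val_w_alive hS c χ ha⟩
  set W : ℕ → ℝ := fun k => ∑ c, T.val χ (S.jk U c k) * T.val χ (S.w c) with hW
  have hjk0 : ∀ c k, 0 ≤ T.val χ (S.jk U c k) := fun c k =>
    ((isRA_jk hp hS hU c k).val_proj_mem χ (jk_proj hp hS hU c k)).1
  -- the weights carry the quality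
  have hterm : ∀ c, T.val χ (S.Qterm U c) ≤ 25 * p.e *
      ((∑ k ∈ Finset.range (p.nb + 1), T.val χ (S.jk U c k) * T.val χ (S.w c)) + p.σ) := by
    intro c
    rw [val_Qterm hp hS hU, qual]
    obtain ⟨hw0, hw1⟩ := hw c
    have hN := (Prm.N_mem hp (val_w_dom hS c χ)).2
    have hs : ∀ b, 1 - p.e ≤ scav (T.val χ (S.t U b c)) (T.val χ (S.F c)) := fun b => by
      rw [← val_sc hp hS hU]
      linarith [sc_ge hp hS hU b c χ, hρ b c]
    have hsum0 : 0 ≤ ∑ k ∈ Finset.range (p.nb + 1), T.val χ (S.jk U c k) * T.val χ (S.w c) :=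
      Finset.sum_nonneg fun k _ => mul_nonneg (hjk0 c k) hw0
    have hσ := hp.σ_pos
    have hlow : ∀ x, x ≤ 2 → (2 * (1 + 10 * p.e)) * T.val χ (S.w c) -
        T.val χ (S.w c) * (2 - x * p.e) + p.N (T.val χ (S.w c)) ≤
        (20 + x + 3) * p.e * T.val χ (S.w c) := fun x _ => by linarith
    rcases (isRA_act hp hS hU c).val_proj χ (act_proj hp hS hU c) with hact | hact
    · rw [val_act hp hS hU, h, one_mul] at hact
      have hbig : 2 + 27 * p.e ≤ scav (T.val χ (S.t U true c)) (T.val χ (S.F c)) +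
          scav (T.val χ (S.t U false c)) (T.val χ (S.F c)) := by
        rcases (isRA_cutsc hp hS hU true c).val_proj χ (T.cut_isStarProjection _ _) with ht | ht
        swap
        · have := le_val_of_cut χ (isRA_sc hp hS hU true c).mem (isRA_sc hp hS hU true c).sa ht
          rw [val_sc hp hS hU, Prm.S] at this
          linarith [hs false]
        rcases (isRA_cutsc hp hS hU false c).val_proj χ (T.cut_isStarProjection _ _) with hf | hf
        swap
        · have := le_val_of_cut χ (isRA_sc hp hS hU false c).mem (isRA_sc hp hS hU false c).sa hf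
          rw [val_sc hp hS hU, Prm.S] at this
          linarith [hs true]
        rw [ht, hf] at hact
        norm_num at hact
      have h1 := mul_le_mul_of_nonneg_left hbig hw0
      have h2 : 0 ≤ 25 * p.e *
          ((∑ k ∈ Finset.range (p.nb + 1), T.val χ (S.jk U c k) * T.val χ (S.w c)) + p.σ) := by
        positivity
      linarith [mul_nonneg he.le hw0]
    have hnote := hlow 2 le_rfl
    have h1 := mul_le_mul_of_nonneg_left (add_le_add (hs true) (hs false)) hw0
    have hle : T.val χ (S.w c) ≤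
        (∑ k ∈ Finset.range (p.nb + 1), T.val χ (S.jk U c k) * T.val χ (S.w c)) + p.σ := by
      rcases (isRA_cutw hp hS c p.σ).val_proj χ (T.cut_isStarProjection _ _) with h0 | h0
      · have := val_le_of_cut χ (hS.w_mem c) (isRA_w hS c).sa h0
        linarith
      have hlast : T.val χ (T.cut (S.w c) (p.lev (p.nb + 1))) = 0 := by
        rcases (isRA_cutw hp hS c (p.lev (p.nb + 1))).val_proj χ (T.cut_isStarProjection _ _) with
          h3 | h3
        · exact h3
        · have := le_val_of_cut χ (hS.w_mem c) (isRA_w hS c).sa h3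
          linarith [Prm.θ_lt_lev_last hp]
      have htel : 1 ≤ ∑ k ∈ Finset.range (p.nb + 1), T.val χ (S.jk U c k) := by
        have h4 : ∀ k ∈ Finset.range (p.nb + 1), T.val χ (T.cut (S.w c) (p.lev k)) -
            T.val χ (T.cut (S.w c) (p.lev (k + 1))) ≤ T.val χ (S.jk U c k) := fun k _ => by
          rw [val_jk hp hS hU, hact, one_mul, val_band hp hS]
          have a1 := (isRA_cutw hp hS c (p.lev k)).val_proj_mem χ (T.cut_isStarProjection _ _)
          have a2 := (isRA_cutw hp hS c (p.lev (k + 1))).val_proj_mem χ (T.cut_isStarProjection _ _)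
          nlinarith
        refine le_trans (le_of_eq ?_) (Finset.sum_le_sum h4)
        rw [Finset.sum_range_sub', hlast, sub_zero]
        exact h0.symm
      rw [← Finset.sum_mul]
      have := mul_le_mul_of_nonneg_right htel hw0
      linarith
    have h2 := mul_le_mul_of_nonneg_left hle (by positivity : 0 ≤ 25 * p.e)
    linarith
  have hWsum : (55 : ℝ) / 100 ≤ ∑ k ∈ Finset.range (p.nb + 1), W k := by
    have h1 := Finset.sum_le_sum (fun c (_ : c ∈ Finset.univ) => hterm c)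
    rw [← val_sum χ _ _ (fun c _ => (isRA_Qterm hp hS hU c).mem)] at h1
    simp only [mul_add, Finset.sum_add_distrib, ← Finset.mul_sum, Finset.sum_const,
      Finset.card_univ, Fintype.card_fin, nsmul_eq_mul] at h1
    have h2 : (p.r : ℝ) * p.σ = 1 / 100 := by
      have := hp.r_pos
      rw [Prm.σ]; field_simp
    rw [Finset.sum_comm] at h1
    change T.val χ (S.Q U) ≤ 25 * p.e * ∑ k ∈ Finset.range (p.nb + 1), W k + _ at h1
    nlinarith
  -- the margins per band
  have hC : ∀ k ∈ Finset.range (p.nb + 1), ∀ c : Fin p.r,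
      (if k = 0 then 16 else 5 / 10 ^ 10 / (64 * (p.θ * p.rb k))) *
          (T.val χ (S.jk U c k) * T.val χ (S.w c)) ≤
        p.pwt k * (T.val χ (S.jk U c k) * (1 - T.val χ (S.lok c k))) := by
    intro k hk c
    rcases (isRA_jk hp hS hU c k).val_proj χ (jk_proj hp hS hU c k) with hj | hj
    · simp [hj]
    rw [hj, one_mul, one_mul, val_lok hp hS]
    obtain ⟨-, hl0, hl1, -, -⟩ := jk_spec hp hS hU c k χ hj
    set w := T.val χ (S.w c)
    obtain ⟨he0, he1⟩ := Prm.ηb_mem hp k w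
    have hfrac : p.ηb k w / 2 ≤ 1 - (1 + p.ηb k w)⁻¹ := by
      have e : 1 - (1 + p.ηb k w)⁻¹ = p.ηb k w / (1 + p.ηb k w) := by field_simp; ring
      rw [e]
      exact div_le_div_of_nonneg_left he0 (by linarith) (by linarith)
    refine le_trans ?_ (mul_le_mul_of_nonneg_left hfrac (Prm.pwt_pos hp k).le)
    rcases k with - | k
    · simp only [Prm.ηb, Prm.pwt, if_true, Prm.cl_eq hp (show w ∈ p.dom from val_w_dom hS c χ)]
      linarith
    · obtain ⟨-, -, hup⟩ := Prm.band_succ hp (Nat.le_of_lt_succ (Finset.mem_range.1 hk)) hl0 hl1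
      simp only [Prm.ηb, Prm.pwt, Nat.succ_ne_zero, if_false]
      have hθ := hp.θ_pos
      have hb := Prm.rb_pos hp (k + 1)
      rw [div_mul_eq_mul_div, div_le_iff₀ (by positivity)]
      calc 5 / 10 ^ 10 * w ≤ 5 / 10 ^ 10 * (16 * (p.θ * p.rb (k + 1) ^ 4)) :=
            mul_le_mul_of_nonneg_left hup (by norm_num)
        _ = _ := by ring
  rw [Finset.sum_comm]
  refine le_trans ?_ (Finset.sum_le_sum fun k hk => Finset.sum_le_sum fun c _ => hC k hk c)
  simp only [← Finset.mul_sum]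
  have hW0 : ∀ k, 0 ≤ W k := fun k => Finset.sum_nonneg fun c _ => mul_nonneg (hjk0 c k) (hw c).1
  have hcoef : ∀ k, 0 ≤ (if k = 0 then (16 : ℝ) else 5 / 10 ^ 10 / (64 * (p.θ * p.rb k))) :=
    fun k => by
      have := Prm.rb_pos hp k
      have := hp.θ_pos
      split_ifs <;> positivity
  show 4 ≤ ∑ k ∈ Finset.range (p.nb + 1), _ * W k
  rcases le_or_gt (1 / 4) (W 0) with h0 | h0
  · refine le_trans ?_ (Finset.single_le_sum (fun k _ => mul_nonneg (hcoef k) (hW0 k))
      (Finset.mem_range.2 (Nat.succ_pos _)))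
    simp only [if_true]
    linarith
  obtain ⟨k, hk, hk0, hkW⟩ : ∃ k ∈ Finset.range (p.nb + 1), k ≠ 0 ∧ p.rb k / 16 ≤ W k := by
    by_contra hcon
    push Not at hcon
    have h1 : ∀ k ∈ Finset.range (p.nb + 1), W k ≤ (if k = 0 then 1 / 4 else 0) + p.rb k / 16 := by
      intro k hk
      have := Prm.rb_pos hp k
      by_cases hk0 : k = 0
      · rw [if_pos hk0, hk0]
        linarith [Prm.rb_pos hp 0]
      · rw [if_neg hk0, zero_add]; exact (hcon k hk hk0).le
    have h2 := hWsum.trans (Finset.sum_le_sum h1)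
    rw [Finset.sum_add_distrib, ← Finset.sum_div, Finset.sum_ite_eq' (Finset.range (p.nb + 1)) 0,
      if_pos (by simp)] at h2
    linarith [Prm.sum_rb_le hp]
  refine le_trans ?_ (Finset.single_le_sum (fun k _ => mul_nonneg (hcoef k) (hW0 k)) hk)
  rw [if_neg hk0]
  have hθ := hp.θ_pos
  have hb := Prm.rb_pos hp k
  refine le_trans ?_ (mul_le_mul_of_nonneg_left hkW (by positivity))
  rw [div_mul_div_comm, le_div_iff₀ (by positivity)]
  have := mul_le_mul_of_nonneg_right hp.θ_le hb.le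
  linarith

/-- The count of the directions. -/
lemma count_le : 4 * T.tr (S.good U) ≤ ∑ c, T.tr (S.j U c * (1 - S.lok c (S.kc U c))) := by
  set X : M := ∑ c, ∑ k ∈ Finset.range (p.nb + 1), p.pwt k • (S.jk U c k * (1 - S.lok c k)) with hX
  have hi : ∀ c k, T.IsRA (S.jk U c k * (1 - S.lok c k)) := fun c k =>
    (isRA_jk hp hS hU c k).mul (isRA_one.sub (isRA_lok hS c k))
  have hin : ∀ c, T.IsRA (∑ k ∈ Finset.range (p.nb + 1), p.pwt k • (S.jk U c k * (1 - S.lok c k))) :=
    fun c => isRA_sum fun k _ => (hi c k).smul _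
  have hXR : T.IsRA X := isRA_sum fun c _ => hin c
  have hv0 : ∀ c k χ, 0 ≤ T.val χ (S.jk U c k * (1 - S.lok c k)) := fun c k χ => by
    rw [(isRA_jk hp hS hU c k).val_mul χ (isRA_one.sub (isRA_lok hS c k)),
      isRA_one.val_sub χ (isRA_lok hS c k), val_one, val_lok hp hS]
    refine mul_nonneg ((isRA_jk hp hS hU c k).val_proj_mem χ (jk_proj hp hS hU c k)).1 ?_
    have := (Prm.ηb_mem hp k (T.val χ (S.w c))).1
    linarith [inv_le_one_of_one_le₀ (show 1 ≤ 1 + p.ηb k (T.val χ (S.w c)) by linarith)]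
  have hle : (4 : ℝ) • S.good U ≤ X := by
    refine ((isRA_good hp hS hU).smul _).le_of_val hXR fun χ => ?_
    rw [(isRA_good hp hS hU).val_smul, hX, val_sum χ _ _ fun c _ => (hin c).mem]
    have e : ∀ c, T.val χ (∑ k ∈ Finset.range (p.nb + 1), p.pwt k • (S.jk U c k * (1 - S.lok c k))) =
        ∑ k ∈ Finset.range (p.nb + 1),
          p.pwt k * (T.val χ (S.jk U c k) * (1 - T.val χ (S.lok c k))) := fun c => by
      rw [val_sum χ _ _ fun k _ => ((hi c k).smul _).mem]
      refine Finset.sum_congr rfl fun k _ => ?_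
      rw [(hi c k).val_smul, (isRA_jk hp hS hU c k).val_mul χ (isRA_one.sub (isRA_lok hS c k)),
        isRA_one.val_sub χ (isRA_lok hS c k), val_one]
    rcases (isRA_good hp hS hU).val_proj χ (good_proj hp hS hU) with hg | hg
    · rw [hg, mul_zero]
      refine Finset.sum_nonneg fun c _ => ?_
      rw [val_sum χ _ _ fun k _ => ((hi c k).smul _).mem]
      exact Finset.sum_nonneg fun k _ => by
        rw [(hi c k).val_smul]; exact mul_nonneg (Prm.pwt_pos hp k).le (hv0 c k χ)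
    · rw [hg, mul_one, Finset.sum_congr rfl fun c _ => e c]
      exact count_pointwise hp hS hU χ hg
  have h2 := T.tr_mono hle
  rw [T.tr_smul, hX, T.tr_sum] at h2
  refine h2.trans (Finset.sum_le_sum fun c _ => ?_)
  rw [T.tr_sum]
  have hm := (kc_spec S U c).2
  have h0 : ∀ k, 0 ≤ T.tr (S.jk U c k * (1 - S.lok c k)) := fun k =>
    T.tr_nonneg ((hi c k).nonneg_of_val (hv0 c k))
  refine le_trans (Finset.sum_le_sum fun k hk => le_of_eq_of_le (T.tr_smul _ _)
    (mul_le_mul_of_nonneg_left (hm k (Nat.le_of_lt_succ (Finset.mem_range.1 hk)))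
      (Prm.pwt_pos hp k).le)) ?_
  rw [← Finset.sum_mul]
  exact mul_le_of_le_one_left (h0 _) (Prm.sum_pwt_le hp)

lemma penalty_stuck :
    (4 * p.e ^ 2) • T.cut (S.alive * S.pen U) (2 * p.e) ≤ S.alive * (S.pen U * S.pen U) := by
  have hA := isRA_alive hS
  have hP := isRA_pen hp hS hU
  have hs := isRA_cutpen hp hS hU
  refine (hs.smul _).le_of_val (hA.mul (hP.mul hP)) fun χ => ?_
  rw [hs.val_smul, hA.val_mul χ (hP.mul hP), hP.val_mul χ hP]
  rcases hs.val_proj χ (T.cut_isStarProjection _ _) with h | h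
  · rw [h, mul_zero]
    exact mul_nonneg (hA.val_proj_mem χ (alive_proj hS)).1 (mul_self_nonneg _)
  · have h1 := le_val_of_cut χ (hA.mul hP).mem (hA.mul hP).sa h
    rw [hA.val_mul χ hP] at h1
    rcases hA.val_proj χ (alive_proj hS) with ha | ha
    · rw [ha, zero_mul] at h1; linarith [hp.e_pos]
    · rw [ha, one_mul] at h1
      rw [h, ha, mul_one, one_mul]
      nlinarith [hp.e_pos]

/-- Few sites are stuck. -/
lemma good_trace : T.tr S.alive - T.tr (S.alive * (S.pen U * S.pen U)) / (4 * p.e ^ 2) -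
    2 / p.e * ∑ c, (T.tr (S.R true c) + T.tr (S.R false c)) ≤ T.tr (S.good U) := by
  have he := hp.e_pos
  have hA := isRA_alive hS
  have h1 := isRA_cutpen hp hS hU
  have h2 := isRA_cutrho hp hS hU
  have hle : S.alive - T.cut (S.alive * S.pen U) (2 * p.e) - T.cut (S.rhoSum U) p.e ≤ S.good U := by
    refine ((hA.sub h1).sub h2).le_of_val (isRA_good hp hS hU) fun χ => ?_
    rw [(hA.sub h1).val_sub χ h2, hA.val_sub χ h1, val_good hp hS hU]
    obtain ⟨a0, a1⟩ := hA.val_proj_mem χ (alive_proj hS)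
    obtain ⟨b0, b1⟩ := h1.val_proj_mem χ (T.cut_isStarProjection _ _)
    obtain ⟨d0, d1⟩ := h2.val_proj_mem χ (T.cut_isStarProjection _ _)
    nlinarith [mul_nonneg (mul_nonneg a0 b0) d0, mul_nonneg (sub_nonneg.2 a1) b0,
      mul_nonneg (sub_nonneg.2 a1) d0]
  have h3 := T.tr_mono hle
  rw [T.tr_sub, T.tr_sub] at h3
  have h4 : T.tr (T.cut (S.alive * S.pen U) (2 * p.e)) ≤
      T.tr (S.alive * (S.pen U * S.pen U)) / (4 * p.e ^ 2) := by
    rw [le_div_iff₀ (by positivity), mul_comm, ← T.tr_smul]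
    exact T.tr_mono (penalty_stuck hp hS hU)
  have h5 : T.tr (T.cut (S.rhoSum U) p.e) ≤ 2 / p.e * ∑ c, (T.tr (S.R true c) + T.tr (S.R false c)) := by
    refine (T.tr_cut_le (Finset.sum_nonneg fun c _ => add_nonneg (rho_nonneg hp hS hU true c)
      (rho_nonneg hp hS hU false c)) he).trans ?_
    rw [div_mul_eq_mul_div, div_le_div_iff_of_pos_right he, T.tr_sum, Finset.mul_sum]
    refine Finset.sum_le_sum fun c _ => ?_
    have hb : ∀ b, T.tr (S.rho U b c) ≤ 2 * T.tr (S.R b c) := fun b => by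
      rw [rho, T.tr_E, T.tr_comm, ← mul_assoc, T.tr_comm]
      refine (T.tr_mul_mono_right (hS.R_nonneg b c) (hU b).sq_le).trans_eq ?_
      rw [mul_smul_comm, mul_one, T.tr_smul]
    rw [T.tr_add]
    linarith [hb true, hb false]
  linarith

end

end State

end Vale.Agent.P078.Sharp
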