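import Mathlib
import Vale.Agent.P078.DataValid
import Vale.Agent.P078.Sharp.StateFacts

/-!
# The data attached to a state satisfy the hypotheses of the direction lemma, uniformly
-/

open scoped ComplexOrder InnerProductSpace Topology
open Filter

set_option linter.unusedSectionVars false

namespace Vale.Agent.P078.Sharp

universe u

variable {M : Type u} [CStarAlgebra M] [PartialOrder M] [StarOrderedRing M]

open TracialMasa hiding Colour DirData State omr_square third_order_identity exists_basic_bounds exists_dir_valid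

variable {T : TracialMasa M} {p : Prm} {U : Bool → M}

namespace State

variable {S : State T p} (hp : p.Good) (hS : S.Inv U) (hU : ∀ b, Adm T (U b))
include hp hS hU

lemma isRA_j (c : Fin p.r) : T.IsRA (S.j U c) := isRA_jk hp hS hU c _

lemma j_proj (c : Fin p.r) : IsStarProjection (S.j U c) := jk_proj hp hS hU c _

lemma isRA_bw : T.IsRA (S.bw U) := ((isRA_alive hS).mul (isRA_pen hp hS hU)).smul _

lemma val_bw_nonneg (χ : T.Chi) : 0 ≤ T.val χ (S.bw U) := by
  rw [bw, ((isRA_alive hS).mul (isRA_pen hp hS hU)).val_smul,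
    (isRA_alive hS).val_mul χ (isRA_pen hp hS hU), val_pen hp hS hU]
  exact mul_nonneg zero_le_two
    (mul_nonneg ((isRA_alive hS).val_proj_mem χ (alive_proj hS)).1 (le_max_right _ _))

lemma isRA_a' (b : Bool) (c : Fin p.r) : T.IsRA (S.a' U b c) :=
  ((isRA_bw hp hS hU).mul (isRA_w hS c)).mul (isRA_qq hp hS hU b c)

lemma val_a' (b : Bool) (c : Fin p.r) (χ : T.Chi) : T.val χ (S.a' U b c) =
    T.val χ (S.bw U) * T.val χ (S.w c) * (T.val χ (S.qi U b c) * T.val χ (S.qi U b c)) := by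
  rw [a', ((isRA_bw hp hS hU).mul (isRA_w hS c)).val_mul χ (isRA_qq hp hS hU b c),
    (isRA_bw hp hS hU).val_mul χ (isRA_w hS c), val_qq hp hS hU]

lemma isRA_lam (b : Bool) (c : Fin p.r) : T.IsRA (S.colour U b c).lam :=
  (isRA_zeta hS c).mul ((isRA_w hS c).cfc _)

lemma val_lam (b : Bool) (c : Fin p.r) (χ : T.Chi) : T.val χ (S.colour U b c).lam =
    p.zeta (T.val χ (S.w c)) *
      Real.sqrt (p.β (S.kc U c) / (4 * p.mm (S.kc U c) * max (T.val χ (S.w c)) p.σ)) := by
  show T.val χ (S.zeta c * _) = _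
  rw [(isRA_zeta hS c).val_mul χ ((isRA_w hS c).cfc _), val_zeta hp hS]
  congr 1
  refine (isRA_w hS c).val_cfc χ (f := fun x : ℝ =>
    Real.sqrt (p.β (S.kc U c) / (4 * p.mm (S.kc U c) * max x p.σ))) ?_
  refine Real.continuous_sqrt.comp (continuous_const.div (by fun_prop) fun x => ?_)
  have := Prm.mm_pos hp (S.kc U c)
  have := lt_of_lt_of_le hp.σ_pos (le_max_right x p.σ)
  positivity

lemma isRA_bet (b : Bool) (c : Fin p.r) : T.IsRA (S.colour U b c).bet :=
  (isRA_qq hp hS hU b c).mul ((isRA_w hS c).cfc _)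

lemma val_bet (b : Bool) (c : Fin p.r) (χ : T.Chi) : T.val χ (S.colour U b c).bet =
    T.val χ (S.qi U b c) * T.val χ (S.qi U b c) *
      Real.sqrt (p.mm (S.kc U c) * max (T.val χ (S.w c)) p.σ / p.β (S.kc U c)) := by
  show T.val χ (S.qi U b c * S.qi U b c * _) = _
  rw [(isRA_qq hp hS hU b c).val_mul χ ((isRA_w hS c).cfc _), val_qq hp hS hU]
  congr 1
  exact (isRA_w hS c).val_cfc χ (f := fun x : ℝ =>
    Real.sqrt (p.mm (S.kc U c) * max x p.σ / p.β (S.kc U c))) (by fun_prop)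

lemma isRA_g (b : Bool) (c : Fin p.r) : T.IsRA (S.colour U b c).g :=
  ((isRA_bw hp hS hU).mul (isRA_zeta hS c)).mul (isRA_qq hp hS hU b c)

lemma isRA_b (b : Bool) (c : Fin p.r) : T.IsRA (S.colour U b c).b :=
  (isRA_bw hp hS hU).mul (isRA_j hp hS hU c)

lemma val_b (b : Bool) (c : Fin p.r) (χ : T.Chi) :
    T.val χ (S.colour U b c).b = T.val χ (S.bw U) * T.val χ (S.j U c) :=
  (isRA_bw hp hS hU).val_mul χ (isRA_j hp hS hU c)

lemma isRA_neg (b : Bool) (c : Fin p.r) : T.IsRA (S.colour U b c).neg :=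
  (((isRA_bw hp hS hU).mul ((isRA_zeta hS c).mul (isRA_zeta hS c))).mul (isRA_ddN hS c)).smul _

/-- The off-diagonal bound in the band of a colour. -/
lemma offDiag (b : Bool) (c : Fin p.r) {k : ℕ} (hk : k ≤ p.nb) :
    OffDiag T (S.Y U b c) (p.β k • S.qs U b c) (S.jk U c k) p.Ce := by
  intro bb hb hb0 hbj e he hep hej cc η h' hc hη hh hcell
  have hY0 := Y_nonneg hp hS hU b c
  have hYs := IsSelfAdjoint.of_nonneg hY0
  have herr : ∀ Ce', Ce' ≤ p.Ce → Ce' * (‖bb‖ * ‖S.Y U b c‖ ^ 2 / η ^ 2) *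
      T.n2 (e * S.Y U b c * e - cc • e) ^ 2 ≤ p.Ce * (‖bb‖ * ‖S.Y U b c‖ ^ 2 / η ^ 2) *
      T.n2 (e * S.Y U b c * e - cc • e) ^ 2 := fun Ce' h =>
    mul_le_mul_of_nonneg_right (mul_le_mul_of_nonneg_right h (by positivity)) (sq_nonneg _)
  rcases k with - | k
  · have hGF : T.phi0A (S.Y U b c) e ≤ T.E (S.Y U b c * e * S.Y U b c) := by
      rw [phi0A_eq _ he, sub_le_self_iff]
      exact (IsSelfAdjoint.of_nonneg (T.E_nonneg hY0)).conjugate_nonneg hep.nonneg
    have h1 := tr_conj_le (T := T) hY0 hb0 hep hc hη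
    rw [← tr_mul_E hb (S.Y U b c)] at h1
    have h2 : T.tr (bb * T.phi0A (S.Y U b c) e) ≤ T.tr (bb * (S.Y U b c * e * S.Y U b c)) :=
      (T.tr_mul_mono_right hb0 hGF).trans_eq (tr_mul_E hb _)
    have hbR : T.IsRA bb := ⟨hb, IsSelfAdjoint.of_nonneg hb0⟩
    have hjR := isRA_jk hp hS hU c 0
    have h3 : bb * T.E (S.Y U b c) ≤ bb * (p.β 0 • S.qs U b c) := by
      refine (hbR.mul (isRA_t hp hS hU b c)).le_of_val
        (hbR.mul ((isRA_qs hp hS hU b c).smul _)) fun χ => ?_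
      rw [hbR.val_mul χ ((isRA_qs hp hS hU b c).smul _), (isRA_qs hp hS hU b c).val_smul,
        val_qs hp hS hU]
      refine le_of_eq_of_le (hbR.val_mul χ (isRA_t hp hS hU b c)) ?_
      rcases hjR.val_proj χ (jk_proj hp hS hU c 0) with h | h
      · have : T.val χ bb = 0 := by rw [← hbj, hbR.val_mul χ hjR, h, mul_zero]
        simp [this]
      · obtain ⟨-, -, -, -, hbnd⟩ := jk_spec hp hS hU c 0 χ h
        refine mul_le_mul_of_nonneg_left ?_ (val_nonneg χ hb hb0)
        refine (hbnd b).2.trans ?_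
        rw [Prm.β, if_pos rfl]
        refine mul_le_mul_of_nonneg_left ?_ hp.S_pos.le
        have := one_le_Ft hp hS hU b c χ
        nlinarith
    have h4 := mul_le_mul_of_nonneg_left (T.tr_mono h3) (by linarith : 0 ≤ cc + η)
    refine h2.trans (h1.trans (add_le_add h4 ?_))
    refine le_trans (le_of_eq (one_mul _).symm) ?_
    rw [← mul_assoc]
    refine herr 1 ?_
    unfold Prm.Ce
    have := hp.e_pos
    exact le_add_of_nonneg_left (by positivity)
  · have h := (cell hp hS hU b c).offdiag (isRA_jk hp hS hU c (k + 1)).mem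
      (jk_proj hp hS hU c (k + 1)) hp.e_pos hp.e_le (fun χ hχ => ?_) hb hb0 hbj he hep hej hc hη hh
      hcell
    · rw [Prm.β, if_neg (Nat.succ_ne_zero k)]
      exact h.trans (add_le_add le_rfl (herr _ (le_add_of_nonneg_right zero_le_one)))
    obtain ⟨-, hl0, hl1, hwθ, hbnd⟩ := jk_spec hp hS hU c (k + 1) χ hχ
    have hw := val_w_dom hS c χ
    obtain ⟨hKw, -, -⟩ := Prm.band_succ hp hk hl0 hl1
    obtain ⟨hu0, hu1⟩ := Prm.u_mem hp hw
    obtain ⟨-, hf1, -⟩ := Prm.f_mem hp hw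
    have hu : p.u (T.val χ (S.w c)) ≤ 2 / p.e := by
      refine hu1.trans ?_
      have h1 := mul_le_mul_of_nonneg_left hwθ hp.K_pos.le
      rw [hp.K_mul_θ] at h1
      have h2 : 1 ≤ 1 / p.e := by rw [le_div_iff₀ hp.e_pos]; linarith [hp.e_le]
      have h3 : 2 / p.e = 1 / p.e + 1 / p.e := by ring
      linarith
    have hupos : 0 < p.u (T.val χ (S.w c)) := by linarith
    rw [val_F hp hS]
    refine ⟨?_, ?_, ?_, (hbnd b).1⟩
    · have h1 : 1 / p.u (T.val χ (S.w c)) ≤ 16 / 29 := by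
        rw [div_le_div_iff₀ hupos (by norm_num)]; linarith
      nlinarith [hp.S_le, hp.S_pos, Prm.f_mem hp hw]
    · have := (hbnd b).2
      rw [val_F hp hS, Prm.S] at this
      exact this
    · rw [Prm.S] at hf1
      rw [hf1, sub_sub_cancel]
      rw [le_div_iff₀ hp.e_pos] at hu
      rw [mul_one_div, le_div_iff₀ hupos]
      linarith

lemma colour_valid (b : Bool) (c : Fin p.r) : (S.colour U b c).Valid p.Ce where
  Y_nonneg := Y_nonneg hp hS hU b c
  Z_nonneg := Z_nonneg hp hS hU b c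
  j_mem := (isRA_j hp hS hU c).mem
  j_proj := j_proj hp hS hU c
  a'_mem := (isRA_a' hp hS hU b c).mem
  a'_nonneg := (isRA_a' hp hS hU b c).nonneg_of_val fun χ => by
    rw [val_a' hp hS hU]
    exact mul_nonneg (mul_nonneg (val_bw_nonneg hp hS hU χ) (val_w hS c χ).1) (mul_self_nonneg _)
  b_mem := (isRA_b hp hS hU b c).mem
  b_nonneg := (isRA_b hp hS hU b c).nonneg_of_val fun χ => by
    rw [val_b hp hS hU]
    exact mul_nonneg (val_bw_nonneg hp hS hU χ)
      ((isRA_j hp hS hU c).val_proj_mem χ (j_proj hp hS hU c)).1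
  lam_mem := (isRA_lam hp hS hU b c).mem
  lam_sa := (isRA_lam hp hS hU b c).sa
  bet_mem := (isRA_bet hp hS hU b c).mem
  bet_sa := (isRA_bet hp hS hU b c).sa
  g_mem := (isRA_g hp hS hU b c).mem
  neg_mem := (isRA_neg hp hS hU b c).mem
  neg_sa := (isRA_neg hp hS hU b c).sa
  cross := by
    have hl := isRA_lam hp hS hU b c
    have hb := isRA_bet hp hS hU b c
    have hbb := isRA_b hp hS hU b c
    have hg := isRA_g hp hS hU b c
    have hj := isRA_j hp hS hU c
    refine ((hl.mul hb).mul hbb).eq_of_val ((hg.mul hj).smul _) fun χ => ?_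
    show _ = T.val χ ((1 / 2 : ℝ) • ((S.colour U b c).g * S.j U c))
    rw [(hl.mul hb).val_mul χ hbb, hl.val_mul χ hb, (hg.mul hj).val_smul]
    rw [hg.val_mul χ hj, val_lam hp hS hU, val_bet hp hS hU, val_b hp hS hU]
    show _ = _ * (T.val χ (S.bw U * S.zeta c * (S.qi U b c * S.qi U b c)) * _)
    rw [((isRA_bw hp hS hU).mul (isRA_zeta hS c)).val_mul χ (isRA_qq hp hS hU b c),
      (isRA_bw hp hS hU).val_mul χ (isRA_zeta hS c), val_qq hp hS hU, val_zeta hp hS]
    set mx := max (T.val χ (S.w c)) p.σ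
    have hmx : 0 < mx := lt_of_lt_of_le hp.σ_pos (le_max_right _ _)
    have hm := Prm.mm_pos hp (S.kc U c)
    have hβ := Prm.β_pos hp (S.kc U c)
    have hs : Real.sqrt (p.β (S.kc U c) / (4 * p.mm (S.kc U c) * mx)) *
        Real.sqrt (p.mm (S.kc U c) * mx / p.β (S.kc U c)) = 1 / 2 := by
      rw [← Real.sqrt_mul (by positivity), Real.sqrt_eq_iff_eq_sq (by positivity) (by norm_num)]
      field_simp
      ring
    calc _ = (Real.sqrt (p.β (S.kc U c) / (4 * p.mm (S.kc U c) * mx)) *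
        Real.sqrt (p.mm (S.kc U c) * mx / p.β (S.kc U c))) *
        (T.val χ (S.bw U) * p.zeta (T.val χ (S.w c)) *
          (T.val χ (S.qi U b c) * T.val χ (S.qi U b c)) * T.val χ (S.j U c)) := by ring
      _ = _ := by rw [hs]
  bet_j := by
    show S.bw U * S.j U c * S.j U c = S.bw U * S.j U c
    rw [mul_assoc, (j_proj hp hS hU c).isIdempotentElem.eq]
  Bd_mem := ((isRA_qs hp hS hU b c).smul _).mem
  Bd_nonneg := ((isRA_qs hp hS hU b c).smul _).nonneg_of_val fun χ => by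
    rw [(isRA_qs hp hS hU b c).val_smul, val_qs hp hS hU]
    exact mul_nonneg (Prm.β_pos hp _).le (sq_nonneg _)
  κ_ra := isRA_curv hS c
  eta_mem := (isRA_etak hS c _).mem
  eta_nonneg := (isRA_etak hS c _).nonneg_of_val fun χ => by
    rw [val_etak hp hS]; exact (Prm.ηb_mem hp _ _).1
  m_nonneg := (Prm.mm_pos hp _).le
  Ce_nonneg := (Prm.Ce_pos hp).le
  offdiag := offDiag hp hS hU b c (kc_spec S U c).1
  bd_le := by
    have hq := (isRA_qs hp hS hU b c).smul (p.β (S.kc U c))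
    have hb := isRA_bet hp hS hU b c
    have hbb := isRA_b hp hS hU b c
    have ha' := isRA_a' hp hS hU b c
    show (p.β (S.kc U c) • S.qs U b c) * _ ≤ p.mm (S.kc U c) • S.a' U b c
    refine (hq.mul ((hb.mul hb).mul hbb)).le_of_val (ha'.smul _) fun χ => ?_
    rw [hq.val_mul χ ((hb.mul hb).mul hbb), (isRA_qs hp hS hU b c).val_smul,
      (hb.mul hb).val_mul χ hbb, hb.val_mul χ hb, ha'.val_smul, val_qs hp hS hU,
      val_bet hp hS hU, val_b hp hS hU, val_a' hp hS hU]
    have hbw := val_bw_nonneg hp hS hU χ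
    have hw := val_w hS c χ
    have hm := Prm.mm_pos hp (S.kc U c)
    rcases (isRA_j hp hS hU c).val_proj χ (j_proj hp hS hU c) with h | h
    · rw [h, mul_zero, mul_zero, mul_zero]
      exact mul_nonneg hm.le (mul_nonneg (mul_nonneg hbw hw.1) (mul_self_nonneg _))
    · rw [h, mul_one]
      obtain ⟨-, hl0, -, -, -⟩ := jk_spec hp hS hU c _ χ h
      rw [max_eq_left ((Prm.σ_le_lev hp _).trans hl0)]
      have hβ := Prm.β_pos hp (S.kc U c)
      have hs := Real.mul_self_sqrt (show 0 ≤ p.mm (S.kc U c) * T.val χ (S.w c) / p.β (S.kc U c) from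
        div_nonneg (mul_nonneg hm.le hw.1) hβ.le)
      rw [val_qi hp hS hU]
      set q := 1 + T.val χ (S.F c) * T.val χ (S.t U b c)
      have hq0 : 0 < q := lt_of_lt_of_le one_pos (one_le_Ft hp hS hU b c χ)
      refine le_of_eq ?_
      calc _ = p.β (S.kc U c) * T.val χ (S.bw U) * (q ^ 2 * (q⁻¹ * q⁻¹)) * (q⁻¹ * q⁻¹) *
            (Real.sqrt (p.mm (S.kc U c) * T.val χ (S.w c) / p.β (S.kc U c)) *
              Real.sqrt (p.mm (S.kc U c) * T.val χ (S.w c) / p.β (S.kc U c))) := by ring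
        _ = _ := by rw [hs]; field_simp
  lam_le := by
    have hl := isRA_lam hp hS hU b c
    have hbb := isRA_b hp hS hU b c
    have hz := isRA_zeta hS c
    have he := isRA_etak hS c (S.kc U c)
    show S.etak c (S.kc U c) * _ ≤ _
    refine (he.mul ((hl.mul hl).mul hbb)).le_of_val (isRA_neg hp hS hU b c) fun χ => ?_
    rw [he.val_mul χ ((hl.mul hl).mul hbb), (hl.mul hl).val_mul χ hbb, hl.val_mul χ hl]
    show _ ≤ T.val χ ((1 / 4 : ℝ) • (S.bw U * (S.zeta c * S.zeta c) * S.ddN c))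
    rw [(((isRA_bw hp hS hU).mul (hz.mul hz)).mul (isRA_ddN hS c)).val_smul,
      ((isRA_bw hp hS hU).mul (hz.mul hz)).val_mul χ (isRA_ddN hS c),
      (isRA_bw hp hS hU).val_mul χ (hz.mul hz), hz.val_mul χ hz, val_ddN hp hS, val_zeta hp hS,
      val_lam hp hS hU, val_b hp hS hU, val_etak hp hS]
    have hbw := val_bw_nonneg hp hS hU χ
    have hw := val_w_dom hS c χ
    have hdd := Prm.ddN_nonneg hp hw.1
    rcases (isRA_j hp hS hU c).val_proj χ (j_proj hp hS hU c) with h | h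
    · rw [h, mul_zero, mul_zero, mul_zero]
      exact mul_nonneg (by norm_num) (mul_nonneg (mul_nonneg hbw (mul_self_nonneg _)) hdd)
    rw [h, mul_one]
    obtain ⟨-, hl0, hl1, -, -⟩ := jk_spec hp hS hU c _ χ h
    have hbon := Prm.bonus_band hp hw (kc_spec S U c).1 hl0 hl1
    have hm := Prm.mm_pos hp (S.kc U c)
    have hβ := Prm.β_pos hp (S.kc U c)
    have hw0 : 0 < T.val χ (S.w c) := lt_of_lt_of_le hp.σ_pos ((Prm.σ_le_lev hp _).trans hl0)
    rw [max_eq_left ((Prm.σ_le_lev hp _).trans hl0)]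
    set w := T.val χ (S.w c)
    set z := p.zeta w
    set bv := T.val χ (S.bw U)
    have h5 : p.ηb (S.kc U c) w * (p.β (S.kc U c) / (4 * p.mm (S.kc U c) * w)) ≤ p.ddN w / 4 := by
      rw [mul_div_assoc', div_le_div_iff₀ (by positivity) (by norm_num)]
      linarith
    calc _ = (z * z * bv) * (p.ηb (S.kc U c) w *
          (Real.sqrt (p.β (S.kc U c) / (4 * p.mm (S.kc U c) * w)) *
            Real.sqrt (p.β (S.kc U c) / (4 * p.mm (S.kc U c) * w)))) := by ring
      _ ≤ (z * z * bv) * (p.ddN w / 4) := by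
          rw [Real.mul_self_sqrt (by positivity)]
          exact mul_le_mul_of_nonneg_left h5 (mul_nonneg (mul_self_nonneg z) hbw)
      _ = _ := by ring
  margin := fun χ hj => by
    show (1 + T.val χ (S.etak c (S.kc U c))) * (1 + p.mm (S.kc U c)) * T.val χ (S.t U b c) ≤
      T.val χ (S.curv c)
    obtain ⟨-, hl0, hl1, -, -⟩ := jk_spec hp hS hU c _ χ hj
    have hw := val_w_dom hS c χ
    rw [val_etak hp hS, val_curv hp hS]
    refine le_trans ?_ (Prm.curv_ge hp hw)
    rw [mul_comm (p.S * p.u _)]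
    refine mul_le_mul (Prm.margin_band hp hw (kc_spec S U c).1 hl0 hl1)
      (t_le_u hp hS hU c _ χ hj b) (val_t_nonneg hp hS hU b c χ) ?_
    have := Prm.r4_nonneg hp hw.1
    have := mul_nonneg hp.K_pos.le hw.1
    positivity

end State

/-- Uniform bounds on the basic quantities of a state. -/
lemma exists_basic_bounds (hp : p.Good) : ∃ B : ℝ, 1 ≤ B ∧ ∀ (T : TracialMasa M) (U : Bool → M),
    (∀ b, Adm T (U b)) → ∀ S : State T p, S.Inv U → ∀ b c,
      ‖S.G U b c‖ ≤ B ∧ ‖S.Y U b c‖ ≤ B ∧ ‖S.Z U b c‖ ≤ B ∧ ‖S.t U b c‖ ≤ B ∧ ‖S.F c‖ ≤ B ∧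
      ‖S.qi U b c‖ ≤ B ∧ ‖S.qs U b c‖ ≤ B ∧ ‖S.w c‖ ≤ B ∧ ‖S.zeta c‖ ≤ B ∧ ‖S.curv c‖ ≤ B ∧
      ‖S.N c‖ ≤ B ∧ ‖S.dN c‖ ≤ B ∧ ‖S.ddN c‖ ≤ B ∧ ‖S.pen U‖ ≤ B ∧ ‖S.bw U‖ ≤ B ∧
      ‖(S.colour U b c).lam‖ ≤ B ∧ ‖(S.colour U b c).bet‖ ≤ B ∧ ‖(S.colour U b c).Bd‖ ≤ B ∧
      ‖S.alive‖ ≤ B ∧ ‖S.sc U b c‖ ≤ B := by
  have ha := hp.a_pos
  have he := hp.e_pos
  have hσ := hp.σ_pos
  have hd : IsCompact p.dom := isCompact_Icc
  obtain ⟨Cz, hCz⟩ := hd.exists_bound_of_continuousOn
    fun w hw => (Prm.continuousAt_zeta hp hw).continuousWithinAt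
  obtain ⟨Ck, hCk⟩ := hd.exists_bound_of_continuousOn
    fun w hw => (Prm.continuousAt_curv hp hw).continuousWithinAt
  obtain ⟨Cd, hCd⟩ := hd.exists_bound_of_continuousOn
    fun w hw => ((Prm.contDiffAt_ddN hp hw.1).continuousAt).continuousWithinAt
  have h00 : (0 : ℝ) ∈ p.dom := ⟨le_rfl, by linarith [hp.θ_pos]⟩
  have hCz0 : 0 ≤ Cz := (norm_nonneg _).trans (hCz 0 h00)
  have hCk0 : 0 ≤ Ck := (norm_nonneg _).trans (hCk 0 h00)
  have hCd0 : 0 ≤ Cd := (norm_nonneg _).trans (hCd 0 h00)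
  set B0 := 4 / p.a
  set mlo := min (1 / 200 : ℝ) ((1 / 2) ^ p.nb / 1024)
  have hmlo : 0 < mlo := lt_min (by norm_num) (by positivity)
  set Bl := Cz * Real.sqrt (3 / (4 * mlo * p.σ))
  set Bb := Real.sqrt (1 / p.e)
  set Bq := (1 + B0) * (1 + B0)
  set BQ := 16 * p.e + (p.r : ℝ) * (2 * B0) + 1
  have hA2 : 0 ≤ 4 * p.a⁻¹ ^ 2 := by positivity
  have ha1 : 0 ≤ p.a⁻¹ := by positivity
  have hB0 : 0 ≤ B0 := by positivity
  have hl0 : 0 ≤ Bl := by positivity
  have hb0 : 0 ≤ Bb := by positivity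
  have hq0 : 0 ≤ Bq := by positivity
  have hQ0 : 0 ≤ BQ := by positivity
  refine ⟨1 + p.a⁻¹ + 4 * p.a⁻¹ ^ 2 + B0 + Cz + Ck + Cd + 3 * BQ + Bl + Bb + 3 * Bq,
    by linarith, fun T U hU S hS b c => ?_⟩
  set B := 1 + p.a⁻¹ + 4 * p.a⁻¹ ^ 2 + B0 + Cz + Ck + Cd + 3 * BQ + Bl + Bb + 3 * Bq
  have hG : ‖S.G U b c‖ ≤ p.a⁻¹ := norm_capInv_le ha _
  have hY : ∀ b c, ‖S.Y U b c‖ ≤ B0 := fun b c =>
    (norm_conj_le (hU b).norm_le (norm_capInv_le ha _)).trans_eq (div_eq_mul_inv 4 p.a).symm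
  have ht : ∀ b c, ‖S.t U b c‖ ≤ B0 := fun b c => (T.norm_E_le _).trans (hY b c)
  have hθ : 2 * p.θ ≤ 1 := by linarith [hp.θ_le]
  have hw : ‖S.w c‖ ≤ 1 := (State.isRA_w hS c).norm_le zero_le_one fun χ => by
    rw [abs_of_nonneg (State.val_w hS c χ).1]; linarith [(State.val_w hS c χ).2]
  have hqi : ∀ b, ‖S.qi U b c‖ ≤ 1 := fun b =>
    (State.isRA_qi hp hS hU b c).norm_le zero_le_one fun χ => by
      obtain ⟨h0, h1⟩ := State.val_qi_mem hp hS hU b c χ
      rwa [abs_of_nonneg h0]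
  have hF : ‖S.F c‖ ≤ 1 := (State.isRA_F hS c).norm_le zero_le_one fun χ => by
    have h1 := State.val_F hp hS c χ
    obtain ⟨f0, -, f1⟩ := Prm.f_mem hp (State.val_w_dom hS c χ)
    rw [h1, abs_of_nonneg f0]
    exact f1.trans (by rw [div_le_one hp.S_pos]; exact hp.one_le_S)
  have hqs : ‖S.qs U b c‖ ≤ Bq := by
    have h1 : ‖1 + S.F c * S.t U b c‖ ≤ 1 + B0 := by
      refine (norm_add_le _ _).trans (add_le_add (IsStarProjection.one M).norm_le ?_)
      exact (norm_mul_le_of hF (ht b c)).trans_eq (one_mul _)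
    exact norm_mul_le_of h1 h1
  have hz : ‖S.zeta c‖ ≤ Cz := (State.isRA_zeta hS c).norm_le hCz0 fun χ => by
    rw [State.val_zeta hp hS, ← Real.norm_eq_abs]; exact hCz _ (State.val_w_dom hS c χ)
  have hk : ‖S.curv c‖ ≤ Ck := (State.isRA_curv hS c).norm_le hCk0 fun χ => by
    rw [State.val_curv hp hS, ← Real.norm_eq_abs]; exact hCk _ (State.val_w_dom hS c χ)
  have hN : ‖S.N c‖ ≤ 1 := (State.isRA_N hS c).norm_le zero_le_one fun χ => by
    obtain ⟨n0, n1⟩ := Prm.N_mem hp (State.val_w_dom hS c χ)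
    rw [State.val_N hp hS, abs_of_nonneg n0]
    nlinarith [(State.val_w hS c χ).2, (State.val_w hS c χ).1, hp.e_le]
  have hdN : ‖S.dN c‖ ≤ 1 := (State.isRA_dN hS c).norm_le zero_le_one fun χ => by
    obtain ⟨n0, n1⟩ := Prm.dN_mem hp (State.val_w_dom hS c χ)
    rw [State.val_dN hp hS, abs_of_nonneg n0]
    linarith [hp.e_le]
  have hddN : ‖S.ddN c‖ ≤ Cd := (State.isRA_ddN hS c).norm_le hCd0 fun χ => by
    rw [State.val_ddN hp hS, ← Real.norm_eq_abs]; exact hCd _ (State.val_w_dom hS c χ)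
  have hpenv : ∀ χ : T.Chi, T.val χ (S.pen U) ≤ BQ := fun χ => by
    rw [State.val_pen hp hS hU, State.val_Q hp hS hU]
    refine max_le ?_ hQ0
    have : ∀ d, -(2 * B0) ≤ qual p.e (T.val χ (S.w d)) (T.val χ (S.t U true d))
        (T.val χ (S.t U false d)) (T.val χ (S.F d)) (p.N (T.val χ (S.w d))) := fun d => by
      obtain ⟨h0, h1⟩ := State.val_w hS d χ
      have hsc : ∀ b, scav (T.val χ (S.t U b d)) (T.val χ (S.F d)) ≤ B0 := fun b =>
        (div_le_self (State.val_t_nonneg hp hS hU b d χ) (State.one_le_Ft hp hS hU b d χ)).trans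
          ((le_abs_self _).trans ((State.isRA_t hp hS hU b d).abs_val_le χ |>.trans (ht b d)))
      have hN := (Prm.N_mem hp (State.val_w_dom hS d χ)).1
      unfold qual
      have h2 := mul_le_mul_of_nonneg_left (add_le_add (hsc true) (hsc false)) h0
      have h3 : T.val χ (S.w d) * (B0 + B0) ≤ 1 * (B0 + B0) :=
        mul_le_mul_of_nonneg_right (by linarith) (by linarith)
      linarith [mul_nonneg (by linarith : 0 ≤ 2 * (1 + 10 * p.e)) h0]
    have h2 := Finset.sum_le_sum (fun d (_ : d ∈ Finset.univ) => this d)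
    rw [Finset.sum_const, Finset.card_univ, Fintype.card_fin, nsmul_eq_mul] at h2
    linarith
  have hpen : ‖S.pen U‖ ≤ BQ := (State.isRA_pen hp hS hU).norm_le hQ0 fun χ => by
    rw [abs_of_nonneg (by rw [State.val_pen hp hS hU]; exact le_max_right _ _)]
    exact hpenv χ
  have hal : ‖S.alive‖ ≤ 1 := (State.alive_proj hS).norm_le
  have hbw : ‖S.bw U‖ ≤ 2 * BQ := by
    rw [State.bw, norm_smul, Real.norm_of_nonneg zero_le_two]
    exact mul_le_mul_of_nonneg_left ((norm_mul_le_of hal hpen).trans_eq (one_mul _)) zero_le_two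
  have hmk : mlo ≤ p.mm (S.kc U c) ∧ p.mm (S.kc U c) ≤ 1 := by
    have h1 := Prm.rb_le_one hp (S.kc U c)
    have h2 : (1 / 2 : ℝ) ^ p.nb ≤ p.rb (S.kc U c) :=
      pow_le_pow_of_le_one (by norm_num) (by norm_num) (Nat.sub_le _ _)
    unfold Prm.mm
    split_ifs
    · exact ⟨min_le_left _ _, by norm_num⟩
    · exact ⟨(min_le_right _ _).trans (by linarith), by linarith⟩
  have hβk : p.e ≤ p.β (S.kc U c) ∧ p.β (S.kc U c) ≤ 3 := by
    have h1 := hp.one_le_S
    have h2 := hp.S_le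
    have h3 := hp.e_le
    unfold Prm.β
    split_ifs <;> constructor <;> linarith
  have hlam : ‖(S.colour U b c).lam‖ ≤ Bl := (State.isRA_lam hp hS hU b c).norm_le hl0 fun χ => by
    rw [State.val_lam hp hS hU, abs_mul]
    refine mul_le_mul (by rw [← Real.norm_eq_abs]; exact hCz _ (State.val_w_dom hS c χ)) ?_
      (abs_nonneg _) hCz0
    rw [abs_of_nonneg (Real.sqrt_nonneg _)]
    refine Real.sqrt_le_sqrt ?_
    refine div_le_div₀ (by norm_num) hβk.2 (by positivity) ?_
    exact mul_le_mul (by linarith [hmk.1]) (le_max_right _ _) hσ.le (by linarith [hmk.1])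
  have hbet : ‖(S.colour U b c).bet‖ ≤ Bb := (State.isRA_bet hp hS hU b c).norm_le hb0 fun χ => by
    rw [State.val_bet hp hS hU]
    obtain ⟨q0, q1⟩ := State.val_qi_mem hp hS hU b c χ
    rw [abs_of_nonneg (mul_nonneg (mul_nonneg q0 q0) (Real.sqrt_nonneg _))]
    refine (mul_le_of_le_one_left (Real.sqrt_nonneg _) (mul_le_one₀ q1 q0 q1)).trans
      (Real.sqrt_le_sqrt ?_)
    refine div_le_div₀ zero_le_one ?_ he hβk.1
    have hmax : max (T.val χ (S.w c)) p.σ ≤ 1 := by
      refine max_le (by linarith [(State.val_w hS c χ).2]) ?_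
      exact hp.σ_le.trans (hp.one_div_K_le.trans (by linarith [hp.θ_pos]))
    exact mul_le_one₀ hmk.2 (le_max_of_le_right hσ.le) hmax
  have hBd : ‖(S.colour U b c).Bd‖ ≤ 3 * Bq := by
    show ‖p.β (S.kc U c) • S.qs U b c‖ ≤ _
    rw [norm_smul, Real.norm_of_nonneg (Prm.β_pos hp _).le]
    exact mul_le_mul hβk.2 hqs (norm_nonneg _) (by norm_num)
  have hsc : ‖S.sc U b c‖ ≤ B0 := (norm_mul_le_of (ht b c) (hqi b)).trans_eq (mul_one _)
  have hZ : ‖S.Z U b c‖ ≤ 4 * p.a⁻¹ ^ 2 :=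
    (norm_conj_le (hU b).norm_le (norm_mul_le_of hG hG)).trans_eq (by ring)
  refine ⟨hG.trans ?_, (hY b c).trans ?_, hZ.trans ?_, (ht b c).trans ?_, hF.trans ?_,
    (hqi b).trans ?_, hqs.trans ?_, hw.trans ?_, hz.trans ?_, hk.trans ?_, hN.trans ?_,
    hdN.trans ?_, hddN.trans ?_, hpen.trans ?_, hbw.trans ?_, hlam.trans ?_, hbet.trans ?_,
    hBd.trans ?_, hal.trans ?_, hsc.trans ?_⟩ <;> linarith

/-- The data of a state satisfy the hypotheses of the direction lemma with a uniform bound. -/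
lemma exists_dir_valid (hp : p.Good) : ∃ Kb : ℝ, 0 ≤ Kb ∧ ∀ (T : TracialMasa M) (U : Bool → M),
    (∀ b, Adm T (U b)) → ∀ S : State T p, S.Inv U → p.δ ≤ T.tr S.alive →
      T.tr S.alive ≤ 2 * T.tr (S.good U) →
      (S.dir U).Valid Kb (1 / p.K) p.δ := by
  obtain ⟨B, hB1, hB⟩ := exists_basic_bounds (M := M) hp
  have hB0 : 0 ≤ B := zero_le_one.trans hB1
  set X1 := B * (B * (B * B))
  set X2 := B * ((B + B + ‖(2 * (1 + 10 * p.e)) • (1 : M)‖ + B) * B)
  set Bp := p.a ^ 2 * (B * B) + B * ((2 * B) ^ 2 * (B * B * (B * B))) + B * B * B +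
    B * ((2 * B) ^ 2 * (B * (B * B * B)))
  have hX1 : 0 ≤ X1 := by positivity
  have hX2 : 0 ≤ X2 := by positivity
  have hBp : 0 ≤ Bp := by positivity
  refine ⟨2 * (2 * Bp) + 2 * (X1 * (2 * B) ^ 2) + X2, by positivity,
    fun T U hU S hS hmass hgood => ?_⟩
  set Kb := 2 * (2 * Bp) + 2 * (X1 * (2 * B) ^ 2) + X2
  have hal := State.isRA_alive hS
  have hx1 : ∀ b c, T.IsRA (S.alive * (S.w c * (S.qi U b c * S.qi U b c))) := fun b c =>
    hal.mul ((State.isRA_w hS c).mul (State.isRA_qq hp hS hU b c))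
  have hx2 : ∀ c, T.IsRA (S.alive * ((S.sc U true c + S.sc U false c -
      (2 * (1 + 10 * p.e)) • 1 - S.dN c) * S.zeta c)) :=
    fun c => hal.mul (((((State.isRA_sc hp hS hU true c).add (State.isRA_sc hp hS hU false c)).sub
      (isRA_one.smul _)).sub (State.isRA_dN hS c)).mul (State.isRA_zeta hS c))
  have hx1n : ∀ b c, ‖S.alive * (S.w c * (S.qi U b c * S.qi U b c))‖ ≤ X1 := fun b c => by
    obtain ⟨-, -, -, -, -, hq, -, hw, -, -, -, -, -, -, -, -, -, -, ha, -⟩ := hB T U hU S hS b c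
    exact norm_mul_le_of ha (norm_mul_le_of hw (norm_mul_le_of hq hq))
  have hx2n : ∀ c, ‖S.alive * ((S.sc U true c + S.sc U false c -
      (2 * (1 + 10 * p.e)) • 1 - S.dN c) * S.zeta c)‖ ≤ X2 := fun c => by
    obtain ⟨-, -, -, -, -, -, -, -, hz, -, -, hd, -, -, -, -, -, -, ha, hsc⟩ := hB T U hU S hS true c
    obtain ⟨-, -, -, -, -, -, -, -, -, -, -, -, -, -, -, -, -, -, -, hsc'⟩ := hB T U hU S hS false c
    exact norm_mul_le_of ha (norm_mul_le_of ((norm_sub_le _ _).trans (add_le_add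
      ((norm_sub_le _ _).trans (add_le_add ((norm_add_le _ _).trans (add_le_add hsc hsc')) le_rfl))
      hd)) hz)
  have hYn : ∀ b c, (2 * ‖S.Y U b c‖) ^ 2 ≤ (2 * B) ^ 2 := fun b c => by
    obtain ⟨-, hY, -⟩ := hB T U hU S hS b c
    gcongr
  have hphi : ∀ b c, ‖T.phi0 (S.Y U b c)‖ ≤ (2 * B) ^ 2 := fun b c => by
    refine (T.norm_Phi_le _ _).trans (le_of_eq_of_le (sq ‖S.Y U b c - T.E (S.Y U b c)‖).symm
      (pow_le_pow_left₀ (norm_nonneg _) ?_ 2))
    · obtain ⟨-, hY, -⟩ := hB T U hU S hS b c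
      refine (norm_sub_le _ _).trans ?_
      linarith [T.norm_E_le (S.Y U b c)]
  have hYs : ∀ b c, IsSelfAdjoint (S.Y U b c) := fun b c =>
    IsSelfAdjoint.of_nonneg (State.Y_nonneg hp hS hU b c)
  have halal : S.alive * S.alive = S.alive := (State.alive_proj hS).isIdempotentElem.eq
  have hval := State.colour_valid hp hS hU
  have hpw : ∀ c, T.IsRA ((S.colour U true c).testWeight (p.a ^ 2) +
      (S.colour U false c).testWeight (p.a ^ 2)) := fun c =>
    ⟨add_mem ((S.colour U true c).testWeight_mem (hval true c) _)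
      ((S.colour U false c).testWeight_mem (hval false c) _),
    IsSelfAdjoint.of_nonneg (add_nonneg
      ((S.colour U true c).testWeight_nonneg (hval true c) (sq_nonneg _))
      ((S.colour U false c).testWeight_nonneg (hval false c) (sq_nonneg _)))⟩
  have he1 : ∀ c, T.IsRA (1 + S.etak c (S.kc U c)) := fun c =>
    isRA_one.add (State.isRA_etak hS c _)
  have hlo : ∀ c, S.lok c (S.kc U c) * (1 + S.etak c (S.kc U c)) = 1 := fun c => by
    refine ((State.isRA_lok hS c _).mul (he1 c)).eq_of_val isRA_one fun χ => ?_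
    rw [(State.isRA_lok hS c _).val_mul χ (he1 c), isRA_one.val_add χ (State.isRA_etak hS c _),
      val_one, State.val_lok hp hS, State.val_etak hp hS]
    exact inv_mul_cancel₀ (by linarith [(Prm.ηb_mem hp (S.kc U c) (T.val χ (S.w c))).1])
  refine
    { j_mem := fun c => (State.isRA_j hp hS hU c).mem
      j_proj := State.j_proj hp hS hU
      alive_mem := hal.mem
      alive_proj := State.alive_proj hS
      mass := hmass
      lo_mem := fun c => (State.isRA_lok hS c _).mem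
      lo_nonneg := fun c => cfc_nonneg fun x _ => inv_nonneg.2
        (add_nonneg zero_le_one (Prm.ηb_mem hp _ x).1)
      count := ?_
      z_mem := fun c => (State.isRA_zeta hS c).mem
      z_ge := fun c => ?_
      p_mem := fun c => ((he1 c).mul (hpw c)).mem
      p_nonneg := fun c => ?_
      p_le := fun c => ?_
      P_nonneg := fun c => add_nonneg ((S.colour U true c).testOp_nonneg (hval true c) (sq_nonneg _))
        ((S.colour U false c).testOp_nonneg (hval false c) (sq_nonneg _))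
      P_mem := fun c => add_mem ((S.colour U true c).testOp_mem _) ((S.colour U false c).testOp_mem _)
      P_diag := fun c f hf hf0 hfj => ?_
      K_mem := fun c => add_mem (add_mem (mul_mem (T.mul_mem_opAlg _) (phi0_mem _))
        (mul_mem (T.mul_mem_opAlg _) (phi0_mem _))) (T.mul_mem_opAlg _)
      K_alive := fun c => ?_
      K_norm := fun c => ?_
      K_lift := fun c => ?_
      K_lift' := fun c => ?_
      dom := fun c B' _ hjB => ?_ }
  · show T.tr S.alive + p.δ ≤ ∑ c, T.tr (S.j U c * (1 - S.lok c (S.kc U c)))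
    linarith [State.count_le hp hS hU]
  · refine (isRA_one.smul _).le_of_val (State.isRA_zeta hS c) fun χ => ?_
    show T.val χ (_ • (1 : M)) ≤ T.val χ (S.zeta c)
    rw [val_smul_one, State.val_zeta hp hS]
    exact Prm.zeta_ge hp (State.val_w_dom hS c χ)
  · show 0 ≤ (1 + S.etak c (S.kc U c)) * _
    refine mul_nonneg_A (he1 c).mem (hpw c).mem
      (add_nonneg zero_le_one (hval true c).eta_nonneg) ?_
    exact add_nonneg ((S.colour U true c).testWeight_nonneg (hval true c) (sq_nonneg _))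
      ((S.colour U false c).testWeight_nonneg (hval false c) (sq_nonneg _))
  · have hone : ∀ b, ‖(S.colour U b c).testWeight (p.a ^ 2)‖ ≤ Bp := fun b => by
      obtain ⟨-, hY, hZ, ht, -, hq, -, hw, -, -, -, -, -, -, hbwn, hl, hbe, hBd, -, -⟩ :=
        hB T U hU S hS b c
      have hj1 : ‖S.j U c‖ ≤ 1 := (State.j_proj hp hS hU c).norm_le
      have hbj : ‖(S.colour U b c).b‖ ≤ B := (norm_mul_le_of hbwn hj1).trans_eq (mul_one B)
      have hph : ∀ z : M, ∀ x : ℝ, ‖z‖ ≤ x → ‖T.phi0A (S.Y U b c) z‖ ≤ (2 * B) ^ 2 * x :=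
        fun z x hz => (norm_phi0A_le _ _).trans
          (mul_le_mul (hYn b c) hz (norm_nonneg _) (by positivity))
      have ha' : ‖S.a' U b c‖ ≤ B * B * (B * B) := norm_mul_le_of (norm_mul_le_of hbwn hw)
        (norm_mul_le_of hq hq)
      refine (norm_add_le _ _).trans (add_le_add ((norm_add_le _ _).trans (add_le_add
        ((norm_add_le _ _).trans (add_le_add ?_ ?_)) ?_)) ?_)
      · rw [norm_smul, Real.norm_of_nonneg (sq_nonneg _)]
        exact mul_le_mul_of_nonneg_left (norm_mul_le_of ht ((T.norm_E_le _).trans hZ)) (sq_nonneg _)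
      · exact norm_mul_le_of ht (hph _ _ ha')
      · exact norm_mul_le_of (norm_mul_le_of hl hl) hbj
      · exact norm_mul_le_of ht (hph _ _ (norm_mul_le_of hBd (norm_mul_le_of
          (norm_mul_le_of hbe hbe) hbj)))
    have hen : ‖1 + S.etak c (S.kc U c)‖ ≤ 2 := by
      refine (he1 c).norm_le zero_le_two fun χ => ?_
      rw [isRA_one.val_add χ (State.isRA_etak hS c _), val_one, State.val_etak hp hS]
      obtain ⟨e0, e1⟩ := Prm.ηb_mem hp (S.kc U c) (T.val χ (S.w c))
      rw [abs_of_nonneg (by linarith)]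
      linarith
    refine (norm_mul_le_of hen ((norm_add_le _ _).trans (add_le_add (hone true) (hone false)))).trans ?_
    linarith [mul_nonneg hX1 (sq_nonneg (2 * B))]
  · show T.omr (T.mul f * ((S.colour U true c).testOp _ + (S.colour U false c).testOp _)) ≤
      T.tr (f * (S.lok c (S.kc U c) * ((1 + S.etak c (S.kc U c)) * _)))
    rw [← mul_assoc (S.lok c (S.kc U c)), hlo, one_mul, mul_add, mul_add, omr_add, T.tr_add]
    exact add_le_add ((S.colour U true c).testOp_diag (hval true c) f hf hf0 hfj)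
      ((S.colour U false c).testOp_diag (hval false c) f hf hf0 hfj)
  · show T.mul S.alive * S.K U c = S.K U c
    rw [State.K, mul_add, mul_add,
      ← mul_assoc (T.mul S.alive) _ (T.phi0 (S.Y U true c)),
      ← mul_assoc (T.mul S.alive) _ (T.phi0 (S.Y U false c)), ← T.mul_mul' hal.mem (hx1 true c).mem,
      ← T.mul_mul' hal.mem (hx1 false c).mem, ← T.mul_mul' hal.mem (hx2 c).mem,
      ← mul_assoc S.alive, ← mul_assoc S.alive, ← mul_assoc S.alive, halal]
  · refine (norm_add_le _ _).trans (le_trans (add_le_add ((norm_add_le _ _).trans (add_le_add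
      ((norm_mul_le _ _).trans (mul_le_mul ((T.norm_mul_le' _).trans (hx1n true c)) (hphi true c)
        (norm_nonneg _) hX1))
      ((norm_mul_le _ _).trans (mul_le_mul ((T.norm_mul_le' _).trans (hx1n false c)) (hphi false c)
        (norm_nonneg _) hX1)))) ((T.norm_mul_le' _).trans (hx2n c))) ?_)
    linarith
  · refine ((((lift_mul (hx1 true c).mem (hx1 true c).sa (hx1n true c)).comp hX1
      (lift_phi0 (hYs true c) (hYn true c))).add
      ((lift_mul (hx1 false c).mem (hx1 false c).sa (hx1n false c)).comp hX1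
        (lift_phi0 (hYs false c) (hYn false c)))).add
      (lift_mul (hx2 c).mem (hx2 c).sa (hx2n c))).mono ?_
    linarith
  · have hst : star (S.K U c) =
        T.phi0 (S.Y U true c) * T.mul (S.alive * (S.w c * (S.qi U true c * S.qi U true c))) +
        T.phi0 (S.Y U false c) * T.mul (S.alive * (S.w c * (S.qi U false c * S.qi U false c))) +
          T.mul (S.alive * ((S.sc U true c + S.sc U false c - (2 * (1 + 10 * p.e)) • 1 - S.dN c) *
            S.zeta c)) := by
      rw [State.K, star_add, star_add, star_mul, star_mul, star_phi0 (hYs true c),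
        star_phi0 (hYs false c), (isSelfAdjoint_mul' (hx1 true c).sa).star_eq,
        (isSelfAdjoint_mul' (hx1 false c).sa).star_eq, (isSelfAdjoint_mul' (hx2 c).sa).star_eq]
    show T.Lift (star (S.K U c)) Kb
    rw [hst]
    refine ((((lift_phi0 (hYs true c) (hYn true c)).comp (sq_nonneg _)
      (lift_mul (hx1 true c).mem (hx1 true c).sa (hx1n true c))).add
      ((lift_phi0 (hYs false c) (hYn false c)).comp (sq_nonneg _)
        (lift_mul (hx1 false c).mem (hx1 false c).sa (hx1n false c)))).add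
      (lift_mul (hx2 c).mem (hx2 c).sa (hx2n c))).mono ?_
    linarith
  · show T.omr (star B' * ((S.colour U true c).driftOp _ + (S.colour U false c).driftOp _) * B') ≤
      T.omr (star B' * ((S.colour U true c).testOp _ + (S.colour U false c).testOp _) * B') -
        T.omr (star B' * T.mul ((1 + S.etak c (S.kc U c)) * _) * B')
    have h1 := (S.colour U true c).drift_le (hval true c) (sq_nonneg p.a) B' hjB
    have h2 := (S.colour U false c).drift_le (hval false c) (sq_nonneg p.a) B' hjB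
    rw [mul_add (1 + S.etak c (S.kc U c)), T.mul_add']
    simp only [mul_add, add_mul, omr_add] at h1 h2 ⊢
    exact le_trans (add_le_add h1 h2) (le_of_eq (by simp only [State.colour]; abel))

end Vale.Agent.P078.Sharp
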