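import Mathlib
import Vale.Agent.P078.DriftId
import Vale.Agent.P078.Sharp.DataValid

/-!
# Coefficients of the expansion of the potential along a move
-/

open scoped ComplexOrder InnerProductSpace Topology
open Filter

set_option linter.unusedSectionVars false

namespace Vale.Agent.P078.Sharp

universe u

variable {M : Type u} [CStarAlgebra M] [PartialOrder M] [StarOrderedRing M]

open TracialMasa hiding Colour DirData State omr_square third_order_identity exists_basic_bounds exists_dir_valid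

namespace State

variable {T : TracialMasa M} {p : Prm} (S : State T p) (U : Bool → M) (y : Fin p.r → M) (b : Bool)
  (c : Fin p.r)

/-- Direction of the weights. -/
noncomputable def h : M := S.zeta c * y c

/-- First order change of `t`. -/
noncomputable def t1 : M := T.E (S.Y U b c * y c * S.Y U b c)

/-- Second order change of `t`. -/
noncomputable def t2 : M :=
  T.E (S.Y U b c * y c * S.Y U b c * y c * S.Y U b c) -
    T.E (S.Y U b c * (S.curv c * (y c * y c)) * S.Y U b c)

/-- `Φ°` applied to the direction. -/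
noncomputable def xi : M := T.phi0A (S.Y U b c) (y c)

/-- First order decrease of the quality. -/
noncomputable def l1 : M :=
  S.w c * (S.qi U true c * S.qi U true c) * S.xi U y true c +
    S.w c * (S.qi U false c * S.qi U false c) * S.xi U y false c +
    (S.sc U true c + S.sc U false c - (2 * (1 + 10 * p.e)) • 1 - S.dN c) * S.h y c

/-- Weight of the cubic term inside `l2`. -/
noncomputable def m2 : M :=
  S.t2 U y b c + S.t U b c * S.t U b c * (S.curv c * (y c * y c)) -
    S.t U b c * S.t U b c * S.t U b c * (y c * y c) -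
    (2 : ℝ) • (S.t U b c * (y c * S.xi U y b c))

/-- The share of one sign in the second order decrease of the quality. -/
noncomputable def l2b : M :=
  S.w c * (S.qi U b c * S.qi U b c) * S.m2 U y b c +
    S.h y c * (S.qi U b c * S.qi U b c) * S.xi U y b c -
    (1 / 4 : ℝ) • (S.ddN c * (S.h y c * S.h y c))

/-- Second order decrease of the quality. -/
noncomputable def l2 : M := S.l2b U y true c + S.l2b U y false c

/-- First order change of the capped resolvent. -/
noncomputable def g1 : M := S.G U b c * (U b * y c * U b) * S.G U b c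

/-- Second order change of the capped resolvent. -/
noncomputable def g2 : M :=
  S.G U b c * (U b * y c * U b) * S.G U b c * (U b * y c * U b) * S.G U b c +
    S.G U b c * (-(U b * (S.curv c * (y c * y c)) * U b)) * S.G U b c

/-- First order change of the potential. -/
noncomputable def lin : ℝ :=
  (∑ c, (p.a ^ 2 * T.tr (S.g1 U y true c) + p.a ^ 2 * T.tr (S.g1 U y false c))) +
    T.tr (S.bw U * ∑ c, S.l1 U y c) - 2 * p.νp * ∑ c, T.tr (S.w c * S.h y c)

/-- Second order change of the potential. -/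
noncomputable def qde : ℝ :=
  (∑ c, (p.a ^ 2 * T.tr (S.g2 U y true c) + p.a ^ 2 * T.tr (S.g2 U y false c))) +
    T.tr (S.bw U * ∑ c, S.l2 U y c) +
    T.tr (S.alive * ((∑ c, S.l1 U y c) * ∑ c, S.l1 U y c)) -
    p.νp * ∑ c, T.tr (S.h y c * S.h y c)

lemma h_neg : S.h (fun c => -y c) c = -S.h y c := by simp [h]

lemma xi_neg : S.xi U (fun c => -y c) b c = -S.xi U y b c := by
  simp [xi, phi0A, T.E_neg]

lemma g1_neg : S.g1 U (fun c => -y c) b c = -S.g1 U y b c := by simp [g1]

lemma l1_neg : S.l1 U (fun c => -y c) c = -S.l1 U y c := by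
  simp only [l1, h_neg, xi_neg, mul_neg, neg_add_rev]
  abel

lemma g2_neg : S.g2 U (fun c => -y c) b c = S.g2 U y b c := by simp [g2]

lemma l2b_neg : S.l2b U (fun c => -y c) b c = S.l2b U y b c := by
  simp only [l2b, m2, t2, h_neg, xi_neg, mul_neg, neg_mul, neg_neg]

lemma lin_neg : S.lin U (fun c => -y c) = -S.lin U y := by
  simp only [lin, g1_neg, l1_neg, h_neg, mul_neg, T.tr_neg, Finset.sum_neg_distrib]
  rw [show ∀ f g : Fin p.r → ℝ, (∑ c, (-f c + -g c)) = -∑ c, (f c + g c) from fun f g => by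
    rw [← Finset.sum_neg_distrib]; exact Finset.sum_congr rfl fun c _ => by ring]
  ring

lemma qde_neg : S.qde U (fun c => -y c) = S.qde U y := by
  simp only [qde, l2, g2_neg, l2b_neg, l1_neg, h_neg, Finset.sum_neg_distrib, mul_neg, neg_mul,
    neg_neg]

variable {S U y b c} (hp : p.Good) (hS : S.Inv U) (hU : ∀ b, Adm T (U b)) (hy : ∀ c, T.IsRA (y c))
include hp hS hU hy

lemma isRA_h : T.IsRA (S.h y c) := (isRA_zeta hS c).mul (hy c)

lemma val_h (χ : T.Chi) : T.val χ (S.h y c) = p.zeta (T.val χ (S.w c)) * T.val χ (y c) := by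
  rw [h, (isRA_zeta hS c).val_mul χ (hy c), val_zeta hp hS]

lemma isRA_xi : T.IsRA (S.xi U y b c) :=
  ⟨phi0A_mem _ _, phi0A_isSelfAdjoint (IsSelfAdjoint.of_nonneg (Y_nonneg hp hS hU b c)) (hy c).sa⟩

lemma isRA_t1 : T.IsRA (S.t1 U y b c) :=
  isRA_E (IsSelfAdjoint.conjugate_self (hy c).sa (IsSelfAdjoint.of_nonneg (Y_nonneg hp hS hU b c)))

lemma isRA_t2 : T.IsRA (S.t2 U y b c) := by
  have hY := IsSelfAdjoint.of_nonneg (Y_nonneg hp hS hU b c)
  refine IsRA.sub (isRA_E ?_) (isRA_E
    (IsSelfAdjoint.conjugate_self ((isRA_curv hS c).mul ((hy c).mul (hy c))).sa hY))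
  rw [show S.Y U b c * y c * S.Y U b c * y c * S.Y U b c =
    S.Y U b c * (y c * S.Y U b c * y c) * S.Y U b c by noncomm_ring]
  exact IsSelfAdjoint.conjugate_self (IsSelfAdjoint.conjugate_self hY (hy c).sa) hY

lemma isRA_m2 : T.IsRA (S.m2 U y b c) := by
  have ht := isRA_t hp hS hU b c
  have hyy := (hy c).mul (hy c)
  exact (((isRA_t2 hp hS hU hy).add ((ht.mul ht).mul ((isRA_curv hS c).mul hyy))).sub
    (((ht.mul ht).mul ht).mul hyy)).sub ((ht.mul ((hy c).mul (isRA_xi hp hS hU hy))).smul _)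

lemma isRA_l1 : T.IsRA (S.l1 U y c) :=
  ((((isRA_w hS c).mul (isRA_qq hp hS hU true c)).mul (isRA_xi hp hS hU hy)).add
    (((isRA_w hS c).mul (isRA_qq hp hS hU false c)).mul (isRA_xi hp hS hU hy))).add
    (((((isRA_sc hp hS hU true c).add (isRA_sc hp hS hU false c)).sub (isRA_one.smul _)).sub
      (isRA_dN hS c)).mul (isRA_h hp hS hU hy))

lemma isRA_l2b : T.IsRA (S.l2b U y b c) :=
  ((((isRA_w hS c).mul (isRA_qq hp hS hU b c)).mul (isRA_m2 hp hS hU hy)).add
    (((isRA_h hp hS hU hy).mul (isRA_qq hp hS hU b c)).mul (isRA_xi hp hS hU hy))).sub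
    (((isRA_ddN hS c).mul ((isRA_h hp hS hU hy).mul (isRA_h hp hS hU hy))).smul _)

lemma isRA_l2 : T.IsRA (S.l2 U y c) := (isRA_l2b hp hS hU hy).add (isRA_l2b hp hS hU hy)

lemma val_xi (χ : T.Chi) : T.val χ (S.xi U y b c) =
    T.val χ (S.t1 U y b c) - T.val χ (S.t U b c) ^ 2 * T.val χ (y c) := by
  have ht := isRA_t hp hS hU b c
  have ht1 : T.IsRA (S.t1 U y b c) := isRA_t1 hp hS hU hy
  rw [xi, phi0A_eq _ (hy c).mem]
  show T.val χ (S.t1 U y b c - S.t U b c * y c * S.t U b c) = _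
  rw [ht1.val_sub χ ((ht.mul (hy c)).mul ht), (ht.mul (hy c)).val_mul χ ht, ht.val_mul χ (hy c)]
  ring

/-- Pointwise values of the first order coefficient. -/
lemma val_l1 (χ : T.Chi) : T.val χ (S.l1 U y c) =
    (T.val χ (S.w c) * scavD1 (T.val χ (S.t U true c)) (T.val χ (S.F c)) (T.val χ (y c))
        (T.val χ (S.t1 U y true c)) +
      T.val χ (S.h y c) * scav (T.val χ (S.t U true c)) (T.val χ (S.F c))) +
    (T.val χ (S.w c) * scavD1 (T.val χ (S.t U false c)) (T.val χ (S.F c)) (T.val χ (y c))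
        (T.val χ (S.t1 U y false c)) +
      T.val χ (S.h y c) * scav (T.val χ (S.t U false c)) (T.val χ (S.F c))) -
    (2 * (1 + 10 * p.e) + p.dN (T.val χ (S.w c))) * T.val χ (S.h y c) := by
  have hw := isRA_w hS c
  have hqq := fun b => isRA_qq hp hS hU b c
  have hξ : ∀ b, T.IsRA (S.xi U y b c) := fun b => isRA_xi hp hS hU hy
  have hh : T.IsRA (S.h y c) := isRA_h hp hS hU hy
  have hsT := isRA_sc hp hS hU true c
  have hsF := isRA_sc hp hS hU false c
  have hd := isRA_dN hS c
  have h1 := isRA_one (T := T) |>.smul (2 * (1 + 10 * p.e))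
  rw [l1, (((hw.mul (hqq true)).mul (hξ true)).add ((hw.mul (hqq false)).mul (hξ false))).val_add χ
      ((((hsT.add hsF).sub h1).sub hd).mul hh),
    ((hw.mul (hqq true)).mul (hξ true)).val_add χ ((hw.mul (hqq false)).mul (hξ false)),
    (hw.mul (hqq true)).val_mul χ (hξ true), (hw.mul (hqq false)).val_mul χ (hξ false),
    hw.val_mul χ (hqq true), hw.val_mul χ (hqq false),
    (((hsT.add hsF).sub h1).sub hd).val_mul χ hh, ((hsT.add hsF).sub h1).val_sub χ hd,
    (hsT.add hsF).val_sub χ h1, val_smul_one, hsT.val_add χ hsF, val_sc hp hS hU, val_sc hp hS hU,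
    val_dN hp hS, val_qq hp hS hU, val_qq hp hS hU, val_qi hp hS hU, val_qi hp hS hU,
    val_xi hp hS hU hy, val_xi hp hS hU hy]
  unfold scavD1
  simp only [div_eq_mul_inv, sq (1 + T.val χ (S.F c) * T.val χ (S.t U _ c)), mul_inv]
  ring

lemma val_l2b (χ : T.Chi) : T.val χ (S.l2b U y b c) =
    (T.val χ (S.w c) * scavD2 (T.val χ (S.curv c)) (T.val χ (S.t U b c)) (T.val χ (S.F c))
        (T.val χ (y c)) (T.val χ (S.t1 U y b c)) (T.val χ (S.t2 U y b c)) +
      T.val χ (S.h y c) * scavD1 (T.val χ (S.t U b c)) (T.val χ (S.F c)) (T.val χ (y c))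
        (T.val χ (S.t1 U y b c))) -
      p.ddN (T.val χ (S.w c)) * T.val χ (S.h y c) ^ 2 / 4 := by
  have hw := isRA_w hS c
  have ht := isRA_t hp hS hU b c
  have hqq := isRA_qq hp hS hU b c
  have hξ : T.IsRA (S.xi U y b c) := isRA_xi hp hS hU hy
  have hk := isRA_curv hS c
  have hyy := (hy c).mul (hy c)
  have hh : T.IsRA (S.h y c) := isRA_h hp hS hU hy
  have hdd := isRA_ddN hS c
  have ht2 : T.IsRA (S.t2 U y b c) := isRA_t2 hp hS hU hy
  have hm : T.IsRA (S.m2 U y b c) := isRA_m2 hp hS hU hy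
  have ma := (ht.mul ht).mul (hk.mul hyy)
  have mb := ((ht.mul ht).mul ht).mul hyy
  have mc := (ht.mul ((hy c).mul hξ)).smul (2 : ℝ)
  have vm : T.val χ (S.m2 U y b c) = T.val χ (S.t2 U y b c) +
      T.val χ (S.curv c) * T.val χ (S.t U b c) ^ 2 * T.val χ (y c) ^ 2 -
      T.val χ (S.t U b c) ^ 3 * T.val χ (y c) ^ 2 - 2 * T.val χ (S.t U b c) * T.val χ (y c) *
        (T.val χ (S.t1 U y b c) - T.val χ (S.t U b c) ^ 2 * T.val χ (y c)) := by
    rw [m2, ((ht2.add ma).sub mb).val_sub χ mc, (ht2.add ma).val_sub χ mb, ht2.val_add χ ma,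
      (ht.mul ht).val_mul χ (hk.mul hyy), hk.val_mul χ hyy,
      ((ht.mul ht).mul ht).val_mul χ hyy, (ht.mul ht).val_mul χ ht, ht.val_mul χ ht,
      (hy c).val_mul χ (hy c), (ht.mul ((hy c).mul hξ)).val_smul, ht.val_mul χ ((hy c).mul hξ),
      (hy c).val_mul χ hξ, val_xi hp hS hU hy]
    ring
  rw [l2b, (((hw.mul hqq).mul hm).add ((hh.mul hqq).mul hξ)).val_sub χ
      ((hdd.mul (hh.mul hh)).smul _),
    ((hw.mul hqq).mul hm).val_add χ ((hh.mul hqq).mul hξ), (hw.mul hqq).val_mul χ hm,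
    hw.val_mul χ hqq, (hh.mul hqq).val_mul χ hξ, hh.val_mul χ hqq, val_qq hp hS hU,
    val_qi hp hS hU, (hdd.mul (hh.mul hh)).val_smul, hdd.val_mul χ (hh.mul hh), hh.val_mul χ hh,
    val_ddN hp hS, vm, val_xi hp hS hU hy]
  simp only [scavD1, scavD2, div_eq_mul_inv, sq (1 + T.val χ (S.F c) * T.val χ (S.t U b c)), mul_inv]
  ring

lemma val_l2 (χ : T.Chi) : T.val χ (S.l2 U y c) =
    T.val χ (S.l2b U y true c) + T.val χ (S.l2b U y false c) :=
  (isRA_l2b hp hS hU hy).val_add χ (isRA_l2b hp hS hU hy)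

lemma dir_K_apply : (S.dir U).K c (T.iota (y c)) = T.iota (S.alive * S.l1 U y c) := by
  have hqq := fun b => isRA_qq hp hS hU b c
  have hA := isRA_alive hS
  show S.K U c _ = _
  rw [K, add_apply, add_apply, mul_apply_eq_comp, mul_apply_eq_comp, phi0_iota _ (hy c).mem,
    phi0_iota _ (hy c).mem,
    T.mul_iota (mul_mem hA.mem (mul_mem (hS.w_mem c) (hqq true).mem)) (phi0A_mem _ _),
    T.mul_iota (mul_mem hA.mem (mul_mem (hS.w_mem c) (hqq false).mem)) (phi0A_mem _ _),
    T.mul_iota (hA.mul ((((((isRA_sc hp hS hU true c).add (isRA_sc hp hS hU false c)).sub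
      (isRA_one.smul _)).sub (isRA_dN hS c)).mul (isRA_zeta hS c)))).mem (hy c).mem,
    ← T.iota_add, ← T.iota_add]
  congr 1
  simp only [l1, xi, h, mul_add, mul_assoc]

lemma norm_sq_mul_zeta : ‖T.mul (S.zeta c) (T.iota (y c))‖ ^ 2 = T.tr (S.h y c * S.h y c) := by
  have hh : T.IsRA (S.h y c) := isRA_h hp hS hU hy
  rw [T.mul_iota (isRA_zeta hS c).mem (hy c).mem,
    T.norm_iota (mul_mem (isRA_zeta hS c).mem (hy c).mem), T.n2_sq]
  show T.tr (star (S.h y c) * S.h y c) = _
  rw [hh.sa.star_eq]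

lemma form_colour : T.form ((S.colour U b c).driftOp (p.a ^ 2)) (y c) =
    p.a ^ 2 * T.tr (S.g2 U y b c) + T.tr (S.bw U * S.l2b U y b c) := by
  have hqq := isRA_qq hp hS hU b c
  have hh : T.IsRA (S.h y c) := isRA_h hp hS hU hy
  have hbw := isRA_bw hp hS hU
  have hk := isRA_curv hS c
  have hz := isRA_zeta hS c
  have hdd := isRA_ddN hS c
  have hyy := (hy c).mul (hy c)
  rw [Colour.driftOp, form_sub, form_add, form_sub, form_add, form_smul, form_sub,
    form_Phi (hy c), form_mul (hy c) (n := (S.colour U b c).κ * T.E (S.colour U b c).Z)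
      (mul_mem hk.mem (T.E_mem _)),
    form_mul (hy c) (n := (S.colour U b c).κ * T.phi0A (S.colour U b c).Y (S.colour U b c).a')
      (mul_mem hk.mem (phi0A_mem _ _)),
    form_cross (hy c) (isRA_g hp hS hU b c), form_mul (hy c) (isRA_neg hp hS hU b c).mem]
  show p.a ^ 2 * (T.tr (y c * S.Y U b c * y c * S.Z U b c) -
        T.tr (S.curv c * T.E (S.Z U b c) * (y c * y c))) +
      T.form (T.Phi (S.Y U b c)
        ((S.Y U b c - T.E (S.Y U b c)) * S.a' U b c * (S.Y U b c - T.E (S.Y U b c)))) (y c) -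
      T.tr (S.curv c * T.phi0A (S.Y U b c) (S.a' U b c) * (y c * y c)) +
      T.tr (S.bw U * S.zeta c * (S.qi U b c * S.qi U b c) * (y c * S.xi U y b c)) -
      T.tr ((1 / 4 : ℝ) • (S.bw U * (S.zeta c * S.zeta c) * S.ddN c) * (y c * y c)) = _
  have e1 : T.tr (S.g2 U y b c) = T.tr (y c * S.Y U b c * y c * S.Z U b c) -
      T.tr (S.curv c * T.E (S.Z U b c) * (y c * y c)) := by
    have hc : S.curv c * T.E (S.Z U b c) * (y c * y c) =
        T.E (S.Z U b c) * (S.curv c * (y c * y c)) := by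
      rw [T.A_comm _ hk.mem _ (T.E_mem _), mul_assoc]
    rw [g2, T.tr_add, mul_neg, neg_mul, T.tr_neg, hc, T.tr_comm (T.E (S.Z U b c)),
      tr_mul_E (mul_mem hk.mem hyy.mem), Y, Z, ← sub_eq_add_neg]
    congr 1
    · rw [show S.G U b c * (U b * y c * U b) * S.G U b c * (U b * y c * U b) * S.G U b c =
        S.G U b c * U b * (y c * U b * S.G U b c * U b * y c * (U b * S.G U b c)) by noncomm_ring,
        T.tr_comm]
      congr 1
      noncomm_ring
    · rw [show S.G U b c * (U b * (S.curv c * (y c * y c)) * U b) * S.G U b c =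
        S.G U b c * U b * (S.curv c * (y c * y c) * (U b * S.G U b c)) by noncomm_ring, T.tr_comm]
      congr 1
      noncomm_ring
  have e2 : T.tr (S.bw U * S.l2b U y b c) = T.tr (S.a' U b c * S.m2 U y b c) +
      T.tr (S.bw U * S.zeta c * (S.qi U b c * S.qi U b c) * (y c * S.xi U y b c)) -
      T.tr ((1 / 4 : ℝ) • (S.bw U * (S.zeta c * S.zeta c) * S.ddN c) * (y c * y c)) := by
    rw [l2b, mul_sub, mul_add, T.tr_sub, T.tr_add, mul_smul_comm, smul_mul_assoc, T.tr_smul,
      T.tr_smul]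
    congr 1
    · congr 1
      · rw [a']; simp only [mul_assoc]
      · congr 1
        calc S.bw U * (S.h y c * (S.qi U b c * S.qi U b c) * S.xi U y b c)
            = S.bw U * S.zeta c * ((y c * (S.qi U b c * S.qi U b c)) * S.xi U y b c) := by
              simp only [h, mul_assoc]
          _ = _ := by rw [T.A_comm _ (hy c).mem _ hqq.mem]; simp only [mul_assoc]
    · congr 2
      refine ((hbw.mul (hdd.mul (hh.mul hh)))).eq_of_val
        (((hbw.mul (hz.mul hz)).mul hdd).mul hyy) fun χ => ?_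
      rw [hbw.val_mul χ (hdd.mul (hh.mul hh)), hdd.val_mul χ (hh.mul hh), hh.val_mul χ hh,
        ((hbw.mul (hz.mul hz)).mul hdd).val_mul χ hyy,
        (hbw.mul (hz.mul hz)).val_mul χ hdd, hbw.val_mul χ (hz.mul hz), hz.val_mul χ hz,
        (hy c).val_mul χ (hy c), h, hz.val_mul χ (hy c)]
      ring
  have e3 : T.tr (S.a' U b c * S.m2 U y b c) = T.form (T.Phi (S.Y U b c)
      ((S.Y U b c - T.E (S.Y U b c)) * S.a' U b c * (S.Y U b c - T.E (S.Y U b c)))) (y c) -
      T.tr (S.curv c * T.phi0A (S.Y U b c) (S.a' U b c) * (y c * y c)) :=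
    third_order_identity (isRA_a' hp hS hU b c) (hy c) hk
  rw [e1, e2, e3]
  ring

lemma form_driftOp : T.form ((S.dir U).R c) (y c) =
    (p.a ^ 2 * T.tr (S.g2 U y true c) + p.a ^ 2 * T.tr (S.g2 U y false c)) +
      T.tr (S.bw U * S.l2 U y c) := by
  show T.form ((S.colour U true c).driftOp (p.a ^ 2) + (S.colour U false c).driftOp (p.a ^ 2))
    (y c) = _
  rw [form_add, form_colour hp hS hU hy, form_colour hp hS hU hy, l2, mul_add, T.tr_add]
  ring

/-- The second order coefficient is the quadratic form of the direction lemma. -/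
lemma qde_eq_quad : S.qde U y = (S.dir U).quad p.νp (fun c => T.iota (y c)) := by
  have h1 : ∑ c, (⟪T.iota (y c), (S.dir U).R c (T.iota (y c))⟫_ℂ).re =
      (∑ c, (p.a ^ 2 * T.tr (S.g2 U y true c) + p.a ^ 2 * T.tr (S.g2 U y false c))) +
        T.tr (S.bw U * ∑ c, S.l2 U y c) := by
    rw [Finset.mul_sum, T.tr_sum, ← Finset.sum_add_distrib]
    exact Finset.sum_congr rfl fun c _ => form_driftOp hp hS hU hy
  have h2 : ‖∑ c, (S.dir U).K c (T.iota (y c))‖ ^ 2 =
      T.tr (S.alive * ((∑ c, S.l1 U y c) * ∑ c, S.l1 U y c)) := by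
    have hA := isRA_alive hS
    have hL : T.IsRA (∑ c, S.l1 U y c) := isRA_sum fun c _ => isRA_l1 hp hS hU hy
    rw [Finset.sum_congr rfl fun c _ => dir_K_apply hp hS hU hy, ← T.iota_sum, ← Finset.mul_sum,
      T.norm_iota (hA.mul hL).mem, T.n2_sq, (hA.mul hL).sa.star_eq]
    congr 1
    set L := ∑ c, S.l1 U y c
    have hAA : S.alive * S.alive = S.alive := (alive_proj hS).isIdempotentElem.eq
    calc S.alive * L * (S.alive * L) = S.alive * (L * S.alive) * L := by noncomm_ring
      _ = S.alive * S.alive * (L * L) := by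
          rw [T.A_comm L hL.mem _ hA.mem]; noncomm_ring
      _ = _ := by rw [hAA]
  rw [qde, DirData.quad, h1, h2,
    Finset.sum_congr rfl fun c _ => (norm_sq_mul_zeta hp hS hU hy).symm]
  rfl

end State

end Vale.Agent.P078.Sharp
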