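import Mathlib
import Vale.Agent.P078.Expand
import Vale.Agent.P078.Sharp.Move

/-!
# Expansions along one move of the two-sided walk
-/

open scoped ComplexOrder InnerProductSpace Topology
open Filter

set_option linter.unusedSectionVars false

namespace Vale.Agent.P078.Sharp

universe u

variable {M : Type u} [CStarAlgebra M] [PartialOrder M] [StarOrderedRing M]

open TracialMasa hiding Colour DirData State omr_square third_order_identity exists_basic_bounds exists_dir_valid exists_move_bounds exists_F_expand exists_G_expand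

variable {p : Prm}

/-- Uniform bounds on everything attached to a bounded direction. -/
lemma exists_move_bounds (hp : p.Good) (Cy : ℝ) (hCy : 0 ≤ Cy) :
    ∃ B : ℝ, 1 ≤ B ∧ ∀ (T : TracialMasa M) (U : Bool → M), (∀ b, Adm T (U b)) →
      ∀ S : State T p, S.Inv U → ∀ y : Fin p.r → M, (∀ c, T.IsRA (y c)) → (∀ c, ‖y c‖ ≤ Cy) →
        ∀ b c,
        ‖U b * y c * U b‖ ≤ B ∧ ‖-(U b * (S.curv c * (y c * y c)) * U b)‖ ≤ B ∧ ‖y c‖ ≤ B ∧
        ‖S.h y c‖ ≤ B ∧ ‖S.t U b c‖ ≤ B ∧ ‖S.F c‖ ≤ B ∧ ‖S.t1 U y b c‖ ≤ B ∧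
        ‖S.t2 U y b c‖ ≤ B ∧ ‖S.curv c‖ ≤ B ∧ ‖S.w c‖ ≤ B ∧
        ‖S.l1 U y c‖ ≤ B ∧ ‖S.l2 U y c‖ ≤ B ∧ ‖S.pen U‖ ≤ B := by
  obtain ⟨B0, hB0, hB⟩ := exists_basic_bounds (M := M) hp
  have h00 : 0 ≤ B0 := zero_le_one.trans hB0
  set u1 := 4 * Cy
  set u2 := 4 * (B0 * (Cy * Cy))
  set Bh := B0 * Cy
  set B1 := B0 * Cy * B0
  set B2 := B0 * Cy * B0 * Cy * B0 + B0 * (B0 * (Cy * Cy)) * B0
  set Bξ := (2 * B0) ^ 2 * Cy
  set Bl1 := B0 * (B0 * B0) * Bξ + B0 * (B0 * B0) * Bξ +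
    (B0 + B0 + ‖(2 * (1 + 10 * p.e)) • (1 : M)‖ + B0) * Bh
  set Bm := B2 + B0 * B0 * (B0 * (Cy * Cy)) + B0 * B0 * B0 * (Cy * Cy) + 2 * (B0 * (Cy * Bξ))
  set Bl2 := B0 * (B0 * B0) * Bm + Bh * (B0 * B0) * Bξ + 1 / 4 * (B0 * (Bh * Bh))
  have n1 : 0 ≤ u1 := by positivity
  have n2 : 0 ≤ u2 := by positivity
  have n3 : 0 ≤ Bh := by positivity
  have n4 : 0 ≤ B1 := by positivity
  have n5 : 0 ≤ B2 := by positivity
  have n7 : 0 ≤ Bl1 := by positivity
  have n8 : 0 ≤ Bl2 := by positivity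
  refine ⟨B0 + Cy + u1 + u2 + Bh + B1 + B2 + Bl1 + 2 * Bl2, by linarith,
    fun T U hU S hS y hy hyn b c => ?_⟩
  have hyy := norm_mul_le_of (hyn c) (hyn c)
  have hb : ∀ b, ‖S.t U b c‖ ≤ B0 ∧ ‖S.qi U b c * S.qi U b c‖ ≤ B0 * B0 ∧ ‖S.sc U b c‖ ≤ B0 ∧
      ‖S.xi U y b c‖ ≤ Bξ ∧ ‖S.t1 U y b c‖ ≤ B1 ∧ ‖S.t2 U y b c‖ ≤ B2 ∧
      ‖S.l2b U y b c‖ ≤ Bl2 := fun b => by
    obtain ⟨-, hY, -, ht, -, hq, -, hw, hz, hk, -, -, hdd, -, -, -, -, -, -, hsc⟩ :=
      hB T U hU S hS b c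
    have hqq := norm_mul_le_of hq hq
    have hh : ‖S.h y c‖ ≤ Bh := norm_mul_le_of hz (hyn c)
    have hky := norm_mul_le_of hk hyy
    have hξ : ‖S.xi U y b c‖ ≤ Bξ :=
      (norm_phi0A_le _ _).trans (mul_le_mul (by gcongr) (hyn c) (norm_nonneg _) (by positivity))
    have ht2 : ‖S.t2 U y b c‖ ≤ B2 :=
      (norm_sub_le _ _).trans (add_le_add ((T.norm_E_le _).trans
        (norm_mul_le_of (norm_mul_le_of (norm_mul_le_of (norm_mul_le_of hY (hyn c)) hY) (hyn c)) hY))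
        ((T.norm_E_le _).trans (norm_mul_le_of (norm_mul_le_of hY hky) hY)))
    refine ⟨ht, hqq, hsc, hξ,
      (T.norm_E_le _).trans (norm_mul_le_of (norm_mul_le_of hY (hyn c)) hY), ht2, ?_⟩
    have hm : ‖S.m2 U y b c‖ ≤ Bm := by
      refine (norm_sub_le _ _).trans (add_le_add ((norm_sub_le _ _).trans (add_le_add
        ((norm_add_le _ _).trans (add_le_add ht2 (norm_mul_le_of (norm_mul_le_of ht ht) hky)))
        (norm_mul_le_of (norm_mul_le_of (norm_mul_le_of ht ht) ht) hyy))) ?_)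
      rw [norm_smul, Real.norm_of_nonneg (by norm_num : (0 : ℝ) ≤ 2)]
      exact mul_le_mul_of_nonneg_left (norm_mul_le_of ht (norm_mul_le_of (hyn c) hξ)) zero_le_two
    refine (norm_sub_le _ _).trans (add_le_add ((norm_add_le _ _).trans (add_le_add
      (norm_mul_le_of (norm_mul_le_of hw hqq) hm) (norm_mul_le_of (norm_mul_le_of hh hqq) hξ))) ?_)
    rw [norm_smul, Real.norm_of_nonneg (by norm_num : (0 : ℝ) ≤ 1 / 4)]
    exact mul_le_mul_of_nonneg_left (norm_mul_le_of hdd (norm_mul_le_of hh hh)) (by norm_num)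
  obtain ⟨-, -, -, ht, hF, -, -, hw, hz, hk, -, hdN, -, hpen, -, -, -, -, -, -⟩ :=
    hB T U hU S hS b c
  have hh : ‖S.h y c‖ ≤ Bh := norm_mul_le_of hz (hyn c)
  have hUn := (hU b).norm_le
  have h2 : ‖-(U b * (S.curv c * (y c * y c)) * U b)‖ ≤ u2 := by
    rw [norm_neg]; exact norm_conj_le hUn (norm_mul_le_of hk hyy)
  obtain ⟨-, qT, scT, xT, -, -, lT⟩ := hb true
  obtain ⟨-, qF, scF, xF, -, -, lF⟩ := hb false
  obtain ⟨-, -, -, -, h1', h2', -⟩ := hb b
  have hl1 : ‖S.l1 U y c‖ ≤ Bl1 := by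
    refine (norm_add_le _ _).trans (add_le_add ((norm_add_le _ _).trans (add_le_add
      (norm_mul_le_of (norm_mul_le_of hw qT) xT) (norm_mul_le_of (norm_mul_le_of hw qF) xF)))
      (norm_mul_le_of ?_ hh))
    exact (norm_sub_le _ _).trans (add_le_add ((norm_sub_le _ _).trans (add_le_add
      ((norm_add_le _ _).trans (add_le_add scT scF)) le_rfl)) hdN)
  have hl2 : ‖S.l2 U y c‖ ≤ 2 * Bl2 := by
    refine (norm_add_le _ _).trans ?_
    linarith
  refine ⟨(norm_conj_le hUn (hyn c)).trans ?_, h2.trans ?_, (hyn c).trans ?_, hh.trans ?_,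
    ht.trans ?_, hF.trans ?_, h1'.trans ?_, h2'.trans ?_, hk.trans ?_, hw.trans ?_, hl1.trans ?_,
    hl2.trans ?_, hpen.trans ?_⟩ <;> linarith

/-- Expansion of the profile along a move, as elements of the MASA. -/
lemma exists_F_expand (hp : p.Good) {B : ℝ} (hB : 1 ≤ B) :
    ∃ C s0 : ℝ, 0 ≤ C ∧ 0 < s0 ∧ ∀ (T : TracialMasa M) (U : Bool → M) (S : State T p), S.Inv U →
      ∀ (y : Fin p.r → M) (c : Fin p.r) (s : ℝ), T.IsRA (y c) → ‖S.h y c‖ ≤ B → 0 ≤ s → s ≤ s0 →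
        0 ≤ S.w c + s • S.h y c → S.w c + s • S.h y c ≤ (2 * p.θ) • (1 : M) →
        ‖cfc p.Fc (S.w c + s • S.h y c) - S.F c - (s • y c - s ^ 2 • (S.curv c * (y c * y c)))‖ ≤
          C * s ^ 3 := by
  obtain ⟨L, hL, hT⟩ := Prm.exists_taylor hp
  refine ⟨L * B ^ 3, 1, by positivity, one_pos, fun T U S hS y c s hy hh hs _ hnn hle => ?_⟩
  have hw := State.isRA_w hS c
  have hhA : T.IsRA (S.h y c) := (State.isRA_zeta hS c).mul hy
  have hw' := hw.add (hhA.smul s)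
  have hF := State.isRA_F hS c
  have hk := (State.isRA_curv hS c).mul (hy.mul hy)
  have hd := (hy.smul s).sub (hk.smul (s ^ 2))
  refine (((hw'.cfc _).sub hF).sub hd).norm_le (by positivity) fun χ => ?_
  have hwd := State.val_w_dom hS c χ
  have hv : T.val χ (S.w c + s • S.h y c) = T.val χ (S.w c) + s * T.val χ (S.h y c) := by
    rw [hw.val_add χ (hhA.smul s), hhA.val_smul]
  have hv' : T.val χ (S.w c) + s * T.val χ (S.h y c) ∈ p.dom := by
    rw [← hv]
    refine ⟨val_nonneg χ hw'.mem hnn, ?_⟩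
    have := val_mono χ hw'.mem (isRA_one.smul (2 * p.θ)).mem hle
    rwa [val_smul_one] at this
  have hvh : T.val χ (S.h y c) = p.zeta (T.val χ (S.w c)) * T.val χ (y c) := by
    rw [State.h, (State.isRA_zeta hS c).val_mul χ hy, State.val_zeta hp hS]
  obtain ⟨h1, -⟩ := hT _ _ hwd hv'
  have hb : |s * T.val χ (S.h y c)| ≤ s * B := by
    rw [abs_mul, abs_of_nonneg hs]
    exact mul_le_mul_of_nonneg_left ((hhA.abs_val_le χ).trans hh) hs
  rw [((hw'.cfc _).sub hF).val_sub χ hd, (hw'.cfc _).val_sub χ hF,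
    (hy.smul s).val_sub χ (hk.smul _), hy.val_smul, hk.val_smul,
    (State.isRA_curv hS c).val_mul χ (hy.mul hy), hy.val_mul χ hy,
    hw'.val_cfc χ (Prm.continuous_Fc hp), State.val_F hp hS, hv, State.val_curv hp hS, Prm.Fc,
    Prm.cl_eq hp hv']
  refine le_trans (le_of_eq ?_) (h1.trans ((mul_le_mul_of_nonneg_left
    (pow_le_pow_left₀ (abs_nonneg _) hb 3) hL).trans_eq (by ring)))
  have hd := Prm.df_mul_zeta hp hwd
  rw [hvh, Prm.curv]
  congr 1
  linear_combination (s * T.val χ (y c)) * hd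

/-- Expansion of the capped resolvent along a move. -/
lemma exists_G_expand (hp : p.Good) {B : ℝ} (hB : 1 ≤ B) :
    ∃ C s0 : ℝ, 0 ≤ C ∧ 0 < s0 ∧ ∀ (T : TracialMasa M) (U : Bool → M), (∀ b, Adm T (U b)) →
      ∀ (S : State T p), S.Inv U → ∀ (y : Fin p.r → M) (b : Bool) (c : Fin p.r) (s : ℝ), T.IsRA (y c) →
        ‖S.h y c‖ ≤ B → ‖U b * y c * U b‖ ≤ B → ‖-(U b * (S.curv c * (y c * y c)) * U b)‖ ≤ B →
        0 ≤ s → s ≤ s0 → 0 ≤ S.w c + s • S.h y c → S.w c + s • S.h y c ≤ (2 * p.θ) • (1 : M) →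
        IsSelfAdjoint (S.H U b c - U b * (cfc p.Fc (S.w c + s • S.h y c) - S.F c) * U b) ∧
        p.a ^ 2 * T.tr (capInv p.a (S.H U b c - U b * (cfc p.Fc (S.w c + s • S.h y c) - S.F c) * U b)) +
          T.tr (capAdd p.a (S.H U b c - U b * (cfc p.Fc (S.w c + s • S.h y c) - S.F c) * U b)) ≤
          p.a ^ 2 * T.tr (S.G U b c) + s * (p.a ^ 2 * T.tr (S.g1 U y b c)) +
            s ^ 2 * (p.a ^ 2 * T.tr (S.g2 U y b c)) + C * s ^ 3 ∧
        T.E (U b * capInv p.a (S.H U b c - U b * (cfc p.Fc (S.w c + s • S.h y c) - S.F c) * U b) * U b) ≤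
          S.t U b c + s • S.t1 U y b c + s ^ 2 • S.t2 U y b c + (C * s ^ 3) • (1 : M) := by
  obtain ⟨C1, s1, hC1, hs1, hF⟩ := exists_F_expand (M := M) hp hB
  obtain ⟨C2, s2, hC2, hs2, hG⟩ := capInv_expand (M := M) hp.a_pos
    (B := B + 4 * C1) (by linarith)
  refine ⟨(p.a ^ 2 + 4) * C2, min s1 s2, by positivity, lt_min hs1 hs2,
    fun T U hU S hS y b c s hy hh hV1 hV2 hs hss hnn hle => ?_⟩
  have hUs := IsSelfAdjoint.of_nonneg (hU b).nonneg
  have hUn := (hU b).norm_le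
  have hd := hF T U S hS y c s hy hh hs (hss.trans (min_le_left _ _)) hnn hle
  set D := cfc p.Fc (S.w c + s • S.h y c) - S.F c with hD
  have hDs : IsSelfAdjoint D := (cfc_predicate (R := ℝ) (p := IsSelfAdjoint) p.Fc _).sub (State.isRA_F hS c).sa
  set V := U b * D * U b with hV
  have hVs : IsSelfAdjoint V := IsSelfAdjoint.conjugate_self hDs hUs
  have hHs := State.isSelfAdjoint_H hp hS hU b c
  have hVe : ‖V - (s • (U b * y c * U b) + s ^ 2 • -(U b * (S.curv c * (y c * y c)) * U b))‖ ≤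
      (B + 4 * C1) * s ^ 3 := by
    have e : V - (s • (U b * y c * U b) + s ^ 2 • -(U b * (S.curv c * (y c * y c)) * U b)) =
        U b * (D - (s • y c - s ^ 2 • (S.curv c * (y c * y c)))) * U b := by
      simp only [hV, mul_sub, sub_mul, mul_smul_comm, smul_mul_assoc, smul_neg]
      abel
    rw [e]
    refine (norm_conj_le hUn hd).trans ?_
    nlinarith [mul_nonneg (show 0 ≤ B by linarith) (pow_nonneg hs 3)]
  obtain ⟨hge, hexp⟩ := hG s (S.H U b c) V (U b * y c * U b) (-(U b * (S.curv c * (y c * y c)) * U b)) hs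
    (hss.trans (min_le_right _ _)) hHs hVs (hS.barrier b c) (hV1.trans (by linarith))
    (hV2.trans (by linarith)) hVe
  set Gu := capInv (p.a / 2) (S.H U b c - V) with hGu
  obtain ⟨hle1, hle2⟩ := capInv_compare hp.a_pos (hHs.sub hVs) hge
  have hsa1 : IsSelfAdjoint (S.g1 U y b c) :=
    IsSelfAdjoint.conjugate_self (IsSelfAdjoint.conjugate_self hy.sa hUs) (cfc_predicate _ _)
  have hsa2 : IsSelfAdjoint (S.g2 U y b c) := by
    have hG0 : IsSelfAdjoint (S.G U b c) := cfc_predicate _ _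
    have hW := IsSelfAdjoint.conjugate_self hy.sa hUs
    rw [State.g2, show S.G U b c * (U b * y c * U b) * S.G U b c * (U b * y c * U b) * S.G U b c =
      S.G U b c * ((U b * y c * U b) * S.G U b c * (U b * y c * U b)) * S.G U b c by noncomm_ring]
    exact (IsSelfAdjoint.conjugate_self (IsSelfAdjoint.conjugate_self hG0 hW) hG0).add
      (IsSelfAdjoint.conjugate_self ((IsSelfAdjoint.conjugate_self ((State.isRA_curv hS c).mul (hy.mul hy)).sa hUs).neg) hG0)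
  have hGle : Gu ≤ S.G U b c + s • S.g1 U y b c + s ^ 2 • S.g2 U y b c + (C2 * s ^ 3) • (1 : M) := by
    have hds : IsSelfAdjoint (Gu - (S.G U b c + s • S.g1 U y b c + s ^ 2 • S.g2 U y b c)) :=
      (show IsSelfAdjoint Gu from cfc_predicate _ _).sub
        (((show IsSelfAdjoint (S.G U b c) from cfc_predicate _ _).add
          ((IsSelfAdjoint.all s).smul hsa1)).add
        ((IsSelfAdjoint.all _).smul hsa2))
    rw [← sub_le_iff_le_add']
    exact (le_norm_smul_one hds).trans (smul_le_smul_of_nonneg_right hexp zero_le_one)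
  refine ⟨hHs.sub hVs, ?_, ?_⟩
  · have h1 := T.tr_mono hle2
    rw [T.tr_add, T.tr_smul, T.tr_smul] at h1
    have h2 := mul_le_mul_of_nonneg_left (T.tr_mono hGle) (sq_nonneg p.a)
    simp only [T.tr_add, T.tr_smul, T.tr_one] at h2
    rw [← hGu] at h1
    have : 0 ≤ 4 * C2 * s ^ 3 := by positivity
    linarith
  · have h1 : U b * capInv p.a (S.H U b c - V) * U b ≤
        U b * (S.G U b c + s • S.g1 U y b c + s ^ 2 • S.g2 U y b c + (C2 * s ^ 3) • (1 : M)) * U b :=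
      hUs.conjugate_le_conjugate (hle1.trans hGle)
    have h2 : ∀ {x z : M}, x ≤ z → T.E x ≤ T.E z := fun {x z} hxz => by
      have := T.E_nonneg (sub_nonneg.2 hxz)
      rwa [T.E_sub, sub_nonneg] at this
    refine (h2 h1).trans ?_
    have e1 : U b * S.g1 U y b c * U b = S.Y U b c * y c * S.Y U b c := by
      simp only [State.g1, State.Y, mul_assoc]
    have e2 : U b * S.g2 U y b c * U b = S.Y U b c * y c * S.Y U b c * y c * S.Y U b c -
        S.Y U b c * (S.curv c * (y c * y c)) * S.Y U b c := by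
      rw [sub_eq_add_neg]
      simp only [State.g2, State.Y, mul_add, add_mul, mul_neg, neg_mul, mul_smul_comm,
        smul_mul_assoc, mul_assoc]
    have hUU : T.E (U b * U b) ≤ (4 : ℝ) • (1 : M) := by
      rw [(hU b).E_sq]
      exact le_smul_of_one_le_left zero_le_one (by norm_num)
    have eR : ∀ (r : ℝ) (x : M), T.E (r • x) = r • T.E x := fun r x => by
      rw [← Complex.coe_smul, T.E_smul, Complex.coe_smul]
    simp only [mul_add, add_mul, mul_smul_comm, smul_mul_assoc, mul_one, T.E_add, eR, e1, e2,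
      T.E_sub]
    refine add_le_add le_rfl ((smul_le_smul_of_nonneg_left hUU (by positivity)).trans ?_)
    rw [smul_smul]
    refine smul_le_smul_of_nonneg_right ?_ zero_le_one
    have : 0 ≤ p.a ^ 2 * C2 * s ^ 3 := by positivity
    linarith

end Vale.Agent.P078.Sharp
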