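import Mathlib
import Vale.Agent.P078.Sharp.Expand

/-!
# One step of the two-sided walk: the new state and the expansion of the potential
-/

open scoped ComplexOrder InnerProductSpace Topology
open Filter

set_option linter.unusedSectionVars false

namespace Vale.Agent.P078.Sharp

universe u

variable {M : Type u} [CStarAlgebra M] [PartialOrder M] [StarOrderedRing M]

open TracialMasa hiding Colour DirData State omr_square third_order_identity exists_basic_bounds exists_dir_valid exists_move_bounds exists_F_expand exists_G_expand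

variable {T : TracialMasa M} {p : Prm}

namespace State

/-- The state obtained by a move. -/
noncomputable def moved (S : State T p) (U : Bool → M) (y : Fin p.r → M) (s : ℝ) (f : Fin p.r → M) :
    State T p where
  w c := S.w c + s • S.h y c
  R b c := S.R b c +
    capAdd p.a (S.H U b c - U b * (cfc p.Fc (S.w c + s • S.h y c) - S.F c) * U b)
  fin c := S.fin c + f c

lemma moved_H (S : State T p) (U : Bool → M) (y : Fin p.r → M) (s : ℝ) (f : Fin p.r → M) (b : Bool)
    (c : Fin p.r) :
    (S.moved U y s f).H U b c =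
      (S.H U b c - U b * (cfc p.Fc (S.w c + s • S.h y c) - S.F c) * U b) +
        capAdd p.a (S.H U b c - U b * (cfc p.Fc (S.w c + s • S.h y c) - S.F c) * U b) := by
  simp only [moved, H, F, mul_sub, sub_mul]
  abel

variable {S : State T p} {U : Bool → M} {y : Fin p.r → M} (hp : p.Good) (hS : S.Inv U)
  (hU : ∀ b, Adm T (U b)) (hy : ∀ c, T.IsRA (y c)) (hjy : ∀ c, S.j U c * y c = y c)
include hp hS hU hy hjy

lemma val_h_zero (c : Fin p.r) (χ : T.Chi) (h : T.val χ (S.j U c) = 0) :
    T.val χ (S.h y c) = 0 := by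
  rw [State.h, (isRA_zeta hS c).val_mul χ (hy c)]
  conv_lhs => arg 2; rw [← hjy c]
  rw [(isRA_j hp hS hU c).val_mul χ (hy c), h, zero_mul, mul_zero]

/-- Position of the moved weights. -/
lemma val_moved {B s : ℝ} (hB : ∀ c, ‖S.h y c‖ ≤ B) (hs : 0 ≤ s) (hsσ : s * B ≤ p.σ)
    (hsθ : s * B ≤ p.θ) (c : Fin p.r) (χ : T.Chi) :
    0 ≤ T.val χ (S.w c) + s * T.val χ (S.h y c) ∧
      T.val χ (S.w c) + s * T.val χ (S.h y c) ≤ 2 * p.θ := by
  obtain ⟨h0, h1⟩ := val_w hS c χ
  rcases (isRA_j hp hS hU c).val_proj χ (j_proj hp hS hU c) with hj | hj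
  · rw [val_h_zero hp hS hU hy hjy c χ hj, mul_zero, add_zero]; exact ⟨h0, h1⟩
  · obtain ⟨-, hl, -, hθ, -⟩ := jk_spec hp hS hU c _ χ hj
    have hσ := (Prm.σ_le_lev hp (S.kc U c)).trans hl
    have hh := ((isRA_zeta hS c).mul (hy c)).abs_val_le χ
    have hb : |s * T.val χ (S.h y c)| ≤ s * B := by
      rw [abs_mul, abs_of_nonneg hs]
      exact mul_le_mul_of_nonneg_left (hh.trans (hB c)) hs
    obtain ⟨b1, b2⟩ := abs_le.1 hb
    constructor <;> linarith

/-- Existence of a legal move with the alive part shrinking. -/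
lemma exists_moved {B s : ℝ} (hB : ∀ c, ‖S.h y c‖ ≤ B) (hs : 0 ≤ s) (hsσ : s * B ≤ p.σ)
    (hsθ : s * B ≤ p.θ) :
    ∃ f : Fin p.r → M, (S.moved U y s f).Inv U ∧ (S.moved U y s f).alive ≤ S.alive := by
  have hUs := fun b => IsSelfAdjoint.of_nonneg (hU b).nonneg
  have hA := isRA_alive hS
  have hhA : ∀ c, T.IsRA (S.h y c) := fun c => (isRA_zeta hS c).mul (hy c)
  have hw' : ∀ c, T.IsRA (S.w c + s • S.h y c) := fun c => (isRA_w hS c).add ((hhA c).smul s)
  have hvw : ∀ c χ, T.val χ (S.w c + s • S.h y c) = T.val χ (S.w c) + s * T.val χ (S.h y c) :=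
    fun c χ => by rw [(isRA_w hS c).val_add χ ((hhA c).smul s), (hhA c).val_smul]
  have hqA : ∀ c, T.IsRA (T.cut (S.w c + s • S.h y c) p.θ) := fun c =>
    isRA_of_proj (T.cut_mem_A _ (hw' c).mem) (T.cut_isStarProjection _ _)
  obtain ⟨f, hfA, hfP, hfo, hfq, hf0⟩ := T.exists_first_hit
    (fun c => S.alive * T.cut (S.w c + s • S.h y c) p.θ)
    (fun c => (hA.mul (hqA c)).mem)
    (fun c => (alive_proj hS).mul (T.cut_isStarProjection _ _)
      (T.A_comm _ hA.mem _ (hqA c).mem))
  have hfR : ∀ c, T.IsRA (f c) := fun c => isRA_of_proj (hfA c) (hfP c)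
  have hfin : ∀ c, T.IsRA (S.fin c) := fun c => isRA_of_proj (hS.fin_mem c) (hS.fin_proj c)
  have hfal : ∀ c, f c * S.alive = f c := fun c => by
    have hc : T.cut (S.w c + s • S.h y c) p.θ * S.alive = S.alive * T.cut (S.w c + s • S.h y c) p.θ :=
      T.A_comm _ (hqA c).mem _ hA.mem
    calc f c * S.alive = f c * (S.alive * T.cut (S.w c + s • S.h y c) p.θ) * S.alive := by rw [hfq c]
      _ = f c * (S.alive * (T.cut (S.w c + s • S.h y c) p.θ * S.alive)) := by noncomm_ring
      _ = f c * ((S.alive * S.alive) * T.cut (S.w c + s • S.h y c) p.θ) := by rw [hc]; noncomm_ring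
      _ = f c := by rw [(alive_proj hS).isIdempotentElem.eq, hfq c]
  have hff : ∀ c d, f c * S.fin d = 0 := fun c d => by
    rw [← hfal c, mul_assoc, alive_mul_fin hS, mul_zero]
  have hff' : ∀ c d, S.fin d * f c = 0 := fun c d => by
    rw [T.A_comm _ (hS.fin_mem d) _ (hfA c), hff]
  have hal : (S.moved U y s f).alive = S.alive - ∑ c, f c := by
    simp only [alive, moved, Finset.sum_add_distrib]; abel
  have hsf : T.IsRA (∑ c, f c) := isRA_sum fun c _ => hfR c
  refine ⟨f, ?_, ?_⟩
  swap
  · rw [hal]; exact sub_le_self _ (Finset.sum_nonneg fun c _ => (hfP c).nonneg)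
  refine
    { w_mem := fun c => (hw' c).mem
      w_nonneg := fun c => (hw' c).nonneg_of_val fun χ => by
        rw [hvw]; exact (val_moved hp hS hU hy hjy hB hs hsσ hsθ c χ).1
      w_le := fun c => (hw' c).le_of_val (isRA_one.smul _) fun χ => by
        rw [hvw, val_smul_one]; exact (val_moved hp hS hU hy hjy hB hs hsσ hsθ c χ).2
      R_nonneg := fun b c => add_nonneg (hS.R_nonneg b c) (capAdd_nonneg _ _)
      fin_mem := fun c => add_mem (hS.fin_mem c) (hfA c)
      fin_proj := fun c => ?_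
      fin_orth := fun c d hcd => ?_
      fin_le := fun c => ?_
      w_alive := fun c => ?_
      barrier := fun b c => ?_ }
  · refine ⟨?_, (hS.fin_proj c).isSelfAdjoint.add (hfP c).isSelfAdjoint⟩
    show (S.fin c + f c) * (S.fin c + f c) = S.fin c + f c
    rw [add_mul, mul_add, mul_add, (hS.fin_proj c).isIdempotentElem.eq,
      (hfP c).isIdempotentElem.eq, hff, hff', add_zero, zero_add]
  · show (S.fin c + f c) * (S.fin d + f d) = 0
    rw [add_mul, mul_add, mul_add, hS.fin_orth c d hcd, hfo c d hcd, hff, hff', add_zero, add_zero]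
  · show p.θ • (S.fin c + f c) ≤ (S.w c + s • S.h y c) * (S.fin c + f c)
    have hL := (hfin c).add (hfR c)
    refine (hL.smul _).le_of_val ((hw' c).mul hL) fun χ => ?_
    rw [hL.val_smul, (hw' c).val_mul χ hL, (hfin c).val_add χ (hfR c), hvw]
    have h1 : p.θ * T.val χ (S.fin c) ≤
        (T.val χ (S.w c) + s * T.val χ (S.h y c)) * T.val χ (S.fin c) := by
      rcases (hfin c).val_proj χ (hS.fin_proj c) with hv | hv
      · rw [hv, mul_zero, mul_zero]
      · have ha0 : T.val χ S.alive = 0 := by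
          have := congrArg (T.val χ) (alive_mul_fin hS c)
          rwa [hA.val_mul χ (hfin c), hv, mul_one, val_zero] at this
        have hj0 : T.val χ (S.j U c) = 0 := by
          rcases (isRA_j hp hS hU c).val_proj χ (j_proj hp hS hU c) with hj | hj
          · exact hj
          · have h1 := (jk_spec hp hS hU c _ χ hj).1
            rw [ha0] at h1
            exact absurd h1 zero_ne_one
        have := val_mono χ ((hfin c).smul p.θ).mem ((isRA_w hS c).mul (hfin c)).mem (hS.fin_le c)
        rw [(hfin c).val_smul, (isRA_w hS c).val_mul χ (hfin c), hv] at this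
        rw [val_h_zero hp hS hU hy hjy c χ hj0, hv, mul_zero, add_zero]
        exact this
    have h2 : p.θ * T.val χ (f c) ≤
        (T.val χ (S.w c) + s * T.val χ (S.h y c)) * T.val χ (f c) := by
      rcases (hfR c).val_proj χ (hfP c) with hv | hv
      · rw [hv, mul_zero, mul_zero]
      · have := congrArg (T.val χ) (hfq c)
        rw [(hfR c).val_mul χ (hA.mul (hqA c)), hA.val_mul χ (hqA c), hv, one_mul] at this
        have hc1 : T.val χ (T.cut (S.w c + s • S.h y c) p.θ) = 1 := by
          rcases (hqA c).val_proj χ (T.cut_isStarProjection _ _) with hq | hq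
          · rw [hq, mul_zero] at this; exact absurd this zero_ne_one
          · exact hq
        have h3 := le_val_of_cut χ (hw' c).mem (hw' c).sa hc1
        rw [hvw] at h3
        rw [hv, mul_one, mul_one]
        exact h3
    linarith
  · show (S.w c + s • S.h y c) * (S.moved U y s f).alive ≤ p.θ • (S.moved U y s f).alive
    rw [hal]
    have hA' := hA.sub hsf
    refine ((hw' c).mul hA').le_of_val (hA'.smul _) fun χ => ?_
    rw [hA'.val_smul, (hw' c).val_mul χ hA', hvw, hA.val_sub χ hsf]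
    have hz := congrArg (T.val χ) (hf0 c)
    rw [val_zero, (isRA_one.sub hsf).val_mul χ (hA.mul (hqA c)), isRA_one.val_sub χ hsf, val_one,
      hA.val_mul χ (hqA c)] at hz
    have hsum : T.val χ S.alive = 0 → T.val χ (∑ c, f c) = 0 := fun h0 => by
      rw [val_sum χ _ _ fun c _ => hfA c]
      refine Finset.sum_eq_zero fun d _ => ?_
      have := congrArg (T.val χ) (hfal d)
      rwa [(hfR d).val_mul χ hA, h0, mul_zero, eq_comm] at this
    rcases hA.val_proj χ (alive_proj hS) with ha | ha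
    · rw [ha, hsum ha, sub_zero, mul_zero, mul_zero]
    rw [ha] at hz ⊢
    rcases eq_or_ne (1 - T.val χ (∑ c, f c)) 0 with h0 | h0
    · rw [h0, mul_zero, mul_zero]
    · have hc0 : T.val χ (T.cut (S.w c + s • S.h y c) p.θ) = 0 := by
        simpa [h0] using hz
      have h3 := val_le_of_cut χ (hw' c).mem (hw' c).sa hc0
      rw [hvw] at h3
      have hpos : 0 ≤ 1 - T.val χ (∑ c, f c) := by
        have h4 : ∑ c, f c ≤ S.alive := by
          have : ∀ c, f c ≤ 1 := fun c => (hfP c).le_one
          have hP : IsStarProjection (∑ c, f c) := by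
            refine ⟨?_, hsf.sa⟩
            show (∑ c, f c) * ∑ c, f c = ∑ c, f c
            rw [Finset.sum_mul]
            refine Finset.sum_congr rfl fun d _ => ?_
            rw [Finset.mul_sum, Finset.sum_eq_single d]
            · exact (hfP d).isIdempotentElem.eq
            · exact fun e _ he => hfo d e (Ne.symm he)
            · simp
          refine hsf.le_of_val hA fun χ' => ?_
          rcases hA.val_proj χ' (alive_proj hS) with ha' | ha'
          · rw [ha', val_sum χ' _ _ fun c _ => hfA c]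
            refine (Finset.sum_eq_zero fun d _ => ?_).le
            have := congrArg (T.val χ') (hfal d)
            rwa [(hfR d).val_mul χ' hA, ha', mul_zero, eq_comm] at this
          · rw [ha']; exact (hsf.val_proj_mem χ' hP).2
        have := val_mono χ hsf.mem hA.mem h4
        linarith
      exact mul_le_mul_of_nonneg_right h3 hpos
  · rw [moved_H]
    refine (capAdd_spec hp.a_pos ?_).1
    exact (isSelfAdjoint_H hp hS hU b c).sub (IsSelfAdjoint.conjugate_self
      ((cfc_predicate (R := ℝ) (p := IsSelfAdjoint) p.Fc _).sub (isRA_F hS c).sa) (hUs b))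

end State

/-- Expansion of the potential along a move. -/
lemma exists_expand (hp : p.Good) (Cy : ℝ) (hCy : 0 ≤ Cy) :
    ∃ C s0 : ℝ, 0 ≤ C ∧ 0 < s0 ∧ ∀ (T : TracialMasa M) (U : Bool → M), (∀ b, Adm T (U b)) →
      ∀ S : State T p, S.Inv U → ∀ y : Fin p.r → M, (∀ c, T.IsRA (y c)) →
        (∀ c, S.j U c * y c = y c) → (∀ c, ‖y c‖ ≤ Cy) → ∀ s : ℝ, 0 ≤ s → s ≤ s0 →
          ∃ S' : State T p, S'.Inv U ∧
            S'.pot U ≤ S.pot U + s * S.lin U y + s ^ 2 * S.qde U y + C * s ^ 3 := by
  obtain ⟨B, hB1, hB⟩ := exists_move_bounds (M := M) hp Cy hCy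
  obtain ⟨CF, sF, hCF, hsF, hF⟩ := exists_F_expand (M := M) hp hB1
  obtain ⟨CG, sG, hCG, hsG, hG⟩ := exists_G_expand (M := M) hp hB1
  obtain ⟨L, hL, hT⟩ := Prm.exists_taylor hp
  set B' := B + CF + CG + L * B ^ 3 with hB'
  have hB0 : 0 ≤ B := zero_le_one.trans hB1
  have hLB : 0 ≤ L * B ^ 3 := by positivity
  have hB'1 : 1 ≤ B' := by rw [hB']; linarith
  obtain ⟨CQ, sQ, hCQ, hsQ, hQ⟩ := qual_step hB'1
  set BS := ((p.r : ℝ) + 1) * B with hBS
  have hBS0 : 0 ≤ BS := by rw [hBS]; positivity
  set CP := 2 * BS * ((p.r : ℝ) * CQ) + 3 * (BS + (p.r : ℝ) * CQ) ^ 2 with hCP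
  have hCP0 : 0 ≤ CP := by rw [hCP]; positivity
  refine ⟨(p.r : ℝ) * (2 * CG) + CP,
    min (min sF sG) (min (min sQ 1) (min (p.σ / B) (p.θ / B))), by positivity, ?_, ?_⟩
  · have := hp.σ_pos
    have := hp.θ_pos
    have : 0 < B := by linarith
    refine lt_min (lt_min hsF hsG) (lt_min (lt_min hsQ one_pos) (lt_min ?_ ?_)) <;> positivity
  intro T U hU S hS y hy hjy hyn s hs hs0
  have hsF' : s ≤ sF := hs0.trans ((min_le_left _ _).trans (min_le_left _ _))
  have hsG' : s ≤ sG := hs0.trans ((min_le_left _ _).trans (min_le_right _ _))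
  have hsQ' : s ≤ sQ := hs0.trans ((min_le_right _ _).trans ((min_le_left _ _).trans (min_le_left _ _)))
  have hs1 : s ≤ 1 := hs0.trans ((min_le_right _ _).trans ((min_le_left _ _).trans (min_le_right _ _)))
  have hBpos : 0 < B := by linarith
  have hsσ : s * B ≤ p.σ := (le_div_iff₀ hBpos).1
    (hs0.trans ((min_le_right _ _).trans ((min_le_right _ _).trans (min_le_left _ _))))
  have hsθ : s * B ≤ p.θ := (le_div_iff₀ hBpos).1
    (hs0.trans ((min_le_right _ _).trans ((min_le_right _ _).trans (min_le_right _ _))))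
  have hbd := hB T U hU S hS y hy hyn
  have hhn : ∀ c, ‖S.h y c‖ ≤ B := fun c => (hbd true c).2.2.2.1
  obtain ⟨f, hI, hale⟩ := State.exists_moved hp hS hU hy hjy hhn hs hsσ hsθ
  set S' := S.moved U y s f with hS'def
  refine ⟨S', hI, ?_⟩
  have hGs := fun b c => hG T U hU S hS y b c s (hy c) (hhn c) (hbd b c).1 (hbd b c).2.1 hs hsG'
    (hI.w_nonneg c) (hI.w_le c)
  -- the new resolvent
  have hG' : ∀ b c, S'.G U b c =
      capInv p.a (S.H U b c - U b * (cfc p.Fc (S.w c + s • S.h y c) - S.F c) * U b) := fun b c => by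
    rw [State.G, hS'def, State.moved_H]
    exact (capAdd_spec hp.a_pos (hGs b c).1).2
  have hpartG : ∀ b c, p.a ^ 2 * T.tr (S'.G U b c) + T.tr (S'.R b c) ≤
      (p.a ^ 2 * T.tr (S.G U b c) + T.tr (S.R b c)) + s * (p.a ^ 2 * T.tr (S.g1 U y b c)) +
        s ^ 2 * (p.a ^ 2 * T.tr (S.g2 U y b c)) + CG * s ^ 3 := fun b c => by
    obtain ⟨-, h1, -⟩ := hGs b c
    rw [hG' b c]
    show _ + T.tr (S.R b c + capAdd p.a _) ≤ _
    rw [T.tr_add]
    linarith
  -- the new quality
  have hA := State.isRA_alive hS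
  have hA' := State.isRA_alive hI
  have hpen := State.isRA_pen hp hS hU
  have hpen' := State.isRA_pen hp hI hU
  set L1 := ∑ c, S.l1 U y c with hL1
  set L2 := ∑ c, S.l2 U y c with hL2
  have hL1R : T.IsRA L1 := isRA_sum fun c _ => State.isRA_l1 hp hS hU hy
  have hL2R : T.IsRA L2 := isRA_sum fun c _ => State.isRA_l2 hp hS hU hy
  have hbw := State.isRA_bw hp hS hU
  have hZ := hA'.mul (hpen'.mul hpen')
  have hW1 := hbw.mul hL1R
  have hW2 := (hbw.mul hL2R).add (hA.mul (hL1R.mul hL1R))
  have hP := (hA.mul (hpen.mul hpen))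
  have hkey : S'.alive * (S'.pen U * S'.pen U) ≤ S.alive * (S.pen U * S.pen U) +
      s • (S.bw U * L1) + (s ^ 2) • (S.bw U * L2 + S.alive * (L1 * L1)) +
      (CP * s ^ 3) • (1 : M) := by
    refine hZ.le_of_val (((hP.add (hW1.smul _)).add (hW2.smul _)).add (isRA_one.smul _)) fun χ => ?_
    rw [((hP.add (hW1.smul _)).add (hW2.smul _)).val_add χ (isRA_one.smul _),
      (hP.add (hW1.smul _)).val_add χ (hW2.smul _), hP.val_add χ (hW1.smul _), hW1.val_smul,
      hW2.val_smul, val_smul_one, (hbw.mul hL2R).val_add χ (hA.mul (hL1R.mul hL1R)),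
      hbw.val_mul χ hL1R, hbw.val_mul χ hL2R, hA.val_mul χ (hL1R.mul hL1R), hL1R.val_mul χ hL1R,
      hA'.val_mul χ (hpen'.mul hpen'), hA.val_mul χ (hpen.mul hpen), hpen.val_mul χ hpen,
      hpen'.val_mul χ hpen', State.bw, (hA.mul hpen).val_smul, hA.val_mul χ hpen]
    have hv' := hA'.val_proj_mem χ (State.alive_proj hI)
    have hvle := val_mono χ hA'.mem hA.mem hale
    rcases hA.val_proj χ (State.alive_proj hS) with ha | ha
    · rw [ha] at hvle ⊢
      have : T.val χ S'.alive = 0 := le_antisymm hvle hv'.1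
      rw [this]
      have : 0 ≤ CP * s ^ 3 := by positivity
      simp only [zero_mul, mul_zero, zero_add, add_zero]
      linarith
    rw [ha]
    refine (mul_le_of_le_one_left (mul_self_nonneg _) hv'.2).trans ?_
    have hterm : ∀ c,
        qual p.e (T.val χ (S.w c)) (T.val χ (S.t U true c)) (T.val χ (S.t U false c))
            (T.val χ (S.F c)) (p.N (T.val χ (S.w c))) -
          qual p.e (T.val χ (S'.w c)) (T.val χ (S'.t U true c)) (T.val χ (S'.t U false c))
            (T.val χ (S'.F c)) (p.N (T.val χ (S'.w c))) ≤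
        s * T.val χ (S.l1 U y c) + s ^ 2 * T.val χ (S.l2 U y c) + CQ * s ^ 3 := fun c => by
      obtain ⟨-, -, hyB, hhB, -, hFB, -, -, hkB, hwB, -, -, -⟩ := hbd true c
      have hh : T.IsRA (S.h y c) := State.isRA_h hp hS hU hy
      have hw := State.isRA_w hS c
      have hF0 := State.isRA_F hS c
      have hk := State.isRA_curv hS c
      have hw' : T.val χ (S'.w c) = T.val χ (S.w c) + s * T.val χ (S.h y c) := by
        show T.val χ (S.w c + s • S.h y c) = _
        rw [hw.val_add χ (hh.smul s), hh.val_smul]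
      have hBB : B ≤ B' := by rw [hB']; linarith
      have hs3 : 0 ≤ s ^ 3 := pow_nonneg hs 3
      have hwd := State.val_w_dom hS c χ
      have hwd' : T.val χ (S.w c) + s * T.val χ (S.h y c) ∈ p.dom := hw' ▸ State.val_w_dom hI c χ
      have htb : ∀ b, T.val χ (S.t U b c) ≤ B' ∧ |T.val χ (S.t1 U y b c)| ≤ B' ∧
          |T.val χ (S.t2 U y b c)| ≤ B' ∧
          T.val χ (S'.t U b c) ≤ T.val χ (S.t U b c) + s * T.val χ (S.t1 U y b c) +
            s ^ 2 * T.val χ (S.t2 U y b c) + B' * s ^ 3 := fun b => by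
        obtain ⟨-, -, -, -, htB, -, ht1B, ht2B, -⟩ := hbd b c
        have ht := State.isRA_t hp hS hU b c
        have ht1 : T.IsRA (S.t1 U y b c) := State.isRA_t1 hp hS hU hy
        have ht2 : T.IsRA (S.t2 U y b c) := State.isRA_t2 hp hS hU hy
        refine ⟨(le_abs_self _).trans ((ht.abs_val_le χ).trans (htB.trans hBB)),
          (ht1.abs_val_le χ).trans (ht1B.trans hBB), (ht2.abs_val_le χ).trans (ht2B.trans hBB), ?_⟩
        obtain ⟨-, -, h3⟩ := hGs b c
        have h4 : S'.t U b c ≤
            S.t U b c + s • S.t1 U y b c + s ^ 2 • S.t2 U y b c + (CG * s ^ 3) • (1 : M) := by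
          rw [State.t, State.Y, hG' b c]; exact h3
        have hRA := ((ht.add (ht1.smul s)).add (ht2.smul (s ^ 2))).add
          (isRA_one.smul (CG * s ^ 3))
        have h5 := val_mono χ (State.isRA_t hp hI hU b c).mem hRA.mem h4
        rw [((ht.add (ht1.smul s)).add (ht2.smul (s ^ 2))).val_add χ (isRA_one.smul _),
          (ht.add (ht1.smul s)).val_add χ (ht2.smul (s ^ 2)), ht.val_add χ (ht1.smul s),
          ht1.val_smul, ht2.val_smul, val_smul_one] at h5
        have : CG * s ^ 3 ≤ B' * s ^ 3 :=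
          mul_le_mul_of_nonneg_right (by rw [hB']; linarith) hs3
        linarith
      obtain ⟨htp, htp1, htp2, htpn⟩ := htb true
      obtain ⟨htm, htm1, htm2, htmn⟩ := htb false
      have hFn : T.val χ (S.F c) + s * T.val χ (y c) -
          T.val χ (S.curv c) * s ^ 2 * T.val χ (y c) ^ 2 - B' * s ^ 3 ≤ T.val χ (S'.F c) := by
        have h3 := hF T U S hS y c s (hy c) hhB hs hsF' (hI.w_nonneg c) (hI.w_le c)
        have hky := hk.mul ((hy c).mul (hy c))
        have hd := ((hy c).smul s).sub (hky.smul (s ^ 2))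
        have hFn := (hw.add (hh.smul s)).cfc p.Fc
        have h4 := ((hFn.sub hF0).sub hd).abs_val_le χ |>.trans h3
        rw [(hFn.sub hF0).val_sub χ hd, hFn.val_sub χ hF0,
          ((hy c).smul s).val_sub χ (hky.smul _), (hy c).val_smul,
          hky.val_smul, hk.val_mul χ ((hy c).mul (hy c)), (hy c).val_mul χ (hy c)] at h4
        show _ ≤ T.val χ (cfc p.Fc (S.w c + s • S.h y c))
        have : CF * s ^ 3 ≤ B' * s ^ 3 :=
          mul_le_mul_of_nonneg_right (by rw [hB']; linarith) hs3
        linarith [(abs_le.1 h4).1]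
      have hNn : p.N (T.val χ (S.w c)) + s * (p.dN (T.val χ (S.w c)) * T.val χ (S.h y c)) +
          s ^ 2 * (p.ddN (T.val χ (S.w c)) * T.val χ (S.h y c) ^ 2 / 2) - B' * s ^ 3 ≤
          p.N (T.val χ (S.w c) + s * T.val χ (S.h y c)) := by
        obtain ⟨-, h2⟩ := hT _ _ hwd hwd'
        have hb : |s * T.val χ (S.h y c)| ≤ s * B := by
          rw [abs_mul, abs_of_nonneg hs]
          exact mul_le_mul_of_nonneg_left ((hh.abs_val_le χ).trans hhB) hs
        have h4 := mul_le_mul_of_nonneg_left (pow_le_pow_left₀ (abs_nonneg _) hb 3) hL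
        have : L * B ^ 3 * s ^ 3 ≤ B' * s ^ 3 :=
          mul_le_mul_of_nonneg_right (by rw [hB']; linarith) hs3
        linarith [(abs_le.1 h2).1]
      rw [hw', State.val_l1 hp hS hU hy, State.val_l2 hp hS hU hy, State.val_l2b hp hS hU hy,
        State.val_l2b hp hS hU hy]
      refine (hQ s p.e _ _ _ _ _ _ _ _ _ _ _ _ _ _ _ _ _ _ hs hsQ' hwd.1
        ((le_abs_self _).trans ((hw.abs_val_le χ).trans (hwB.trans hBB)))
        ((hh.abs_val_le χ).trans (hhB.trans hBB))
        (State.val_F_nonneg hp hS c χ)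
        ((le_abs_self _).trans ((hF0.abs_val_le χ).trans (hFB.trans hBB)))
        (((hy c).abs_val_le χ).trans (hyB.trans hBB))
        ((hk.abs_val_le χ).trans (hkB.trans hBB))
        (State.val_t_nonneg hp hS hU true c χ) htp htp1 htp2
        (State.val_t_nonneg hp hS hU false c χ) htm htm1 htm2 hwd'.1
        (State.val_t_nonneg hp hI hU true c χ) htpn
        (State.val_t_nonneg hp hI hU false c χ) htmn
        (State.val_F_nonneg hp hI c χ) hFn hNn).trans ?_
      linarith
    have hsum := Finset.sum_le_sum (fun c (_ : c ∈ Finset.univ) => hterm c)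
    simp only [Finset.sum_sub_distrib, Finset.sum_add_distrib, ← Finset.mul_sum, Finset.sum_const,
      Finset.card_univ, Fintype.card_fin, nsmul_eq_mul] at hsum
    rw [← State.val_Q hp hS hU, ← State.val_Q hp hI hU,
      ← val_sum χ _ _ (fun c _ => (State.isRA_l1 hp hS hU hy).mem),
      ← val_sum χ _ _ (fun c _ => (State.isRA_l2 hp hS hU hy).mem), ← hL1, ← hL2] at hsum
    have hlb : ∀ (l : Fin p.r → M), (∀ c, T.IsRA (l c)) → (∀ c, ‖l c‖ ≤ B) →
        |T.val χ (∑ c, l c)| ≤ BS := fun l hl hln => by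
      refine ((isRA_sum fun c _ => hl c).abs_val_le χ).trans ((norm_sum_le _ _).trans ?_)
      refine (Finset.sum_le_sum fun c _ => hln c).trans ?_
      rw [Finset.sum_const, Finset.card_univ, Fintype.card_fin, nsmul_eq_mul, hBS]
      linarith
    have hpb : max (16 * p.e - T.val χ (S.Q U)) 0 ≤ BS := by
      rw [← State.val_pen hp hS hU]
      rcases Nat.eq_zero_or_pos p.r with hr | hr
      · exact absurd hp.r_pos (by simp [hr])
      · exact (le_abs_self _).trans ((hpen.abs_val_le χ).trans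
          (((hbd true ⟨0, hr⟩).2.2.2.2.2.2.2.2.2.2.2.2).trans (le_mul_of_one_le_left hB0 (by
            have : (0 : ℝ) ≤ p.r := p.r.cast_nonneg
            linarith))))
    have hstep := pen_step (C := (p.r : ℝ) * CQ) (u := 16 * p.e - T.val χ (S.Q U))
      (u' := 16 * p.e - T.val χ (S'.Q U)) hBS0 (by positivity) hs hs1
      (hlb _ (fun c => State.isRA_l1 hp hS hU hy) fun c => (hbd true c).2.2.2.2.2.2.2.2.2.2.1)
      (hlb _ (fun c => State.isRA_l2 hp hS hU hy) fun c => (hbd true c).2.2.2.2.2.2.2.2.2.2.2.1)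
      hpb (by rw [← hL1, ← hL2]; linarith)
    rw [← State.val_pen hp hS hU, ← State.val_pen hp hI hU, ← hL1, ← hL2, ← hCP] at hstep
    linarith
  have htr := T.tr_mono hkey
  simp only [T.tr_add, T.tr_smul, T.tr_one, mul_one] at htr
  have hsG := Finset.sum_le_sum (fun c (_ : c ∈ Finset.univ) => add_le_add (hpartG true c) (hpartG false c))
  simp only [Finset.sum_add_distrib, ← Finset.mul_sum, Finset.sum_const, Finset.card_univ,
    Fintype.card_fin, nsmul_eq_mul] at hsG
  have hww : ∑ c, T.tr (S'.w c * S'.w c) = ∑ c, T.tr (S.w c * S.w c) +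
      2 * s * ∑ c, T.tr (S.w c * S.h y c) + s ^ 2 * ∑ c, T.tr (S.h y c * S.h y c) := by
    rw [Finset.mul_sum, Finset.mul_sum, ← Finset.sum_add_distrib, ← Finset.sum_add_distrib]
    refine Finset.sum_congr rfl fun c _ => ?_
    show T.tr ((S.w c + s • S.h y c) * (S.w c + s • S.h y c)) = _
    simp only [add_mul, mul_add, smul_mul_assoc, mul_smul_comm, T.tr_add, T.tr_smul]
    rw [T.tr_comm (S.h y c) (S.w c)]
    ring
  simp only [State.pot, State.lin, State.qde, hww, Finset.sum_add_distrib, ← hL1, ← hL2,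
    ← Finset.mul_sum] at htr hsG ⊢
  linarith

end Vale.Agent.P078.Sharp
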