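import Mathlib
import Vale.Agent.P078.Core
import Vale.Agent.P078.Sharp.Step

/-!
# One step of the two-sided walk decreases the potential by a fixed amount
-/

open scoped ComplexOrder InnerProductSpace Topology
open Filter

set_option linter.unusedSectionVars false

namespace Vale.Agent.P078.Sharp

universe u

variable {M : Type u} [CStarAlgebra M] [PartialOrder M] [StarOrderedRing M]

open TracialMasa hiding Colour DirData State omr_square third_order_identity exists_basic_bounds exists_dir_valid exists_move_bounds exists_F_expand exists_G_expand exists_expand exists_decrement exists_finished_state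

variable {p : Prm}

/-- A move decreasing the potential by a fixed amount. -/
lemma exists_decrement (hp : p.Good) (T : TracialMasa M) :
    ∃ d : ℝ, 0 < d ∧ ∀ U : Bool → M, (∀ b, Adm T (U b)) → ∀ S : State T p, S.Inv U →
      p.δ ≤ T.tr S.alive → T.tr S.alive ≤ 2 * T.tr (S.good U) →
        ∃ S' : State T p, S'.Inv U ∧ S'.pot U ≤ S.pot U - d := by
  obtain ⟨Kb, hKb, hvalid⟩ := exists_dir_valid (M := M) hp
  have hz0 : 0 < 1 / p.K := by
    have := hp.K_pos
    positivity
  obtain ⟨Cy, c1, hCy, hc1, hdir⟩ := DirData.exists_dir (omCyclic T) p.r (νp := p.νp) hKb hz0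
    hp.δ_pos hp.νp_pos
  obtain ⟨C, s0, hC, hs0, hexp⟩ := exists_expand (M := M) hp Cy hCy
  set s := min s0 (c1 / (2 * (C + 1))) with hs
  have hspos : 0 < s := lt_min hs0 (by positivity)
  refine ⟨c1 / 2 * s ^ 2, by positivity, fun U hU S hS hmass hgood => ?_⟩
  obtain ⟨y, hyA, hys, hjy, hyn, hq⟩ := hdir (S.dir U) (hvalid T U hU S hS hmass hgood)
  have hy : ∀ c, T.IsRA (y c) := fun c => ⟨hyA c, hys c⟩
  rw [← State.qde_eq_quad hp hS hU hy] at hq
  have hfin : ∀ z : Fin p.r → M, (∀ c, T.IsRA (z c)) → (∀ c, S.j U c * z c = z c) →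
      (∀ c, ‖z c‖ ≤ Cy) → S.lin U z ≤ 0 → S.qde U z ≤ -c1 →
      ∃ S' : State T p, S'.Inv U ∧ S'.pot U ≤ S.pot U - c1 / 2 * s ^ 2 := by
    intro z hz hjz hzn hlin hqz
    obtain ⟨S', hI, hle⟩ := hexp T U hU S hS z hz hjz hzn s hspos.le (min_le_left _ _)
    refine ⟨S', hI, hle.trans ?_⟩
    have h1 : s * S.lin U z ≤ 0 := mul_nonpos_of_nonneg_of_nonpos hspos.le hlin
    have h2 : s ^ 2 * S.qde U z ≤ s ^ 2 * -c1 := mul_le_mul_of_nonneg_left hqz (sq_nonneg s)
    have h3 : s * (2 * (C + 1)) ≤ c1 := (le_div_iff₀ (by positivity)).1 (min_le_right _ _)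
    have h4 : C * s ^ 3 ≤ c1 / 2 * s ^ 2 := by
      have : C * s ≤ c1 / 2 := by nlinarith
      have := mul_le_mul_of_nonneg_right this (sq_nonneg s)
      linarith
    linarith
  rcases le_total (S.lin U y) 0 with h | h
  · exact hfin y hy hjy hyn h hq
  · refine hfin (fun c => -y c) (fun c => (hy c).neg) (fun c => ?_) (fun c => ?_) ?_ ?_
    · rw [mul_neg]; exact congrArg Neg.neg (hjy c)
    · rw [norm_neg]; exact hyn c
    · rw [State.lin_neg]; linarith
    · rw [State.qde_neg]; exact hq

end Vale.Agent.P078.Sharp
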