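import Mathlib
import Vale.Agent.P078.Sharp.Decrement
import Vale.Agent.P078.Finish

/-!
# The two-sided core from a decrement of the potential

The walk is started at equal weights and run with a decrement lemma, which is taken as the
hypothesis `Decrements`, until almost nothing is alive. Its final state gives one partition
paving `x` and `-x` at accuracy `31 e` with `r ≤ C / e²` pieces.
-/

open scoped ComplexOrder InnerProductSpace Topology
open Filter

set_option linter.unusedSectionVars false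

namespace Vale.Agent.P078.Sharp

universe u

variable {M : Type u} [CStarAlgebra M] [PartialOrder M] [StarOrderedRing M]

open TracialMasa hiding Colour DirData omr_square third_order_identity

/-- A move decreasing the potential by a fixed amount exists while many sites are good. -/
def Decrements (p : Prm) : Prop :=
  ∀ (M : Type u) [CStarAlgebra M] [PartialOrder M] [StarOrderedRing M] (T : TracialMasa M),
    ∃ d : ℝ, 0 < d ∧ ∀ U : Bool → M, (∀ b, Adm T (U b)) → ∀ S : State T p, S.Inv U →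
      p.δ ≤ T.tr S.alive → T.tr S.alive ≤ 2 * T.tr (S.good U) →
        ∃ S' : State T p, S'.Inv U ∧ S'.pot U ≤ S.pot U - d

/-- The parameters of the two-sided walk. -/
noncomputable def corePrm (e δ a : ℝ) : Prm where
  r := ⌈4 * 10 ^ 14 / e ^ 2⌉₊
  e := e
  θ := 1 / 10 ^ 14
  a := a
  δ := δ
  νp := a

lemma corePrm_good {e δ a : ℝ} (he : 0 < e) (he1 : e ≤ 1 / 10000) (hδ : 0 < δ) (ha : 0 < a) :
    (corePrm e δ a).Good where
  e_pos := he
  e_le := he1
  θ_pos := by simp [corePrm]
  θ_le := le_rfl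
  a_pos := ha
  δ_pos := hδ
  νp_pos := ha
  r_ge := by
    simp only [corePrm]
    calc (4 : ℝ) = 4 * 10 ^ 14 / e ^ 2 * (1 / 10 ^ 14 * e ^ 2) := by field_simp
      _ ≤ _ := mul_le_mul_of_nonneg_right (Nat.le_ceil _) (by positivity)

lemma corePrm_r_le {e : ℝ} (he : 0 < e) (he1 : e ≤ 1) :
    (⌈4 * 10 ^ 14 / e ^ 2⌉₊ : ℝ) ≤ 5 * 10 ^ 14 / e ^ 2 := by
  refine (Nat.ceil_lt_add_one (by positivity)).le.trans ?_
  have h2 : 1 ≤ 1 * 10 ^ 14 / e ^ 2 := by
    rw [le_div_iff₀ (by positivity)]
    nlinarith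
  have e5 : 5 * 10 ^ 14 / e ^ 2 = 4 * 10 ^ 14 / e ^ 2 + 1 * 10 ^ 14 / e ^ 2 := by ring
  linarith

namespace Prm

variable {p : Prm} (hp : p.Good)
include hp

lemma f_start : p.f (1 / p.r) ≤ p.e / 4 := by
  have h1 := hp.r_inv_le
  have he := hp.e_pos
  have hθ := hp.θ_pos
  have hd : (1 : ℝ) / p.r ∈ p.dom := by
    refine ⟨by positivity, h1.trans ?_⟩
    nlinarith [mul_le_mul_of_nonneg_left (pow_le_one₀ he.le (hp.e_le.trans (by norm_num)) :
      p.e ^ 2 ≤ 1) hθ.le]
  calc p.f (1 / p.r) ≤ p.K * (1 / p.r) := f_le_K_mul hp hd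
    _ ≤ p.K * (p.θ * p.e ^ 2 / 4) := mul_le_mul_of_nonneg_left h1 hp.K_pos.le
    _ = _ := by rw [K]; field_simp

lemma one_le_f_end {w : ℝ} (h1 : p.θ ≤ w) (h2 : w ≤ 2 * p.θ) : 1 ≤ (1 + 31 * p.e) * p.f w := by
  have he := hp.e_pos
  have he1 := hp.e_le
  have hθ := hp.θ_pos
  have hd : w ∈ p.dom := ⟨hθ.le.trans h1, h2⟩
  have hu := (u_mem hp hd).1
  have hK : 1 / p.e ≤ p.K * w := by
    rw [← hp.K_mul_θ]; exact mul_le_mul_of_nonneg_left h1 hp.K_pos.le
  have hu2 : 13 / 16 * (1 / p.e) ≤ p.u w := by linarith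
  have hu0 : 0 < p.u w := by linarith [one_le_u hp hd]
  have h3 : 1 / p.u w ≤ 2 * p.e := by
    rw [div_le_iff₀ hu0]
    have h4 := mul_le_mul_of_nonneg_left hu2 (show 0 ≤ 2 * p.e by linarith)
    have h5 : 2 * p.e * (13 / 16 * (1 / p.e)) = 13 / 8 := by field_simp; ring
    linarith
  rw [f, mul_div_assoc', le_div_iff₀ hp.S_pos, one_mul]
  calc p.S ≤ (1 + 31 * p.e) * (1 - 2 * p.e) := by rw [S]; nlinarith
    _ ≤ _ := mul_le_mul_of_nonneg_left (by linarith) (by linarith)

end Prm

namespace State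

variable {T : TracialMasa M} {p : Prm} {U : Bool → M}

/-- The initial state. -/
noncomputable def start (T : TracialMasa M) (p : Prm) : State T p where
  w := fun _ => ((1 : ℝ) / p.r) • (1 : M)
  R := fun _ _ => 0
  fin := fun _ => 0

lemma start_alive : (start T p).alive = 1 := by simp [alive, start]

lemma start_H_ge (hp : p.Good) (hU : ∀ b, Adm T (U b)) (b : Bool) (c : Fin p.r) :
    (1 - p.e / 2) • (1 : M) ≤ (start T p).H U b c := by
  have hUs := IsSelfAdjoint.of_nonneg (hU b).nonneg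
  have hd : (1 : ℝ) / p.r ∈ p.dom := by
    refine ⟨by positivity, hp.r_inv_le.trans ?_⟩
    have he := hp.e_pos
    nlinarith [mul_le_mul_of_nonneg_left (pow_le_one₀ he.le (hp.e_le.trans (by norm_num)) :
      p.e ^ 2 ≤ 1) hp.θ_pos.le, hp.θ_pos]
  have hF : cfc p.Fc (((1 : ℝ) / p.r) • (1 : M)) = p.f (1 / p.r) • (1 : M) := by
    rw [← Algebra.algebraMap_eq_smul_one, cfc_algebraMap _ p.Fc, Prm.Fc, Prm.cl_eq hp hd,
      Algebra.algebraMap_eq_smul_one]
  show _ ≤ 1 - U b * cfc p.Fc (((1 : ℝ) / p.r) • (1 : M)) * U b + 0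
  rw [hF, add_zero, mul_smul_comm, mul_one, smul_mul_assoc, sub_smul, one_smul]
  refine sub_le_sub le_rfl ?_
  refine (smul_le_smul_of_nonneg_left (hU b).sq_le (Prm.f_mem hp hd).1).trans ?_
  rw [smul_smul]
  exact smul_le_smul_of_nonneg_right (by linarith [Prm.f_start hp]) zero_le_one

lemma start_inv (hp : p.Good) (ha : p.a ≤ 1 / 2) (hU : ∀ b, Adm T (U b)) : (start T p).Inv U := by
  have hθ := hp.θ_pos
  have h1 : (1 : ℝ) / p.r ≤ p.θ := by
    refine hp.r_inv_le.trans ?_
    have he := hp.e_pos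
    nlinarith [mul_le_mul_of_nonneg_left (pow_le_one₀ he.le (hp.e_le.trans (by norm_num)) :
      p.e ^ 2 ≤ 1) hθ.le]
  exact
    { w_mem := fun c => T.real_smul_mem_A (one_mem _) _
      w_nonneg := fun c => smul_nonneg (by positivity) zero_le_one
      w_le := fun c => smul_le_smul_of_nonneg_right (h1.trans (by linarith)) zero_le_one
      R_nonneg := fun b c => le_rfl
      fin_mem := fun c => zero_mem _
      fin_proj := fun c => IsStarProjection.zero M
      fin_orth := fun c d _ => mul_zero _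
      fin_le := fun c => by
        show p.θ • (0 : M) ≤ _ * (0 : M)
        simp
      w_alive := fun c => by
        show ((1 : ℝ) / p.r) • (1 : M) * (start T p).alive ≤ p.θ • (start T p).alive
        rw [start_alive, mul_one]
        exact smul_le_smul_of_nonneg_right h1 zero_le_one
      barrier := fun b c => (smul_le_smul_of_nonneg_right (by linarith [hp.e_le])
        zero_le_one).trans (start_H_ge hp hU b c) }

lemma start_t_le (hp : p.Good) (ha : p.a ≤ 1 / 2) (hU : ∀ b, Adm T (U b)) (b : Bool)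
    (c : Fin p.r) (χ : T.Chi) : T.val χ ((start T p).t U b c) ≤ 1 + p.e := by
  have hS := start_inv (T := T) hp ha hU
  have he := hp.e_pos
  have he1 := hp.e_le
  set S0 := start T p
  have hUs := IsSelfAdjoint.of_nonneg (hU b).nonneg
  have hb : 0 < 1 - p.e / 2 := by linarith
  have hsa := isSelfAdjoint_H hp hS hU b c
  have hG : S0.G U b c = capInv (1 - p.e / 2) (S0.H U b c) := by
    have h1 := (capInv_mul_self hp.a_pos hsa (hS.barrier b c)).1
    have h2 := (capInv_mul_self hb hsa (start_H_ge hp hU b c)).2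
    calc S0.G U b c = S0.G U b c * (S0.H U b c * capInv (1 - p.e / 2) (S0.H U b c)) := by
          rw [h2, mul_one]
      _ = S0.G U b c * S0.H U b c * capInv (1 - p.e / 2) (S0.H U b c) := (mul_assoc _ _ _).symm
      _ = _ := by rw [G, h1, one_mul]
  have hGle : S0.G U b c ≤ (1 + p.e) • (1 : M) := by
    rw [hG]
    refine (le_norm_smul_one (cfc_predicate _ _)).trans
      (smul_le_smul_of_nonneg_right ((norm_capInv_le hb _).trans ?_) zero_le_one)
    rw [inv_le_iff_one_le_mul₀ hb]
    nlinarith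
  have hY := Sharp.E_mono' T (hUs.conjugate_le_conjugate hGle)
  rw [mul_smul_comm, mul_one, smul_mul_assoc, Sharp.E_smul_real, (hU b).E_sq] at hY
  have h := val_mono χ (T.E_mem _) (T.real_smul_mem_A (one_mem _) _) hY
  rwa [val_smul_one] at h

lemma start_pen (hp : p.Good) (ha : p.a ≤ 1 / 2) (hU : ∀ b, Adm T (U b)) :
    (start T p).pen U = 0 := by
  have hS := start_inv (T := T) hp ha hU
  set S0 := start T p
  refine (isRA_pen hp hS hU).eq_of_val isRA_zero fun χ => ?_
  rw [val_pen hp hS hU, val_zero]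
  refine max_eq_right ?_
  have hr := hp.r_pos
  have he := hp.e_pos
  rw [val_Q hp hS hU]
  have hw : ∀ c, T.val χ (S0.w c) = 1 / p.r := fun c => val_smul_one χ _
  have hterm : ∀ c, 18 * p.e / p.r ≤ Sharp.qual p.e (T.val χ (S0.w c)) (T.val χ (S0.t U true c))
      (T.val χ (S0.t U false c)) (T.val χ (S0.F c)) (p.N (T.val χ (S0.w c))) := fun c => by
    have hd := val_w_dom hS c χ
    obtain ⟨hN, -⟩ := Prm.N_mem hp hd
    have hsc : ∀ b, scav (T.val χ (S0.t U b c)) (T.val χ (S0.F c)) ≤ 1 + p.e := fun b => by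
      refine (div_le_self (val_t_nonneg hp hS hU b c χ) ?_).trans (start_t_le hp ha hU b c χ)
      nlinarith [mul_nonneg (val_F_nonneg hp hS c χ) (val_t_nonneg hp hS hU b c χ)]
    unfold Sharp.qual
    rw [hw c] at hN ⊢
    have h1 := mul_le_mul_of_nonneg_left (hsc true) (show 0 ≤ 1 / (p.r : ℝ) by positivity)
    have h2 := mul_le_mul_of_nonneg_left (hsc false) (show 0 ≤ 1 / (p.r : ℝ) by positivity)
    have e1 : 18 * p.e / p.r = 18 * p.e * (1 / p.r) := by ring
    rw [e1]
    linarith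
  have hs := Finset.sum_le_sum (fun c (_ : c ∈ Finset.univ) => hterm c)
  rw [Finset.sum_const, Finset.card_univ, Fintype.card_fin, nsmul_eq_mul] at hs
  have e2 : (p.r : ℝ) * (18 * p.e / p.r) = 18 * p.e := by field_simp
  rw [e2] at hs
  linarith

lemma start_pot (hp : p.Good) (ha : p.a ≤ 1 / 2) (hU : ∀ b, Adm T (U b)) :
    (start T p).pot U ≤ 2 * p.r * p.a := by
  have hS := start_inv (T := T) hp ha hU
  set S0 := start T p
  have hG : ∀ b c, p.a ^ 2 * T.tr (S0.G U b c) + T.tr (S0.R b c) ≤ p.a := fun b c => by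
    have h := T.tr_mono ((le_norm_smul_one (IsSelfAdjoint.of_nonneg
      (G_nonneg hp hS hU b c))).trans
        (smul_le_smul_of_nonneg_right (norm_capInv_le hp.a_pos _) zero_le_one))
    rw [T.tr_smul, T.tr_one, mul_one, ← one_div] at h
    show _ + T.tr (0 : M) ≤ _
    rw [show T.tr (0 : M) = 0 by simp [TracialMasa.tr], add_zero]
    refine (mul_le_mul_of_nonneg_left h (sq_nonneg _)).trans_eq ?_
    have := hp.a_pos
    field_simp
  have hw2 : 0 ≤ p.νp * ∑ c, T.tr (S0.w c * S0.w c) := by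
    refine mul_nonneg hp.νp_pos.le (Finset.sum_nonneg fun c _ => T.tr_nonneg ?_)
    exact mul_nonneg_A (hS.w_mem c) (hS.w_mem c) (hS.w_nonneg c) (hS.w_nonneg c)
  have hsum := Finset.sum_le_sum (fun c (_ : c ∈ Finset.univ) => add_le_add (hG true c) (hG false c))
  rw [Finset.sum_const, Finset.card_univ, Fintype.card_fin, nsmul_eq_mul] at hsum
  have hpz : T.tr (S0.alive * (S0.pen U * S0.pen U)) = 0 := by
    rw [show S0.pen U = 0 from start_pen hp ha hU, mul_zero, mul_zero]
    simp [TracialMasa.tr]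
  simp only [pot, hpz]
  linarith

lemma pot_bounds (hp : p.Good) (hU : ∀ b, Adm T (U b)) {S : State T p} (hS : S.Inv U)
    (hpot : S.pot U ≤ 2 * p.r * p.a) :
    (∑ c, (T.tr (S.R true c) + T.tr (S.R false c))) ≤ p.r * (2 * p.a + p.νp) ∧
      T.tr (S.alive * (S.pen U * S.pen U)) ≤ p.r * (2 * p.a + p.νp) ∧
      -((p.r : ℝ) * p.νp) ≤ S.pot U := by
  have hG : ∀ b c, 0 ≤ p.a ^ 2 * T.tr (S.G U b c) := fun b c =>
    mul_nonneg (sq_nonneg _) (T.tr_nonneg (G_nonneg hp hS hU b c))
  have hR : ∀ b c, 0 ≤ T.tr (S.R b c) := fun b c => T.tr_nonneg (hS.R_nonneg b c)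
  have hP : 0 ≤ T.tr (S.alive * (S.pen U * S.pen U)) := by
    have hA := isRA_alive hS
    have hpn := isRA_pen hp hS hU
    refine T.tr_nonneg (((hA.mul (hpn.mul hpn))).nonneg_of_val fun χ => ?_)
    rw [hA.val_mul χ (hpn.mul hpn), hpn.val_mul χ hpn]
    exact mul_nonneg (hA.val_proj_mem χ (alive_proj hS)).1 (mul_self_nonneg _)
  have hw : ∑ c, T.tr (S.w c * S.w c) ≤ p.r := by
    refine (Finset.sum_le_sum fun c _ => show _ ≤ (1 : ℝ) from ?_).trans_eq (by simp)
    have hwR := isRA_w hS c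
    refine (T.tr_mono ((hwR.mul hwR).le_of_val isRA_one fun χ => ?_)).trans_eq T.tr_one
    rw [hwR.val_mul χ hwR, val_one]
    obtain ⟨h0, h1⟩ := val_w hS c χ
    nlinarith [hp.θ_le]
  have hw' := mul_le_mul_of_nonneg_left hw hp.νp_pos.le
  have hsum : 0 ≤ ∑ c, (p.a ^ 2 * T.tr (S.G U true c) + p.a ^ 2 * T.tr (S.G U false c)) :=
    Finset.sum_nonneg fun c _ => add_nonneg (hG true c) (hG false c)
  have hsumR : 0 ≤ ∑ c, (T.tr (S.R true c) + T.tr (S.R false c)) :=
    Finset.sum_nonneg fun c _ => add_nonneg (hR true c) (hR false c)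
  have he : ∑ c, ((p.a ^ 2 * T.tr (S.G U true c) + T.tr (S.R true c)) +
        (p.a ^ 2 * T.tr (S.G U false c) + T.tr (S.R false c))) =
      ∑ c, (p.a ^ 2 * T.tr (S.G U true c) + p.a ^ 2 * T.tr (S.G U false c)) +
        ∑ c, (T.tr (S.R true c) + T.tr (S.R false c)) := by
    rw [← Finset.sum_add_distrib]
    exact Finset.sum_congr rfl fun c _ => by ring
  simp only [pot, he] at hpot ⊢
  refine ⟨?_, ?_, ?_⟩ <;> linarith

/-- The walk, run until almost nothing is alive. -/
lemma exists_finished (hp : p.Good) (hdec : Decrements.{u} p) (ha : p.a ≤ 1 / 2)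
    (hbud : (p.r : ℝ) * (2 * p.a + p.νp) ≤ p.e ^ 2 * p.δ / 2) (hU : ∀ b, Adm T (U b)) :
    ∃ S : State T p, S.Inv U ∧ T.tr S.alive ≤ p.δ ∧
      (∑ c, (T.tr (S.R true c) + T.tr (S.R false c))) ≤ p.r * (2 * p.a + p.νp) := by
  obtain ⟨d, hd, hstep⟩ := hdec M T
  have he := hp.e_pos
  have he1 := hp.e_le
  by_contra hcon
  push Not at hcon
  have hiter : ∀ n : ℕ, ∃ S : State T p, S.Inv U ∧ S.pot U ≤ 2 * p.r * p.a - n * d := by
    intro n
    induction n with
    | zero => exact ⟨start T p, start_inv hp ha hU, by simpa using start_pot hp ha hU⟩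
    | succ n ih =>
      obtain ⟨S, hI, hle⟩ := ih
      have hnd : 0 ≤ (n : ℝ) * d := by positivity
      obtain ⟨hR, hPsi, -⟩ := pot_bounds hp hU hI (by linarith)
      have halive : p.δ < T.tr S.alive := by
        by_contra h
        exact absurd hR (not_le.2 (hcon S hI (not_lt.1 h)))
      have hst : T.tr S.alive ≤ 2 * T.tr (S.good U) := by
        have h1 := good_trace hp hI hU
        have h2 : T.tr (S.alive * (S.pen U * S.pen U)) / (4 * p.e ^ 2) ≤ p.δ / 8 := by
          rw [div_le_iff₀ (by positivity)]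
          linarith
        have h3 : 2 / p.e * ∑ c, (T.tr (S.R true c) + T.tr (S.R false c)) ≤ p.δ / 8 := by
          rw [div_mul_eq_mul_div, div_le_iff₀ he]
          have h4 : p.e ^ 2 * p.δ ≤ p.e / 8 * p.δ :=
            mul_le_mul_of_nonneg_right (by nlinarith) hp.δ_pos.le
          linarith
        have := hp.δ_pos
        linarith
      obtain ⟨S', hI', hle'⟩ := hstep U hU S hI halive.le hst
      exact ⟨S', hI', by push_cast; linarith⟩
  obtain ⟨n, hn⟩ := exists_nat_gt ((p.r * (2 * p.a + p.νp)) / d)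
  obtain ⟨S, hI, hle⟩ := hiter n
  obtain ⟨-, -, hlow⟩ := pot_bounds hp hU hI (hle.trans (by
    have : 0 ≤ (n : ℝ) * d := by positivity
    linarith))
  rw [div_lt_iff₀ hd] at hn
  linarith

/-- A finished colour satisfies the barrier inequality. -/
lemma fin_le_barrier (hp : p.Good) (hU : ∀ b, Adm T (U b)) {S : State T p} (hS : S.Inv U)
    (b : Bool) (c : Fin p.r) :
    U b * S.fin c * U b ≤ (1 + 31 * p.e) • (1 : M) + (1 + 31 * p.e) • S.R b c := by
  have he := hp.e_pos
  have hF := isRA_F hS c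
  have hfR := isRA_of_proj (hS.fin_mem c) (hS.fin_proj c)
  have hUs := IsSelfAdjoint.of_nonneg (hU b).nonneg
  have h1 : S.fin c ≤ (1 + 31 * p.e) • S.F c := by
    refine hfR.le_of_val (hF.smul _) fun χ => ?_
    rw [hF.val_smul, val_F hp hS]
    rcases hfR.val_proj χ (hS.fin_proj c) with hv | hv
    · rw [hv]; exact mul_nonneg (by linarith) (Prm.f_mem hp (val_w_dom hS c χ)).1
    · rw [hv]
      have h2 := val_mono χ (hfR.smul p.θ).mem ((isRA_w hS c).mul hfR).mem (hS.fin_le c)
      rw [hfR.val_smul, (isRA_w hS c).val_mul χ hfR, hv, mul_one, mul_one] at h2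
      exact Prm.one_le_f_end hp h2 (val_w hS c χ).2
  have h4 : U b * S.F c * U b ≤ 1 + S.R b c := by
    have h5 : (0 : M) ≤ S.H U b c := (smul_nonneg hp.a_pos.le zero_le_one).trans (hS.barrier b c)
    have e : S.H U b c = (1 + S.R b c) - U b * S.F c * U b := by
      simp only [H, F]; abel
    rw [e, sub_nonneg] at h5
    exact h5
  refine (hUs.conjugate_le_conjugate h1).trans ?_
  rw [mul_smul_comm, smul_mul_assoc, ← smul_add]
  exact smul_le_smul_of_nonneg_left h4 (by linarith)

end State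

/-- The two square roots `√(1 ± x)`. -/
noncomputable def twoRoots (x : M) (b : Bool) : M := CFC.sqrt (1 + if b then x else -x)

lemma twoRoots_spec (T : TracialMasa M) {x : M} (hx : IsSelfAdjoint x) (hn : ‖x‖ ≤ 1)
    (hE : T.E x = 0) (b : Bool) :
    Adm T (twoRoots x b) ∧ twoRoots x b * twoRoots x b = 1 + (if b then x else -x) := by
  set y := if b then x else -x with hy
  have hys : IsSelfAdjoint y := by cases b <;> simp [hy, hx, hx.neg]
  have hyn : ‖y‖ ≤ 1 := by cases b <;> simp [hy, hn]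
  have hyE : T.E y = 0 := by cases b <;> simp [hy, hE, T.E_neg]
  have h2 : -y ≤ (1 : M) := (le_norm_smul_one hys.neg).trans (by
    rw [norm_neg]
    exact (smul_le_smul_of_nonneg_right hyn zero_le_one).trans_eq (one_smul _ _))
  have hT0 : 0 ≤ 1 + y := by
    have h3 := sub_nonneg.2 h2
    rwa [sub_neg_eq_add] at h3
  have hU : 0 ≤ twoRoots x b := CFC.sqrt_nonneg _
  have hU2 : twoRoots x b * twoRoots x b = 1 + y := CFC.sqrt_mul_sqrt_self _ hT0
  have hle : y ≤ (1 : M) := (le_norm_smul_one hys).trans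
    ((smul_le_smul_of_nonneg_right hyn zero_le_one).trans_eq (one_smul _ _))
  refine ⟨⟨hU, ?_, ?_, ?_⟩, hU2⟩
  · rw [hU2, two_smul]; exact add_le_add le_rfl hle
  · have h1 : ‖star (twoRoots x b) * twoRoots x b‖ ≤ 2 := by
      rw [(IsSelfAdjoint.of_nonneg hU).star_eq, hU2]
      refine (norm_add_le _ _).trans ?_
      linarith [(IsStarProjection.one M).norm_le]
    rw [CStarRing.norm_star_mul_self] at h1
    nlinarith [norm_nonneg (twoRoots x b)]
  · rw [hU2, T.E_add, hyE, T.E_of_mem (one_mem _), add_zero]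

/-- The partition of a state: the finished colours, the first one completed by the alive part. -/
noncomputable def statePart {T : TracialMasa M} {p : Prm} {U : Bool → M} (S : State T p)
    (hI : S.Inv U) (c0 : Fin p.r) : T.Part where
  n := p.r
  e := fun c => if c = c0 then S.fin c + S.alive else S.fin c
  mem := fun c => by
    split_ifs
    · exact add_mem (hI.fin_mem c) (State.isRA_alive hI).mem
    · exact hI.fin_mem c
  proj := fun c => by
    have hAp := State.alive_proj hI
    split_ifs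
    · refine ⟨?_, (hI.fin_proj c).isSelfAdjoint.add hAp.isSelfAdjoint⟩
      show (S.fin c + S.alive) * (S.fin c + S.alive) = S.fin c + S.alive
      rw [add_mul, mul_add, mul_add, (hI.fin_proj c).isIdempotentElem.eq, hAp.isIdempotentElem.eq,
        T.A_comm _ (hI.fin_mem c) _ (State.isRA_alive hI).mem, State.alive_mul_fin hI, add_zero,
        zero_add]
    · exact hI.fin_proj c
  orth := fun c d hcd => by
    have hfa : ∀ c, S.fin c * S.alive = 0 := fun c => by
      rw [T.A_comm _ (hI.fin_mem c) _ (State.isRA_alive hI).mem, State.alive_mul_fin hI]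
    split_ifs with h1 h2 h2
    · exact absurd (h1.trans h2.symm) hcd
    · rw [add_mul, hI.fin_orth c d hcd, State.alive_mul_fin hI, add_zero]
    · rw [mul_add, hI.fin_orth c d hcd, hfa, add_zero]
    · exact hI.fin_orth c d hcd
  sum_one := by
    have : ∀ c, (if c = c0 then S.fin c + S.alive else S.fin c) =
        S.fin c + (if c = c0 then S.alive else 0) := fun c => by
      split_ifs <;> simp
    rw [Finset.sum_congr rfl fun c _ => this c, Finset.sum_add_distrib, Finset.sum_ite_eq',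
      if_pos (Finset.mem_univ _), State.alive, add_sub_cancel]

/-- One side of the paving given by a state. -/
lemma state_side {T : TracialMasa M} {p : Prm} (hp : p.Good) {x : M} (hx : IsSelfAdjoint x)
    (hxn : ‖x‖ ≤ 1) (hEx : T.E x = 0) {S : State T p} (hI : S.Inv (twoRoots x)) (c0 : Fin p.r)
    (b : Bool) :
    T.tr ((pinch (statePart S hI c0) (if b then x else -x) - (31 * p.e) • (1 : M))⁺) ≤
      2 * (∑ c, (T.tr (S.R true c) + T.tr (S.R false c))) + 2 * T.tr S.alive := by
  have hU : ∀ b, Adm T (twoRoots x b) := fun b => (twoRoots_spec T hx hxn hEx b).1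
  obtain ⟨hadm, hU2⟩ := twoRoots_spec T hx hxn hEx b
  have hAp := State.alive_proj hI
  have he := hp.e_pos
  have he1 := hp.e_le
  have hU0 := hadm.nonneg
  have hUs := IsSelfAdjoint.of_nonneg hU0
  set U := twoRoots x with hUdef
  set y := if b then x else -x with hy
  have hys : IsSelfAdjoint y := by
    cases b
    · simpa [hy] using hx.neg
    · simpa [hy] using hx
  set W : Fin p.r → M := fun c =>
    (1 + 31 * p.e) • S.R b c + if c = c0 then U b * S.alive * U b else 0 with hW
  refine (TracialMasa.finish T hys hU0 hU2 (show 0 < 31 * p.e by positivity) (statePart S hI c0) W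
    (fun c => ?_) (fun c => ?_)).trans ?_
  · simp only [hW]
    refine add_nonneg (smul_nonneg (by linarith) (hI.R_nonneg b c)) ?_
    split_ifs
    · exact hUs.conjugate_nonneg hAp.nonneg
    · exact le_rfl
  · change Fin p.r at c
    show U b * (if c = c0 then S.fin c + S.alive else S.fin c) * U b ≤ _
    have hfin := State.fin_le_barrier hp hU hI b c
    simp only [hW]
    split_ifs
    · rw [mul_add, add_mul, ← add_assoc]
      exact add_le_add hfin le_rfl
    · rw [add_zero]; exact hfin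
  · show ∑ c, T.tr (W c) ≤ _
    simp only [hW, T.tr_add, T.tr_smul, Finset.sum_add_distrib, ← Finset.mul_sum]
    rw [← T.tr_sum Finset.univ (fun c => if c = c0 then U b * S.alive * U b else 0),
      Finset.sum_ite_eq', if_pos (Finset.mem_univ _), T.tr_comm, ← mul_assoc, T.tr_comm]
    have h1 : T.tr (S.alive * (U b * U b)) ≤ 2 * T.tr S.alive := by
      refine (T.tr_mul_mono_right hAp.nonneg hadm.sq_le).trans_eq ?_
      rw [mul_smul_comm, mul_one, T.tr_smul]
    have hR0 : ∀ b c, 0 ≤ T.tr (S.R b c) := fun b c => T.tr_nonneg (hI.R_nonneg b c)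
    have hRb : ∑ c, T.tr (S.R b c) ≤ ∑ c, T.tr (S.R true c) + ∑ c, T.tr (S.R false c) := by
      have h2 : ∀ b, 0 ≤ ∑ c, T.tr (S.R b c) := fun b => Finset.sum_nonneg fun c _ => hR0 b c
      cases b <;> linarith [h2 true, h2 false]
    have h5 : (1 + 31 * p.e) * ∑ c, T.tr (S.R b c) ≤ 2 * ∑ c, T.tr (S.R b c) :=
      mul_le_mul_of_nonneg_right (by linarith) (Finset.sum_nonneg fun c _ => hR0 b c)
    linarith

/-- A state with small damage and small alive part paves `x`. -/
lemma paved_of_state {T : TracialMasa M} {p : Prm} (hp : p.Good) {x : M} (hx : IsSelfAdjoint x)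
    (hxn : ‖x‖ ≤ 1) (hEx : T.E x = 0) {S : State T p} (hI : S.Inv (twoRoots x)) (c0 : Fin p.r)
    {δ0 : ℝ} (hsmall : 4 * (∑ c, (T.tr (S.R true c) + T.tr (S.R false c))) +
      4 * T.tr S.alive ≤ δ0) :
    T.Paved x (31 * p.e) p.r δ0 := by
  set P := statePart S hI c0
  have h1 := state_side hp hx hxn hEx hI c0 true
  have h2 := state_side hp hx hxn hEx hI c0 false
  simp only [if_true, Bool.false_eq_true, if_false] at h1 h2
  set lam := 31 * p.e
  refine ⟨P, le_rfl, (pinch P x - lam • (1 : M))⁺ + (pinch P (-x) - lam • (1 : M))⁺,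
    add_nonneg (CFC.posPart_nonneg _) (CFC.posPart_nonneg _), ?_, ?_, ?_⟩
  · rw [T.tr_add]; linarith
  · have hs : IsSelfAdjoint (pinch P x - lam • (1 : M)) :=
      (pinch_isSelfAdjoint P hx).sub ((IsSelfAdjoint.all lam).smul (.one M))
    rw [← sub_le_iff_le_add']
    exact (CFC.le_posPart hs).trans (le_add_of_nonneg_right (CFC.posPart_nonneg _))
  · have hs : IsSelfAdjoint (pinch P (-x) - lam • (1 : M)) :=
      (pinch_isSelfAdjoint P hx.neg).sub ((IsSelfAdjoint.all lam).smul (.one M))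
    rw [← pinch_neg, ← sub_le_iff_le_add']
    exact (CFC.le_posPart hs).trans (le_add_of_nonneg_left (CFC.posPart_nonneg _))

/-- The two-sided core. -/
theorem sharp_core_of_decrements (hdec : ∀ p : Prm, p.Good → Decrements.{u} p) :
    ∀ ε : ℝ, 0 < ε → ε ≤ 31 / 10000 → ∃ r : ℕ, (r : ℝ) ≤ 5 * 10 ^ 14 * 961 / ε ^ 2 ∧
      ∀ (M : Type u) [CStarAlgebra M] [PartialOrder M] [StarOrderedRing M] (T : TracialMasa M)
        (x : M), IsSelfAdjoint x → ‖x‖ ≤ 1 → T.E x = 0 → ∀ δ : ℝ, 0 < δ →
          T.Paved x ε r δ := by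
  intro ε hε hε1
  set e := ε / 31 with he_def
  have he : 0 < e := by positivity
  have he1 : e ≤ 1 / 10000 := by rw [he_def]; linarith
  refine ⟨⌈4 * 10 ^ 14 / e ^ 2⌉₊,
    (corePrm_r_le he (he1.trans (by norm_num))).trans (le_of_eq ?_), ?_⟩
  · rw [he_def]; ring
  intro M _ _ _ T x hx hxn hEx δ0 hδ0
  set r := ⌈4 * 10 ^ 14 / e ^ 2⌉₊ with hr_def
  set δ := δ0 / 16 with hδ_def
  have hδ : 0 < δ := by positivity
  set a := min (1 / 2) (e ^ 2 * δ / (6 * ((r : ℝ) + 1))) with ha_def
  have ha : 0 < a := lt_min (by norm_num) (by positivity)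
  have hgood := corePrm_good he he1 hδ ha
  have h1 : a * (6 * ((r : ℝ) + 1)) ≤ e ^ 2 * δ :=
    (le_div_iff₀ (by positivity)).1 (min_le_right _ _)
  have hbud : ((corePrm e δ a).r : ℝ) * (2 * (corePrm e δ a).a + (corePrm e δ a).νp) ≤
      (corePrm e δ a).e ^ 2 * (corePrm e δ a).δ / 2 := by
    show (r : ℝ) * (2 * a + a) ≤ e ^ 2 * δ / 2
    linarith
  obtain ⟨S, hI, hal, hR⟩ := State.exists_finished hgood (hdec _ hgood) (min_le_left _ _) hbud
    (fun b => (twoRoots_spec T hx hxn hEx b).1)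
  have hr0 : 0 < (corePrm e δ a).r := by exact_mod_cast hgood.r_pos
  have hR' : (∑ c, (T.tr (S.R true c) + T.tr (S.R false c))) ≤ δ := by
    refine hR.trans (hbud.trans ?_)
    show e ^ 2 * δ / 2 ≤ δ
    have := mul_le_of_le_one_left hδ.le (pow_le_one₀ he.le (by linarith) : e ^ 2 ≤ 1)
    linarith
  have hal' : T.tr S.alive ≤ δ := hal
  have hp := paved_of_state hgood hx hxn hEx hI ⟨0, hr0⟩ (δ0 := δ0)
    (by linarith)
  have hεe : 31 * (corePrm e δ a).e = ε := by show 31 * e = ε; rw [he_def]; ring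
  rw [hεe] at hp
  exact hp

/-- Two-sided paving at accuracy `ε` with at most `C / ε²` pieces in every tracial algebra. -/
theorem sharp_core :
    ∀ ε : ℝ, 0 < ε → ε ≤ 31 / 10000 → ∃ r : ℕ, (r : ℝ) ≤ 5 * 10 ^ 14 * 961 / ε ^ 2 ∧
      ∀ (M : Type u) [CStarAlgebra M] [PartialOrder M] [StarOrderedRing M] (T : TracialMasa M)
        (x : M), IsSelfAdjoint x → ‖x‖ ≤ 1 → T.E x = 0 → ∀ δ : ℝ, 0 < δ →
          T.Paved x ε r δ :=
  sharp_core_of_decrements fun p hp M _ _ _ T => exists_decrement hp T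

end Vale.Agent.P078.Sharp
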