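import Mathlib
import Vale.Agent.P078.FinalIter
import Vale.Agent.P078.FinalVN
import Vale.Agent.P078.FinalWrapper
import Vale.Agent.P078.Semi.Main

/-!
# From two-sided paving with `C / ε²` pieces to so-paving over MASAs of semifinite algebras
-/

open scoped InnerProductSpace ComplexOrder

namespace Vale.Agent.P078.Sharp

universe u

/-- Two-sided paving at scale `ε` with `r` pieces, up to an element of small trace. -/
def TwoSidedPaving (ε : ℝ) (r : ℕ) : Prop :=
  ∀ (M : Type u) [CStarAlgebra M] [PartialOrder M] [StarOrderedRing M] (T : TracialMasa M)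
    (x : M), IsSelfAdjoint x → ‖x‖ ≤ 1 → T.E x = 0 → ∀ δ : ℝ, 0 < δ → T.Paved x ε r δ

/-- Two-sided paving with `O(ε⁻²)` pieces at all small scales. -/
def SharpCore : Prop :=
  ∃ C e0 : ℝ, 0 < e0 ∧ ∀ ε : ℝ, 0 < ε → ε ≤ e0 →
    ∃ r : ℕ, (r : ℝ) ≤ C / ε ^ 2 ∧ TwoSidedPaving.{u} ε r

variable {M : Type u} [CStarAlgebra M] [PartialOrder M] [StarOrderedRing M] {T : TracialMasa M}

open TracialMasa

/-- One partition good on both sides gives two-sided paving. -/
lemma paved_of_pos {x : M} (hx : IsSelfAdjoint x) {ε δ : ℝ} {r : ℕ} (P : T.Part) (hn : P.n ≤ r)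
    (h1 : T.tr ((pinch P x - ε • (1 : M))⁺) ≤ δ / 2)
    (h2 : T.tr ((-pinch P x - ε • (1 : M))⁺) ≤ δ / 2) : T.Paved x ε r δ := by
  have hs := pinch_isSelfAdjoint P hx
  refine ⟨P, hn, (pinch P x - ε • (1 : M))⁺ + (-pinch P x - ε • (1 : M))⁺,
    add_nonneg (CFC.posPart_nonneg _) (CFC.posPart_nonneg _), ?_, ?_, ?_⟩
  · rw [T.tr_add]; linarith
  · refine (?_ : _ ≤ _).trans
      (add_le_add le_rfl (le_add_of_nonneg_right (CFC.posPart_nonneg _)))
    rw [← sub_le_iff_le_add']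
    exact CFC.le_posPart (sub_smul_one_sa ε hs)
  · refine (?_ : _ ≤ _).trans
      (add_le_add le_rfl (le_add_of_nonneg_left (CFC.posPart_nonneg _)))
    rw [← sub_le_iff_le_add']
    exact CFC.le_posPart (sub_smul_one_sa ε hs.neg)

/-- The paving projection from two-sided paving. -/
lemma exists_projection (T : TracialMasa M) {r : ℕ} {ε lam : ℝ}
    (h : TwoSidedPaving.{u} lam r) (hlam : 0 < lam) (hle : 4 * lam ≤ ε)
    {x : M} (hx : IsSelfAdjoint x) {δ : ℝ} (hδ : 0 < δ) :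
    ∃ (P : T.Part) (q : M), P.n ≤ r + 1 ∧ IsStarProjection q ∧
      T.tr (1 - q) ≤ δ ∧ ‖q * (pinch P x - T.E x) * q‖ ≤ ε * ‖x‖ := by
  rcases eq_or_ne x 0 with rfl | hx0
  · refine ⟨T.trivPart, 1, ?_, IsStarProjection.one M, ?_, ?_⟩
    · exact Nat.le_add_left 1 _
    · rw [sub_self]; simpa [tr] using hδ.le
    · simp [pinch, T.E_zero]
  have hs : 0 < 2 * ‖x‖ := by have := norm_pos_iff.2 hx0; linarith
  set x₁ := (2 * ‖x‖)⁻¹ • (x - T.E x) with hx₁
  have hx1sa : IsSelfAdjoint x₁ :=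
    (IsSelfAdjoint.all _).smul (hx.sub (T.E_isSelfAdjoint hx))
  have hx1n : ‖x₁‖ ≤ 1 := by
    rw [hx₁, norm_smul, norm_inv, Real.norm_eq_abs, abs_of_pos hs, inv_mul_le_one₀ hs]
    exact (norm_sub_le _ _).trans (by linarith [T.norm_E_le x])
  have hx1E : T.E x₁ = 0 := by
    rw [hx₁, E_real_smul, T.E_sub, T.E_of_mem (T.E_mem x), sub_self, smul_zero]
  obtain ⟨P, hPn, w, hw0, hwtr, hw1, hw2⟩ :=
    h M T x₁ hx1sa hx1n hx1E (δ * lam) (by positivity)
  set q := 1 - T.cut w lam with hq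
  have hqP : IsStarProjection q := (T.cut_isStarProjection _ w).one_sub
  refine ⟨P, q, by omega, hqP, ?_, ?_⟩
  · rw [hq, sub_sub_cancel]
    refine (T.tr_cut_le hw0 hlam).trans ?_
    rw [div_le_iff₀ hlam]; exact hwtr
  · have hbd : ∀ z : M, z ≤ lam • (1 : M) + w → q * z * q ≤ (ε / 2) • (1 : M) := by
      intro z hz
      refine (hqP.isSelfAdjoint.conjugate_le_conjugate hz).trans ?_
      have hc : Commute q w :=
        (Commute.one_left w).sub_left (T.commute_cut lam (Commute.refl w))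
      have e1 : q * w * q ≤ lam • q := by
        rw [hc.eq, mul_assoc, hqP.isIdempotentElem.eq]
        exact T.mul_one_sub_cut_le _ (IsSelfAdjoint.of_nonneg hw0)
      rw [mul_add, add_mul, mul_smul_comm, mul_one, smul_mul_assoc, hqP.isIdempotentElem.eq]
      refine (add_le_add le_rfl e1).trans ?_
      rw [← add_smul]
      refine (smul_le_smul_of_nonneg_left hqP.le_one (by positivity)).trans ?_
      rw [← sub_nonneg, ← sub_smul]
      exact smul_nonneg (by linarith) zero_le_one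
    have h2 := hbd _ hw2
    rw [mul_neg, neg_mul, neg_le] at h2
    have hn1 : ‖q * pinch P x₁ * q‖ ≤ ε / 2 := by
      refine norm_le_of_neg_le_of_le (by linarith) ?_ h2 (hbd _ hw1)
      rw [IsSelfAdjoint, star_mul, star_mul, hqP.isSelfAdjoint.star_eq,
        (pinch_isSelfAdjoint P hx1sa).star_eq, mul_assoc]
    have heq : pinch P x - T.E x = (2 * ‖x‖) • pinch P x₁ := by
      rw [hx₁, pinch_real_smul, smul_smul, mul_inv_cancel₀ hs.ne', one_smul, pinch_sub,
        pinch_eq_self P (T.E_mem x)]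
    rw [heq, mul_smul_comm, smul_mul_assoc, norm_smul, Real.norm_eq_abs, abs_of_pos hs]
    refine (mul_le_mul_of_nonneg_left hn1 hs.le).trans_eq ?_
    ring

variable {H : Type u} [NormedAddCommGroup H] [InnerProductSpace ℂ H] [CompleteSpace H]

/-- So-paving in the sense of `SOPavable` from two-sided paving. -/
lemma sopavable_of_twoSided {r₀ : ℕ} {ε lam : ℝ} (h : TwoSidedPaving.{u} lam r₀) (hlam : 0 < lam)
    (hle : 4 * lam ≤ ε) {M : VonNeumannAlgebra H} {A : StarSubalgebra ℂ (H →L[ℂ] H)} {ξ : ℕ → H}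
    (hA : IsMASA M A) (hξ : IsFaithfulNormalTracialState M ξ) {x : H →L[ℂ] H} (hx : x ∈ M)
    (hxs : IsSelfAdjoint x) : SOPavable M A x ε (r₀ + 1) := by
  intro F δ hδ
  set T := VN.tracialMasa hA hξ with hT
  have hF : ∃ δ' > 0, ∀ v ∈ F, ∀ z ∈ M, ‖z‖ ≤ 1 → (∀ n, ‖z (ξ n)‖ ≤ δ') → ‖z v‖ ≤ δ / 2 := by
    classical
    induction F using Finset.induction_on with
    | empty => exact ⟨1, one_pos, by simp⟩
    | insert v F _ ih =>
      obtain ⟨a, ha, hs⟩ := ih
      obtain ⟨b, hb, hv⟩ := VN.small_at hξ 1 v (half_pos hδ)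
      refine ⟨min a b, lt_min ha hb, fun w hw z hz h1 hn => ?_⟩
      rcases Finset.mem_insert.1 hw with rfl | hw
      · exact hv z hz h1 fun n => (hn n).trans (min_le_right _ _)
      · exact hs w hw z hz h1 fun n => (hn n).trans (min_le_left _ _)
  obtain ⟨δ', hδ', hsmall⟩ := hF
  have hxs' : IsSelfAdjoint (⟨x, hx⟩ : M.toStarSubalgebra) := Subtype.ext hxs
  obtain ⟨P, q, hPn, hqP, hqtr, hnorm⟩ :=
    exists_projection T h hlam hle hxs' (δ := δ' ^ 2) (by positivity)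
  set r := r₀ + 1
  let p : Fin r → H →L[ℂ] H := fun i =>
    if hi : (i : ℕ) < P.n then (P.e ⟨i, hi⟩ : H →L[ℂ] H) else 0
  have hproj : ∀ e : M.toStarSubalgebra, IsStarProjection e →
      IsStarProjection (e : H →L[ℂ] H) := fun e he =>
    ⟨congrArg Subtype.val he.isIdempotentElem.eq, congrArg Subtype.val he.isSelfAdjoint.star_eq⟩
  have hpart : IsPartition A p := by
    refine ⟨fun i => ?_, fun i => ?_, fun i j hij => ?_, ?_⟩
    · simp only [p]
      split_ifs with hi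
      · exact P.mem ⟨i, hi⟩
      · exact zero_mem A
    · simp only [p]
      split_ifs with hi
      · exact hproj _ (P.proj ⟨i, hi⟩)
      · exact IsStarProjection.zero _
    · simp only [p]
      split_ifs with hi hj
      · exact congrArg Subtype.val (P.orth ⟨i, hi⟩ ⟨j, hj⟩
          fun he => hij (Fin.ext (by simpa using congrArg Fin.val he)))
      · exact mul_zero _
      · exact zero_mul _
      · exact zero_mul _
    · rw [sum_fin_pad hPn (fun k => (P.e k : H →L[ℂ] H))]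
      rw [← AddSubmonoidClass.coe_finsetSum, P.sum_one]
      rfl
  refine ⟨p, (T.E ⟨x, hx⟩ : H →L[ℂ] H), (q : H →L[ℂ] H), hpart, T.E_mem _,
    congrArg Subtype.val (T.E_isSelfAdjoint hxs').star_eq, T.norm_E_le ⟨x, hx⟩, q.2,
    hproj q hqP, fun v hv => ?_, ?_⟩
  · have h1 : ‖(1 - q : M.toStarSubalgebra)‖ ≤ 1 := norm_le_one_of_isStarProjection hqP.one_sub
    have h2 : ∀ n, ‖((1 - q : M.toStarSubalgebra) : H →L[ℂ] H) (ξ n)‖ ≤ δ' := by
      intro n
      refine (VN.norm_apply_le_preGNS hξ _ n).trans ?_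
      refine le_of_pow_le_pow_left₀ two_ne_zero hδ'.le ?_
      show T.n2 (1 - q) ^ 2 ≤ δ' ^ 2
      rw [T.n2_sq, hqP.one_sub.isSelfAdjoint.star_eq, hqP.one_sub.isIdempotentElem.eq]
      exact hqtr
    exact (hsmall v hv _ (1 - q : M.toStarSubalgebra).2 h1 h2).trans_lt (half_lt_self hδ)
  · have hsum : ∑ i, p i * x * p i = ((TracialMasa.pinch P ⟨x, hx⟩ :
        M.toStarSubalgebra) : H →L[ℂ] H) := by
      rw [TracialMasa.pinch, AddSubmonoidClass.coe_finsetSum,
        ← sum_fin_pad hPn (fun k => ((P.e k * ⟨x, hx⟩ * P.e k :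
          M.toStarSubalgebra) : H →L[ℂ] H))]
      refine Finset.sum_congr rfl fun i _ => ?_
      simp only [p]
      split_ifs with hi
      · rfl
      · simp
    rw [hsum]
    exact hnorm

/-- So-paving with `C / ε²` pieces over MASAs with a faithful tracial state. -/
theorem tracial_paving_sharp (h : SharpCore.{u}) :
    ∃ C : ℝ, ∀ ε : ℝ, 0 < ε → ε < 1 → ∃ r : ℕ, (r : ℝ) ≤ C / ε ^ 2 ∧
      ∀ (H : Type u) [NormedAddCommGroup H] [InnerProductSpace ℂ H] [CompleteSpace H]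
        (M : VonNeumannAlgebra H) (A : StarSubalgebra ℂ (H →L[ℂ] H)) (ξ : ℕ → H),
        IsMASA M A → IsFaithfulNormalTracialState M ξ →
        ∀ x ∈ M, IsSelfAdjoint x → SOPavable M A x ε r := by
  obtain ⟨C, e0, he0, hC⟩ := h
  set s : ℝ := min (1 / 4) e0 with hs
  have hs0 : 0 < s := lt_min (by norm_num) he0
  refine ⟨|C| / s ^ 2 + 1, fun ε hε hε1 => ?_⟩
  have hlam : 0 < ε * s := mul_pos hε hs0
  have hle : 4 * (ε * s) ≤ ε := by
    have : ε * s ≤ ε * (1 / 4) := mul_le_mul_of_nonneg_left (min_le_left _ _) hε.le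
    linarith
  have hsmall : ε * s ≤ e0 :=
    (mul_le_of_le_one_left hs0.le hε1.le).trans (min_le_right _ _)
  obtain ⟨r, hr, hpave⟩ := hC (ε * s) hlam hsmall
  refine ⟨r + 1, ?_, fun H _ _ _ M A ξ hA hξ x hx hxs =>
    sopavable_of_twoSided hpave hlam hle hA hξ hx hxs⟩
  have hε2 : 0 < ε ^ 2 := pow_pos hε 2
  have h1 : C / (ε * s) ^ 2 ≤ |C| / s ^ 2 / ε ^ 2 := by
    rw [div_div, ← mul_pow, mul_comm s ε]
    exact div_le_div_of_nonneg_right (le_abs_self C) (sq_nonneg _)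
  have h2 : (1 : ℝ) ≤ 1 / ε ^ 2 := by
    rw [le_div_iff₀ hε2, one_mul]
    exact pow_le_one₀ hε.le hε1.le
  push_cast
  rw [add_div]
  linarith

/-- So-paving with `C / ε²` pieces over every MASA of every semifinite von Neumann algebra. -/
theorem semifinite_paving_sharp (h : SharpCore.{u}) :
    ∃ C : ℝ, ∀ ε : ℝ, 0 < ε → ε < 1 → ∃ r : ℕ, (r : ℝ) ≤ C / ε ^ 2 ∧
      ∀ (H : Type u) [NormedAddCommGroup H] [InnerProductSpace ℂ H] [CompleteSpace H]
        (M : VonNeumannAlgebra H) (A : StarSubalgebra ℂ (H →L[ℂ] H)) (ι : Type u) (ξ : ι → H),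
        IsMASA M A → IsFaithfulSemifiniteTrace M ξ →
        ∀ x ∈ M, IsSelfAdjoint x → SOPavable M A x ε r := by
  obtain ⟨C, hC⟩ := tracial_paving_sharp.{u} h
  refine ⟨C + 4, fun ε hε hε1 => ?_⟩
  obtain ⟨r, hr, hpave⟩ := hC ε hε hε1
  refine ⟨r + 1 + ⌈2 / ε⌉₊, ?_, fun H _ _ _ M A ι ξ hA hξ x hx hxs => ?_⟩
  · have hε2 : 0 < ε ^ 2 := pow_pos hε 2
    have h1 : (⌈2 / ε⌉₊ : ℝ) ≤ 2 / ε + 1 := (Nat.ceil_lt_add_one (by positivity)).le
    have h3 : 2 / ε ≤ 2 / ε ^ 2 :=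
      div_le_div_of_nonneg_left zero_le_two hε2 (by nlinarith)
    have h4 : (1 : ℝ) ≤ 1 / ε ^ 2 := by
      rw [le_div_iff₀ hε2, one_mul]
      exact pow_le_one₀ hε.le hε1.le
    push_cast
    have h5 : (C + 4) / ε ^ 2 = C / ε ^ 2 + 2 / ε ^ 2 + 2 * (1 / ε ^ 2) := by ring
    linarith
  · refine Semi.semifinite_paving hε r.succ_pos ?_ (fun K _ _ _ M A ξ hA hξ x hx hxs =>
      Semi.sopavable_succ (hpave K M A ξ hA hξ x hx hxs)) hA hξ hx hxs
    have h := Nat.le_ceil (2 / ε)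
    rw [div_le_iff₀ hε] at h
    linarith

end Vale.Agent.P078.Sharp
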