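import Mathlib
import Vale.Agent.P078.Sharp.Core
import Vale.Agent.P078.Sharp.Wrapper

/-!
# So-paving with `C / ε²` pieces
-/

namespace Vale.Agent.P078.Sharp

universe u

/-- The two-sided core in the form used by the wrapper. -/
theorem sharpCore : SharpCore.{u} :=
  ⟨5 * 10 ^ 14 * 961, 31 / 10000, by norm_num, fun ε hε hε1 => sharp_core ε hε hε1⟩

end Vale.Agent.P078.Sharp
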