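import Mathlib
import Vale.Agent.P078.Square
import Vale.Agent.P078.RA

/-!
# A sharp bound for the diagonal of `Φ° a Φ°`

For positive `M'`, `Z` inverse to each other, with `m = E M'`, `z = E Z`,
`κ = E ((M' - m) Z (M' - m)) = m (m z - 1)` and `r = √(κ m)`, the diagonal of `Φ° a Φ°`
(`Φ°` that of `M'`) is at most `r Φ°(r a)`. As `κ ≤ m²` may be much smaller than `m`, this
improves on `omr_square`, where `r` is replaced by `m`.
-/

open scoped ComplexOrder InnerProductSpace Topology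
open Filter

namespace Vale.Agent.P078

universe u

variable {M : Type u} [CStarAlgebra M] [PartialOrder M] [StarOrderedRing M]

namespace TracialMasa

variable {T : TracialMasa M}

/-- The element whose expectation is `κ`. -/
noncomputable def offK (T : TracialMasa M) (M' Z : M) : M := (M' - T.E M') * Z * (M' - T.E M')

/-- `κ`. -/
noncomputable def kap (T : TracialMasa M) (M' Z : M) : M := T.E (T.offK M' Z)

/-- `√(κ m)`. -/
noncomputable def rad (T : TracialMasa M) (M' Z : M) : M :=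
  cfc Real.sqrt (T.kap M' Z * T.E M')

lemma kap_mem (M' Z : M) : T.kap M' Z ∈ T.A := T.E_mem _

lemma offK_nonneg {M' Z : M} (hM : 0 ≤ M') (hZ : 0 ≤ Z) : 0 ≤ T.offK M' Z :=
  (isSelfAdjoint_sub_E (IsSelfAdjoint.of_nonneg hM)).conjugate_nonneg hZ

lemma kap_nonneg {M' Z : M} (hM : 0 ≤ M') (hZ : 0 ≤ Z) : 0 ≤ T.kap M' Z :=
  T.E_nonneg (offK_nonneg hM hZ)

/-- The closed form of `κ`. -/
lemma kap_eq {M' Z : M} (h1 : M' * Z = 1) (h2 : Z * M' = 1) :
    T.kap M' Z = T.E M' * (T.E M' * T.E Z - 1) := by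
  set m := T.E M' with hm
  have hmA : m ∈ T.A := T.E_mem _
  have e : T.offK M' Z = M' - (m + m) + m * Z * m := by
    rw [offK, ← hm]
    calc (M' - m) * Z * (M' - m)
        = (M' * Z) * M' - (M' * Z) * m - m * (Z * M') + m * Z * m := by noncomm_ring
      _ = _ := by rw [h1, h2]; noncomm_ring
  rw [kap, e, T.E_add, T.E_sub, T.E_add, T.E_of_mem hmA, T.E_mul_right _ hmA,
    T.E_mul_left hmA, ← hm, T.A_comm (m * T.E Z) (mul_mem hmA (T.E_mem _)) m hmA]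
  noncomm_ring

/-- If `V e = V` and `V* V` is close to `c e` then `V V*` is at most `c` up to a small error. -/
lemma exists_conj_le {V e : M} (he : IsStarProjection e) (hVe : V * e = V)
    {c η : ℝ} (hc : 0 ≤ c) (hη : 0 < η) :
    ∃ S : M, 0 ≤ S ∧ V * star V ≤ (c + η) • (1 : M) + (η ^ 2)⁻¹ • S ∧
      T.tr S ≤ ‖V‖ ^ 2 * T.n2 (star V * V - c • e) ^ 2 := by
  set Q := V * star V with hQ
  set W := star V * V with hW
  have hQ0 : 0 ≤ Q := mul_star_self_nonneg V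
  have hW0 : 0 ≤ W := star_mul_self_nonneg V
  have hQsa : IsSelfAdjoint Q := IsSelfAdjoint.of_nonneg hQ0
  have hWsa : IsSelfAdjoint W := IsSelfAdjoint.of_nonneg hW0
  have hsub : IsSelfAdjoint (Q - c • (1 : M)) := hQsa.sub ((IsSelfAdjoint.all c).smul (.one M))
  refine ⟨(Q - c • 1) * Q * (Q - c • 1), hsub.conjugate_nonneg hQ0, ?_, ?_⟩
  · have h1 : cfc (fun x : ℝ => x) Q ≤
        cfc (fun x : ℝ => (c + η) + (η ^ 2)⁻¹ * ((x - c) * x * (x - c))) Q :=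
      cfc_mono (fun x hx => le_add_mul_sq (spectrum_nonneg_of_nonneg hQ0 hx) hc hη)
    rw [cfc_id' ℝ Q] at h1
    refine h1.trans_eq ?_
    have e1 : cfc (fun x : ℝ => x - c) Q = Q - c • 1 := by
      rw [cfc_sub (fun x => x) (fun _ => c), cfc_id' ℝ Q, cfc_const c Q,
        Algebra.algebraMap_eq_smul_one]
    rw [cfc_const_add (c + η) (fun x : ℝ => (η ^ 2)⁻¹ * ((x - c) * x * (x - c))) Q,
      cfc_const_mul (η ^ 2)⁻¹ (fun x : ℝ => (x - c) * x * (x - c)) Q,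
      cfc_mul (fun x : ℝ => (x - c) * x) (fun x => x - c),
      cfc_mul (fun x : ℝ => x - c) (fun x => x),
      e1, cfc_id' ℝ Q, Algebra.algebraMap_eq_smul_one]
  · set D := W - c • e with hD
    have hk : (Q - c • (1 : M)) * V = V * D := by
      rw [hQ, hD, sub_mul, mul_sub, smul_mul_assoc, one_mul, mul_smul_comm, hVe, mul_assoc]
    have hk' : star V * (Q - c • (1 : M)) = D * star V := by
      have h := congrArg star hk
      rwa [star_mul, star_mul, hsub.star_eq,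
        (hWsa.sub ((IsSelfAdjoint.all c).smul he.isSelfAdjoint)).star_eq] at h
    have hS : (Q - c • (1 : M)) * Q * (Q - c • 1) = V * (D * D) * star V := by
      calc (Q - c • (1 : M)) * Q * (Q - c • 1)
          = ((Q - c • (1 : M)) * V) * (star V * (Q - c • 1)) := by
            nth_rewrite 2 [hQ]
            noncomm_ring
        _ = _ := by rw [hk, hk']; noncomm_ring
    have hDsa : IsSelfAdjoint D := hWsa.sub ((IsSelfAdjoint.all c).smul he.isSelfAdjoint)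
    rw [hS, T.tr_comm, ← mul_assoc, T.tr_comm, T.n2_sq, hDsa.star_eq]
    refine (T.tr_mul_le_norm_mul ?_ hWsa).trans_eq ?_
    · conv_rhs => arg 1; rw [← hDsa.star_eq]
      exact star_mul_self_nonneg D
    · rw [hW, CStarRing.norm_star_mul_self, sq]

/-- Expectation of a conjugate of `exists_conj_le`. -/
lemma exists_E_conj_le {X V e : M} (he : IsStarProjection e) (hVe : V * e = V)
    {c η : ℝ} (hc : 0 ≤ c) (hη : 0 < η) :
    ∃ R : M, T.IsRA R ∧ 0 ≤ R ∧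
      T.E (X * (V * star V) * star X) ≤ (c + η) • T.E (X * star X) + R ∧
      T.tr R ≤ ‖X‖ ^ 2 * ((η ^ 2)⁻¹ * (‖V‖ ^ 2 * T.n2 (star V * V - c • e) ^ 2)) := by
  obtain ⟨S, hS0, hle, htr⟩ := exists_conj_le (T := T) he hVe hc hη
  have hS1 : 0 ≤ (η ^ 2)⁻¹ • S := smul_nonneg (by positivity) hS0
  have hX0 : 0 ≤ X * ((η ^ 2)⁻¹ • S) * star X := star_right_conjugate_nonneg hS1 X
  refine ⟨T.E (X * ((η ^ 2)⁻¹ • S) * star X), isRA_E (IsSelfAdjoint.of_nonneg hX0),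
    T.E_nonneg hX0, ?_, ?_⟩
  · have h := T.E_nonneg (sub_nonneg.2 (star_right_conjugate_le_conjugate hle X))
    rw [T.E_sub, sub_nonneg, mul_add, add_mul, T.E_add, mul_smul_comm, mul_one,
      smul_mul_assoc, ← Complex.coe_smul, T.E_smul, Complex.coe_smul] at h
    exact h
  · have h1 : T.tr (T.E (X * ((η ^ 2)⁻¹ • S) * star X)) =
        T.tr (X * ((η ^ 2)⁻¹ • S) * star X) := by
      have := congrArg Complex.re (T.τ_mul_E (one_mem T.A) (X * ((η ^ 2)⁻¹ • S) * star X))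
      rwa [one_mul, one_mul] at this
    rw [h1, T.tr_comm, ← mul_assoc, T.tr_comm]
    refine (T.tr_mul_le_norm_mul hS1 (.star_mul_self X)).trans ?_
    rw [CStarRing.norm_star_mul_self, ← sq, T.tr_smul]
    exact mul_le_mul_of_nonneg_left (mul_le_mul_of_nonneg_left htr (by positivity)) (sq_nonneg _)

lemma sqrt_mul_sqrt_inv {M' Z : M} (hM : 0 ≤ M') (hZ : 0 ≤ Z) (h1 : M' * Z = 1)
    (h2 : Z * M' = 1) : CFC.sqrt M' * CFC.sqrt Z = 1 ∧ CFC.sqrt Z * CFC.sqrt M' = 1 := by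
  have hc : Commute M' Z := h1.trans h2.symm
  have hc1 : Commute (CFC.sqrt M') Z := hc.cfcₙ_nnreal _
  have hc2 : Commute (CFC.sqrt M') (CFC.sqrt Z) := (hc1.symm.cfcₙ_nnreal _).symm
  have h0 : 0 ≤ CFC.sqrt M' * CFC.sqrt Z :=
    hc2.mul_nonneg (CFC.sqrt_nonneg _) (CFC.sqrt_nonneg _)
  have hsq : (CFC.sqrt M' * CFC.sqrt Z) * (CFC.sqrt M' * CFC.sqrt Z) = 1 := by
    rw [hc2.symm.mul_mul_mul_comm, CFC.sqrt_mul_sqrt_self M' hM, CFC.sqrt_mul_sqrt_self Z hZ, h1]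
  have e : CFC.sqrt M' * CFC.sqrt Z = 1 := by
    rw [← CFC.sqrt_unique hsq h0]
    exact CFC.sqrt_unique (one_mul 1) zero_le_one
  exact ⟨e, hc2.eq.symm.trans e⟩

/-- Pointwise: a quantity below two bounds is below their geometric mean. -/
lemma le_sqrt_add {g a b e f : ℝ} (ha : 0 ≤ a) (hb : 0 ≤ b) (he : 0 ≤ e) (hf : 0 ≤ f)
    (h1 : g ≤ a + e) (h2 : g ≤ b + f) : g ≤ Real.sqrt (a * b) + e + f := by
  rcases le_total a b with h | h
  · have : a ≤ Real.sqrt (a * b) := Real.le_sqrt_of_sq_le (by nlinarith)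
    linarith
  · have : b ≤ Real.sqrt (a * b) := Real.le_sqrt_of_sq_le (by nlinarith)
    linarith

/-- One piece: `φ°(e)` is below the geometric mean of its two bounds, up to a small error. -/
lemma exists_piece_le {M' Z : M} (hM : 0 ≤ M') (hZ : 0 ≤ Z) (h1 : M' * Z = 1) (h2 : Z * M' = 1)
    (P : T.Part) (j : Fin P.n) {c k η : ℝ} (hc : 0 ≤ c) (hk : 0 ≤ k) (hη : 0 < η) :
    ∃ R : M, T.IsRA R ∧ 0 ≤ R ∧
      (∀ χ : T.Chi, T.val χ (T.phi0A M' (P.e j)) ≤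
        Real.sqrt ((c + η) * (k + η) * (T.val χ (T.kap M' Z) * T.val χ (T.E M'))) + T.val χ R) ∧
      T.tr R ≤ (2 * ‖M'‖) ^ 2 * ‖Z‖ * ((η ^ 2)⁻¹ * (‖M'‖ *
          T.n2 (P.e j * M' * P.e j - c • P.e j) ^ 2)) +
        ‖M'‖ * ((η ^ 2)⁻¹ * (‖Z‖ * (2 * ‖M'‖) ^ 2 *
          T.n2 (P.e j * T.offK M' Z * P.e j - k • P.e j) ^ 2)) := by
  set e := P.e j with he
  set Y := M' - T.E M' with hY
  have hMs := IsSelfAdjoint.of_nonneg hM
  have hYs : IsSelfAdjoint Y := isSelfAdjoint_sub_E hMs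
  have hep : IsStarProjection e := P.proj j
  set v := CFC.sqrt M'
  set z := CFC.sqrt Z
  have hvs : star v = v := (IsSelfAdjoint.of_nonneg (CFC.sqrt_nonneg M')).star_eq
  have hzs : star z = z := (IsSelfAdjoint.of_nonneg (CFC.sqrt_nonneg Z)).star_eq
  have hvv : v * v = M' := CFC.sqrt_mul_sqrt_self M' hM
  have hzz : z * z = Z := CFC.sqrt_mul_sqrt_self Z hZ
  obtain ⟨hvz, hzv⟩ := sqrt_mul_sqrt_inv hM hZ h1 h2
  have hnv : ‖v‖ ^ 2 = ‖M'‖ := by rw [sq, ← CStarRing.norm_star_mul_self, hvs, hvv]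
  have hnz : ‖z‖ ^ 2 = ‖Z‖ := by rw [sq, ← CStarRing.norm_star_mul_self, hzs, hzz]
  have hne : ‖e‖ ≤ 1 := hep.norm_le
  have hnY : ‖Y‖ ≤ 2 * ‖M'‖ := (norm_sub_le _ _).trans (by linarith [T.norm_E_le M'])
  -- first bound
  obtain ⟨R1, hR1A, hR10, hle1, htr1⟩ := exists_E_conj_le (T := T) (X := Y * z) (V := v * e) hep
    (by rw [mul_assoc, hep.isIdempotentElem.eq]) hc hη
  -- second bound
  obtain ⟨R2, hR2A, hR20, hle2, htr2⟩ := exists_E_conj_le (T := T) (X := v) (V := z * Y * e) hep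
    (by rw [mul_assoc, hep.isIdempotentElem.eq]) hk hη
  have f1 : T.E (Y * z * ((v * e) * star (v * e)) * star (Y * z)) = T.phi0A M' e := by
    rw [phi0A, ← hY, star_mul, star_mul, hep.isSelfAdjoint.star_eq, hvs, hzs, hYs.star_eq]
    congr 1
    calc Y * z * (v * e * (e * v)) * (z * Y) = Y * (z * v) * (e * e) * (v * z) * Y := by
          simp only [mul_assoc]
      _ = _ := by rw [hvz, hzv, hep.isIdempotentElem.eq, mul_one, mul_one]
  have f2 : T.E (v * ((z * Y * e) * star (z * Y * e)) * star v) = T.phi0A M' e := by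
    rw [phi0A, ← hY, star_mul, star_mul, hep.isSelfAdjoint.star_eq, hvs, hzs, hYs.star_eq]
    congr 1
    calc v * (z * Y * e * (e * (Y * z))) * v = (v * z) * Y * (e * e) * Y * (z * v) := by
          simp only [mul_assoc]
      _ = _ := by rw [hvz, hzv, hep.isIdempotentElem.eq, one_mul, mul_one]
  have g1 : Y * z * star (Y * z) = T.offK M' Z := by
    rw [offK, ← hY, star_mul, hzs, hYs.star_eq, ← hzz]
    simp only [mul_assoc]
  have g2 : v * star v = M' := by rw [hvs, hvv]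
  rw [f1, g1] at hle1
  rw [f2, g2] at hle2
  have w1 : star (v * e) * (v * e) = e * M' * e := by
    rw [star_mul, hep.isSelfAdjoint.star_eq, hvs, ← hvv]; simp only [mul_assoc]
  have w2 : star (z * Y * e) * (z * Y * e) = e * T.offK M' Z * e := by
    rw [star_mul, star_mul, hep.isSelfAdjoint.star_eq, hzs, hYs.star_eq, offK, ← hY, ← hzz]
    simp only [mul_assoc]
  rw [w1] at htr1
  rw [w2] at htr2
  have hX1 : ‖Y * z‖ ^ 2 ≤ (2 * ‖M'‖) ^ 2 * ‖Z‖ := by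
    rw [← hnz, ← mul_pow]
    exact pow_le_pow_left₀ (norm_nonneg _)
      ((norm_mul_le _ _).trans (mul_le_mul_of_nonneg_right hnY (norm_nonneg _))) 2
  have hV1 : ‖v * e‖ ^ 2 ≤ ‖M'‖ := by
    rw [← hnv]
    exact pow_le_pow_left₀ (norm_nonneg _) ((norm_mul_le _ _).trans
      (mul_le_of_le_one_right (norm_nonneg _) hne)) 2
  have hV2 : ‖z * Y * e‖ ^ 2 ≤ ‖Z‖ * (2 * ‖M'‖) ^ 2 := by
    rw [← hnz, ← mul_pow]
    exact pow_le_pow_left₀ (norm_nonneg _) ((norm_mul_le _ _).trans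
      (le_trans (mul_le_of_le_one_right (norm_nonneg _) hne)
        ((norm_mul_le _ _).trans (mul_le_mul_of_nonneg_left hnY (norm_nonneg _))))) 2
  refine ⟨R1 + R2, hR1A.add hR2A, add_nonneg hR10 hR20, fun χ => ?_, ?_⟩
  · have hG : T.phi0A M' e ∈ T.A := phi0A_mem _ _
    have hkA : T.kap M' Z ∈ T.A := kap_mem _ _
    have hmA : T.E M' ∈ T.A := T.E_mem _
    have v1 := val_mono χ hG (add_mem (T.real_smul_mem_A hkA _) hR1A.mem) hle1
    have v2 := val_mono χ hG (add_mem (T.real_smul_mem_A hmA _) hR2A.mem) hle2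
    rw [val_add χ (T.real_smul_mem_A hkA _) hR1A.mem, val_smul χ _ hkA] at v1
    rw [val_add χ (T.real_smul_mem_A hmA _) hR2A.mem, val_smul χ _ hmA] at v2
    have hk0 := val_nonneg χ hkA (kap_nonneg hM hZ)
    have hm0 := val_nonneg χ hmA (T.E_nonneg hM)
    have := le_sqrt_add (mul_nonneg (add_nonneg hc hη.le) hk0)
      (mul_nonneg (add_nonneg hk hη.le) hm0) (val_nonneg χ hR1A.mem hR10)
      (val_nonneg χ hR2A.mem hR20) v1 v2
    rw [hR1A.val_add χ hR2A]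
    refine this.trans (le_of_eq ?_)
    rw [show (c + η) * T.val χ (T.kap M' Z) * ((k + η) * T.val χ (T.E M')) =
      (c + η) * (k + η) * (T.val χ (T.kap M' Z) * T.val χ (T.E M')) by ring]
    ring
  · rw [T.tr_add]
    refine add_le_add (htr1.trans ?_) (htr2.trans ?_)
    · gcongr
    · refine mul_le_mul hnv.le ?_ (mul_nonneg (by positivity) (mul_nonneg (sq_nonneg _)
        (sq_nonneg _))) (norm_nonneg _)
      gcongr

lemma isRA_rad (M' Z : M) : T.IsRA (T.rad M' Z) :=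
  ⟨T.cfc_mem_A (mul_mem (kap_mem _ _) (T.E_mem _)) _, cfc_predicate _ _⟩

lemma val_rad {M' Z : M} (hM : 0 ≤ M') (hZ : 0 ≤ Z) (χ : T.Chi) :
    T.val χ (T.rad M' Z) = Real.sqrt (T.val χ (T.kap M' Z) * T.val χ (T.E M')) := by
  have hk : T.IsRA (T.kap M' Z) := isRA_E (IsSelfAdjoint.of_nonneg (offK_nonneg hM hZ))
  have hm : T.IsRA (T.E M') := isRA_E (IsSelfAdjoint.of_nonneg hM)
  rw [rad, (hk.mul hm).val_cfc χ Real.continuous_sqrt, hk.val_mul χ hm]

lemma rad_nonneg {M' Z : M} : 0 ≤ T.rad M' Z := cfc_nonneg fun x _ => Real.sqrt_nonneg x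

/-- The value of an element close to a scalar on a piece. -/
lemma val_near {x e : M} {t h : ℝ} (hx : T.IsRA x) (he : T.IsRA e)
    (hn : ‖(x - t • 1) * e‖ ≤ h) (χ : T.Chi) (h1 : T.val χ e = 1) : |T.val χ x - t| ≤ h := by
  have hxt := hx.sub (isRA_one.smul t)
  have := (hxt.mul he).abs_val_le χ
  rw [hxt.val_mul χ he, hx.val_sub χ (isRA_one.smul t), val_smul_one, h1, mul_one] at this
  exact this.trans hn

/-- A staircase is close in the 2-norm to the compressions of `X`, if the pinching is. -/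
lemma sum_n2_le (P : T.Part) {x X : M} (t : Fin P.n → ℝ) {h : ℝ} (hh0 : 0 < h) (hh1 : h ≤ 1)
    (hx : T.IsRA x) (hx0 : 0 ≤ x) (ht : ∀ j, ‖(x - t j • 1) * P.e j‖ ≤ h)
    (hp : T.n2 (pinch P X - x) ^ 2 ≤ h) :
    ∑ j, T.n2 (P.e j * X * P.e j - max (t j) 0 • P.e j) ^ 2 ≤ 10 * h := by
  have hEA : ∀ j, T.IsRA (P.e j) := fun j => isRA_of_proj (P.mem j) (P.proj j)
  have hb : ∀ j, T.n2 (P.e j * X * P.e j - max (t j) 0 • P.e j) ^ 2 ≤
      2 * T.n2 (P.e j * X * P.e j - x * P.e j) ^ 2 + 8 * h * T.tr (P.e j) := by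
    intro j
    have hj : ‖(x - max (t j) 0 • 1) * P.e j‖ ≤ h := by
      refine (hx.sub (isRA_one.smul _) |>.mul (hEA j)).norm_le hh0.le fun χ => ?_
      rw [(hx.sub (isRA_one.smul _)).val_mul χ (hEA j), hx.val_sub χ (isRA_one.smul _),
        val_smul_one]
      rcases (hEA j).val_proj χ (P.proj j) with h1 | h1
      · rw [h1, mul_zero, abs_zero]; exact hh0.le
      · rw [h1, mul_one]
        refine le_trans ?_ (val_near hx (hEA j) (ht j) χ h1)
        have := val_nonneg χ hx.mem hx0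
        rcases le_total (t j) 0 with h0 | h0
        · rw [max_eq_right h0, sub_zero, abs_of_nonneg this, abs_of_nonneg (by linarith)]
          linarith
        · rw [max_eq_left h0]
    set s := max (t j) 0
    have h12 : T.n2 (P.e j) ^ 2 = T.tr (P.e j) := by
      rw [T.n2_sq, P.star_e, (P.proj j).isIdempotentElem.eq]
    have h10 : T.n2 ((x - s • 1) * P.e j) ≤ h * T.n2 (P.e j) := by
      calc T.n2 ((x - s • 1) * P.e j) = T.n2 ((x - s • 1) * P.e j * P.e j) := by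
            rw [mul_assoc, (P.proj j).isIdempotentElem.eq]
        _ ≤ ‖(x - s • 1) * P.e j‖ * T.n2 (P.e j) := T.n2_mul_le_left _ _
        _ ≤ _ := mul_le_mul_of_nonneg_right hj (T.n2_nonneg _)
    have h11 : T.n2 (P.e j * X * P.e j - s • P.e j) ≤
        T.n2 (P.e j * X * P.e j - x * P.e j) + h * T.n2 (P.e j) := by
      refine (T.n2_sub_le _ (x * P.e j) _).trans (add_le_add le_rfl (le_of_eq_of_le ?_ h10))
      rw [sub_mul, smul_mul_assoc, one_mul]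
    refine (pow_le_pow_left₀ (T.n2_nonneg _) h11 2).trans (le_trans add_sq_le ?_)
    rw [mul_pow, h12, mul_add]
    have hh4 : h * h ≤ 4 * h := mul_le_mul_of_nonneg_right (by linarith) hh0.le
    have := mul_le_mul_of_nonneg_right hh4 (T.tr_nonneg (P.proj j).nonneg)
    linarith [this]
  refine (Finset.sum_le_sum fun j _ => hb j).trans ?_
  rw [Finset.sum_add_distrib, ← Finset.mul_sum, ← Finset.mul_sum,
    n2_sub_pinch_sq P X hx.mem, ← T.tr_sum, P.sum_one, T.tr_one]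
  linarith

/-- The scalar comparison behind the staircase of `√(κ m)`. -/
lemma sqrt_stair {x y c k η h d B : ℝ} (hx : 0 ≤ x) (hy : 0 ≤ y) (hη : 0 < η) (hh : h ≤ η)
    (hd : 0 ≤ d) (hc : c ≤ y + h) (hk : k ≤ x + h) (hk0 : 0 ≤ k) (_hc0 : 0 ≤ c)
    (hB : 2 * (x + y) + 4 * η ≤ B) (hηB : η * B ≤ d ^ 2) :
    Real.sqrt ((c + η) * (k + η)) ≤ Real.sqrt (x * y) + d := by
  rw [Real.sqrt_le_iff]
  refine ⟨add_nonneg (Real.sqrt_nonneg _) hd, ?_⟩
  have hs := Real.sq_sqrt (mul_nonneg hx hy)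
  calc (c + η) * (k + η) ≤ (y + 2 * η) * (x + 2 * η) :=
        mul_le_mul (by linarith) (by linarith) (by linarith) (by linarith)
    _ = x * y + η * (2 * (x + y) + 4 * η) := by ring
    _ ≤ x * y + η * B := by gcongr
    _ ≤ (Real.sqrt (x * y) + d) ^ 2 := by nlinarith [Real.sqrt_nonneg (x * y)]

/-- One term of the diagonal sum. -/
lemma sharp_step {Y : M} (hY : IsSelfAdjoint Y) {u a r R : M} (hu : T.IsRA u) (ha : T.IsRA a)
    (ha0 : 0 ≤ a) (hr : T.IsRA r) (_hR : T.IsRA R) (hR0 : 0 ≤ R) (P : T.Part) (j : Fin P.n)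
    {cu co C : ℝ} (hcu : 0 ≤ cu) (hC : cu ≤ C)
    (hue : ∀ χ : T.Chi, T.val χ (P.e j) = 1 → T.val χ u ≤ cu)
    (hG : T.phi0A Y (P.e j) ≤ co • r + R) :
    T.tr (T.phi0A Y (P.e j * u) * (a * T.phi0A Y (P.e j))) ≤
      cu * co * T.tr (a * r * T.phi0A Y (P.e j)) + C * (‖a‖ * (2 * ‖Y‖) ^ 2) * T.tr R := by
  have hE : T.IsRA (P.e j) := isRA_of_proj (P.mem j) (P.proj j)
  set G := T.phi0A Y (P.e j) with hGdef
  have hGA : G ∈ T.A := phi0A_mem _ _
  have haG : 0 ≤ a * G := mul_nonneg_A ha.mem hGA ha0 (phi0A_nonneg hY (P.proj j).nonneg)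
  have hue' : P.e j * u ≤ cu • P.e j := by
    refine (hE.mul hu).le_of_val (hE.smul _) fun χ => ?_
    rw [hE.val_mul χ hu, hE.val_smul]
    rcases hE.val_proj χ (P.proj j) with h1 | h1
    · rw [h1, zero_mul, mul_zero]
    · rw [h1, one_mul, mul_one]; exact hue χ h1
  have e1 : T.tr (T.phi0A Y (P.e j * u) * (a * G)) ≤ cu * T.tr (a * G * G) := by
    rw [T.tr_comm]
    refine (T.tr_mul_mono_right haG (phi0A_mono hY hue')).trans_eq ?_
    rw [phi0A_smul, mul_smul_comm, T.tr_smul]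
  have hn : ‖a * G‖ ≤ ‖a‖ * (2 * ‖Y‖) ^ 2 := by
    refine (norm_mul_le _ _).trans (mul_le_mul_of_nonneg_left ?_ (norm_nonneg _))
    exact (norm_phi0A_le _ _).trans (mul_le_of_le_one_right (by positivity) (P.proj j).norm_le)
  have e2 : T.tr (a * G * G) ≤ co * T.tr (a * r * G) + ‖a‖ * (2 * ‖Y‖) ^ 2 * T.tr R := by
    refine (T.tr_mul_mono_right haG hG).trans ?_
    rw [mul_add, T.tr_add, mul_smul_comm, T.tr_smul, T.tr_comm _ R,
      show a * G * r = a * r * G by rw [mul_assoc, T.A_comm G hGA r hr.mem, ← mul_assoc]]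
    refine add_le_add le_rfl ((T.tr_mul_le_norm_mul hR0 (IsSelfAdjoint.of_nonneg haG)).trans ?_)
    exact mul_le_mul_of_nonneg_right hn (T.tr_nonneg hR0)
  refine e1.trans ((mul_le_mul_of_nonneg_left e2 hcu).trans ?_)
  rw [mul_add, ← mul_assoc, mul_assoc C]
  exact add_le_add le_rfl (mul_le_mul_of_nonneg_right hC
    (mul_nonneg (by positivity) (T.tr_nonneg hR0)))

/-- The main part of the diagonal sum. -/
lemma sharp_main {Y : M} (hY : IsSelfAdjoint Y) {u a r : M} (hu : T.IsRA u) (hr : T.IsRA r)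
    (har : 0 ≤ a * r) (P : T.Part) (cc : Fin P.n → ℝ) {D : ℝ}
    (hcc : ∀ j, ∀ χ : T.Chi, T.val χ (P.e j) = 1 → cc j ≤ T.val χ u * T.val χ r + D) :
    ∑ j, cc j * T.tr (a * r * T.phi0A Y (P.e j)) ≤
      T.tr (a * r * T.phi0A Y (u * r)) + D * T.tr (a * r * T.phi0A Y 1) := by
  have hEA : ∀ j, T.IsRA (P.e j) := fun j => isRA_of_proj (P.mem j) (P.proj j)
  have hsum : ∑ j, cc j • P.e j ≤ u * r + D • (1 : M) := by
    refine (isRA_sum fun j _ => (hEA j).smul _).le_of_val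
      ((hu.mul hr).add (isRA_one.smul _)) fun χ => ?_
    rw [val_sum χ _ _ fun j _ => ((hEA j).smul _).mem,
      (hu.mul hr).val_add χ (isRA_one.smul _), hu.val_mul χ hr, val_smul_one]
    have h1' : ∑ j, T.val χ (P.e j) = 1 := by
      rw [← val_sum χ _ _ fun j _ => P.mem j, P.sum_one, val_one]
    calc ∑ j, T.val χ (cc j • P.e j)
        ≤ ∑ j, (T.val χ u * T.val χ r + D) * T.val χ (P.e j) := by
          refine Finset.sum_le_sum fun j _ => ?_
          rw [(hEA j).val_smul]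
          rcases (hEA j).val_proj χ (P.proj j) with h1 | h1
          · rw [h1, mul_zero, mul_zero]
          · rw [h1, mul_one, mul_one]; exact hcc j χ h1
      _ = _ := by rw [← Finset.mul_sum, h1', mul_one]
  have h40 := T.tr_mul_mono_right har (phi0A_mono (T := T) hY hsum)
  rw [phi0A_sum] at h40
  simp only [phi0A_smul, Finset.mul_sum, T.tr_sum, mul_smul_comm, T.tr_smul] at h40
  refine h40.trans (le_of_eq ?_)
  have hadd : T.phi0A Y (u * r + D • (1 : M)) = T.phi0A Y (u * r) + D • T.phi0A Y 1 := by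
    rw [← phi0A_smul]
    simp only [phi0A, ← T.E_add, mul_add, add_mul]
  rw [hadd, mul_add, T.tr_add, mul_smul_comm, T.tr_smul]

/-- The pointwise data of the staircases. -/
lemma sharp_coef {M' Z : M} (hM : 0 ≤ M') (hZ : 0 ≤ Z) {u e : M} (hau : T.IsRA u) (hu0 : 0 ≤ u)
    (he : T.IsRA e) {uj mj kj h η d Bk : ℝ} (hη0 : 0 < η) (hη1 : η ≤ 1) (hh0 : 0 < h) (hhη : h ≤ η)
    (hhd : h ≤ d / 2) (hd1 : d ≤ 1) (hd0 : 0 < d) (hBk : ‖T.kap M' Z‖ + ‖T.E M'‖ + 2 ≤ Bk)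
    (hηB : η * (5 * Bk) ≤ d ^ 2) (huj : ‖(u - uj • 1) * e‖ ≤ h)
    (hmj : ‖(T.E M' - mj • 1) * e‖ ≤ h) (hkj : ‖(T.kap M' Z - kj • 1) * e‖ ≤ h)
    (χ : T.Chi) (h1 : T.val χ e = 1) :
    T.val χ u ≤ min (max uj 0 + h) (‖u‖ + 2) ∧
      min (max uj 0 + h) (‖u‖ + 2) * Real.sqrt ((max mj 0 + η) * (max kj 0 + η)) ≤
        T.val χ u * T.val χ (T.rad M' Z) + d * (‖u‖ + Bk + 3) := by
  have hm0 : 0 ≤ T.E M' := T.E_nonneg hM
  have hk0 : 0 ≤ T.kap M' Z := kap_nonneg hM hZ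
  have hmR : T.IsRA (T.E M') := ⟨T.E_mem _, IsSelfAdjoint.of_nonneg hm0⟩
  have hkR : T.IsRA (T.kap M' Z) := ⟨kap_mem _ _, IsSelfAdjoint.of_nonneg hk0⟩
  have hu1 := abs_le.1 (val_near hau he huj χ h1)
  have hm1 := abs_le.1 (val_near hmR he hmj χ h1)
  have hk1 := abs_le.1 (val_near hkR he hkj χ h1)
  have hu2 := val_nonneg χ hau.mem hu0
  have hm2 := val_nonneg χ hmR.mem hm0
  have hk2 := val_nonneg χ hkR.mem hk0
  have hu3 := (le_abs_self _).trans (hau.abs_val_le χ)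
  have hm3 := (le_abs_self _).trans (hmR.abs_val_le χ)
  have hk3 := (le_abs_self _).trans (hkR.abs_val_le χ)
  refine ⟨le_min (by linarith [le_max_left uj 0]) (by linarith), ?_⟩
  rw [val_rad hM hZ]
  set x := T.val χ (T.kap M' Z)
  set y := T.val χ (T.E M')
  have e1 : Real.sqrt ((max mj 0 + η) * (max kj 0 + η)) ≤ Real.sqrt (x * y) + d :=
    sqrt_stair hk2 hm2 hη0 hhη hd0.le (max_le (by linarith) (by linarith))
      (max_le (by linarith) (by linarith)) (le_max_right _ _) (le_max_right _ _)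
      (by linarith) hηB
  have e2 : min (max uj 0 + h) (‖u‖ + 2) ≤ T.val χ u + d := by
    refine (min_le_left _ _).trans ?_
    have : max uj 0 ≤ T.val χ u + h := max_le (by linarith) (by linarith)
    linarith
  have e3 : Real.sqrt (x * y) ≤ Bk := by
    rw [Real.sqrt_le_iff]
    refine ⟨by linarith [norm_nonneg (T.kap M' Z), norm_nonneg (T.E M')], ?_⟩
    calc x * y ≤ ‖T.kap M' Z‖ * ‖T.E M'‖ := mul_le_mul hk3 hm3 hm2 (norm_nonneg _)
      _ ≤ Bk * Bk := mul_le_mul (by linarith [norm_nonneg (T.E M')])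
          (by linarith [norm_nonneg (T.kap M' Z)]) (norm_nonneg _)
          (by linarith [norm_nonneg (T.kap M' Z), norm_nonneg (T.E M')])
      _ = _ := by ring
  refine (mul_le_mul e2 e1 (Real.sqrt_nonneg _) (by linarith)).trans ?_
  nlinarith [mul_le_mul_of_nonneg_left hd1 hd0.le]

/-- The bound on one sufficiently fine partition. -/
lemma sharp_omSum {M' Z : M} (hM : 0 ≤ M') (hZ : 0 ≤ Z) (h1 : M' * Z = 1) (h2 : Z * M' = 1)
    {u a : M} (hu : T.IsRA u) (hu0 : 0 ≤ u) (ha : T.IsRA a) (ha0 : 0 ≤ a)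
    {h η d Bk : ℝ} (hη0 : 0 < η) (hη1 : η ≤ 1) (hh0 : 0 < h) (hhη : h ≤ η)
    (hhd : h ≤ d / 2) (hd1 : d ≤ 1) (hd0 : 0 < d) (hBk : ‖T.kap M' Z‖ + ‖T.E M'‖ + 2 ≤ Bk)
    (hηB : η * (5 * Bk) ≤ d ^ 2) (P : T.Part) {mj kj uj : Fin P.n → ℝ}
    (hmj : ∀ j, ‖(T.E M' - mj j • 1) * P.e j‖ ≤ h)
    (hkj : ∀ j, ‖(T.kap M' Z - kj j • 1) * P.e j‖ ≤ h)
    (huj : ∀ j, ‖(u - uj j • 1) * P.e j‖ ≤ h)
    (hpm : T.n2 (pinch P M' - T.E M') ^ 2 ≤ h)
    (hpk : T.n2 (pinch P (T.offK M' Z) - T.kap M' Z) ^ 2 ≤ h) :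
    (T.omSum P (T.mul u * (T.phi0 M' * T.mul a * T.phi0 M'))).re ≤
      T.tr (a * T.rad M' Z * T.phi0A M' (u * T.rad M' Z)) +
        d * (‖u‖ + Bk + 3) * T.tr (a * T.rad M' Z * T.phi0A M' 1) +
        (‖u‖ + 2) * (‖a‖ * (2 * ‖M'‖) ^ 2) *
          (((2 * ‖M'‖) ^ 2 * ‖Z‖ * ((η ^ 2)⁻¹ * ‖M'‖) +
            ‖M'‖ * ((η ^ 2)⁻¹ * (‖Z‖ * (2 * ‖M'‖) ^ 2))) * (10 * h)) := by
  have hMs := IsSelfAdjoint.of_nonneg hM
  have hm0 : 0 ≤ T.E M' := T.E_nonneg hM
  have hk0 : 0 ≤ T.kap M' Z := kap_nonneg hM hZ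
  have hmR : T.IsRA (T.E M') := ⟨T.E_mem _, IsSelfAdjoint.of_nonneg hm0⟩
  have hkR : T.IsRA (T.kap M' Z) := ⟨kap_mem _ _, IsSelfAdjoint.of_nonneg hk0⟩
  have hr : T.IsRA (T.rad M' Z) := isRA_rad _ _
  have har : 0 ≤ a * T.rad M' Z := mul_nonneg_A ha.mem hr.mem ha0 rad_nonneg
  have hEA : ∀ j, T.IsRA (P.e j) := fun j => isRA_of_proj (P.mem j) (P.proj j)
  rw [omSum_square_eq P M' hu.mem ha.mem]
  choose R hR using fun j => exists_piece_le (T := T) hM hZ h1 h2 P j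
    (le_max_right (mj j) 0) (le_max_right (kj j) 0) hη0
  have hck := fun j => sharp_coef (T := T) hM hZ hu hu0 (hEA j) hη0 hη1 hh0 hhη hhd hd1 hd0 hBk
    hηB (huj j) (hmj j) (hkj j)
  have hstep : ∀ j, T.tr (T.phi0A M' (P.e j * u) * (a * T.phi0A M' (P.e j))) ≤
      min (max (uj j) 0 + h) (‖u‖ + 2) * Real.sqrt ((max (mj j) 0 + η) * (max (kj j) 0 + η)) *
        T.tr (a * T.rad M' Z * T.phi0A M' (P.e j)) +
        (‖u‖ + 2) * (‖a‖ * (2 * ‖M'‖) ^ 2) * T.tr (R j) := fun j => by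
    obtain ⟨hR1, hR2, hR3, -⟩ := hR j
    refine sharp_step hMs hu ha ha0 hr hR1 hR2 P j
      (le_min (add_nonneg (le_max_right _ _) hh0.le) (by positivity)) (min_le_right _ _)
      (fun χ h1 => (hck j χ h1).1) ?_
    refine (show T.IsRA _ from ⟨phi0A_mem _ _, phi0A_isSelfAdjoint hMs (P.proj j).isSelfAdjoint⟩
      ).le_of_val ((hr.smul _).add hR1) fun χ => ?_
    rw [(hr.smul _).val_add χ hR1, hr.val_smul, val_rad hM hZ]
    refine (hR3 χ).trans (le_of_eq ?_)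
    rw [Real.sqrt_mul (mul_nonneg (add_nonneg (le_max_right _ _) hη0.le)
      (add_nonneg (le_max_right _ _) hη0.le))]
  refine (Finset.sum_le_sum fun j _ => hstep j).trans ?_
  rw [Finset.sum_add_distrib, ← Finset.mul_sum]
  refine add_le_add (sharp_main hMs hu hr har P _ fun j χ h1 => (hck j χ h1).2)
    (mul_le_mul_of_nonneg_left ?_ (by positivity))
  refine (Finset.sum_le_sum fun j _ => (hR j).2.2.2).trans ?_
  have hh1 : h ≤ 1 := hhη.trans hη1
  set A1 := (2 * ‖M'‖) ^ 2 * ‖Z‖ * ((η ^ 2)⁻¹ * ‖M'‖) with hA1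
  set A2 := ‖M'‖ * ((η ^ 2)⁻¹ * (‖Z‖ * (2 * ‖M'‖) ^ 2)) with hA2
  have hA10 : 0 ≤ A1 := by rw [hA1]; positivity
  have hA20 : 0 ≤ A2 := by rw [hA2]; positivity
  refine le_trans (Finset.sum_le_sum (g := fun j =>
    A1 * T.n2 (P.e j * M' * P.e j - max (mj j) 0 • P.e j) ^ 2 +
    A2 * T.n2 (P.e j * T.offK M' Z * P.e j - max (kj j) 0 • P.e j) ^ 2)
      fun j _ => le_of_eq (by rw [hA1, hA2]; ring)) ?_
  rw [Finset.sum_add_distrib, ← Finset.mul_sum, ← Finset.mul_sum, add_mul]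
  exact add_le_add
    (mul_le_mul_of_nonneg_left (sum_n2_le P mj hh0 hh1 hmR hm0 hmj hpm) hA10)
    (mul_le_mul_of_nonneg_left (sum_n2_le P kj hh0 hh1 hkR hk0 hkj hpk) hA20)

/-- The sharp bound for the diagonal of `Φ° a Φ°`. -/
lemma omr_square_sharp {M' Z : M} (hM : 0 ≤ M') (hZ : 0 ≤ Z) (h1 : M' * Z = 1) (h2 : Z * M' = 1)
    {u a : M} (hu : u ∈ T.A) (hu0 : 0 ≤ u) (ha : a ∈ T.A) (ha0 : 0 ≤ a) :
    T.omr (T.mul u * (T.phi0 M' * T.mul a * T.phi0 M')) ≤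
      T.tr (u * (T.rad M' Z * T.phi0A M' (T.rad M' Z * a))) := by
  set m := T.E M' with hm_def
  set kp := T.kap M' Z with hkp_def
  set r := T.rad M' Z with hr_def
  have hMs := IsSelfAdjoint.of_nonneg hM
  have hm0 : 0 ≤ m := T.E_nonneg hM
  have hk0 : 0 ≤ kp := kap_nonneg hM hZ
  have hmR : T.IsRA m := ⟨T.E_mem _, IsSelfAdjoint.of_nonneg hm0⟩
  have hkR : T.IsRA kp := ⟨kap_mem _ _, IsSelfAdjoint.of_nonneg hk0⟩
  have hr : T.IsRA r := isRA_rad _ _
  have hau : T.IsRA u := ⟨hu, IsSelfAdjoint.of_nonneg hu0⟩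
  have haa : T.IsRA a := ⟨ha, IsSelfAdjoint.of_nonneg ha0⟩
  have har : 0 ≤ a * r := mul_nonneg_A ha hr.mem ha0 rad_nonneg
  have htarget : T.tr (u * (r * T.phi0A M' (r * a))) = T.tr (a * r * T.phi0A M' (u * r)) := by
    rw [← mul_assoc, tr_phi0A_symm M' (mul_mem hu hr.mem) (mul_mem hr.mem ha), T.tr_comm,
      T.A_comm r hr.mem a ha]
  rw [htarget]
  refine le_of_forall_pos_le_add fun δ hδ => ?_
  set φ1 := T.tr (a * r * T.phi0A M' 1)
  have hφ1 : 0 ≤ φ1 :=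
    T.tr_nonneg (mul_nonneg_A (mul_mem ha hr.mem) (phi0A_mem _ _) har
      (phi0A_nonneg hMs zero_le_one))
  set Bk := ‖kp‖ + ‖m‖ + 2 with hBk
  have hBk0 : 0 < Bk := by positivity
  set d : ℝ := min 1 (δ / (3 * ((‖u‖ + Bk + 3) * φ1 + 1))) with hd
  have hd0 : 0 < d := lt_min one_pos (by positivity)
  set η : ℝ := min 1 (d ^ 2 / (5 * Bk)) with hη
  have hη0 : 0 < η := lt_min one_pos (by positivity)
  have hηB : η * (5 * Bk) ≤ d ^ 2 := (le_div_iff₀ (by positivity)).1 (min_le_right _ _)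
  set Cu := ‖u‖ + 2 with hCu
  set K1 := (2 * ‖M'‖) ^ 2 * ‖Z‖ * ((η ^ 2)⁻¹ * ‖M'‖) with hK1
  set K3 := ‖M'‖ * ((η ^ 2)⁻¹ * (‖Z‖ * (2 * ‖M'‖) ^ 2)) with hK3
  set K2 := Cu * (‖a‖ * (2 * ‖M'‖) ^ 2) with hK2
  have hK2' : 0 ≤ K2 := by positivity
  have hK13 : 0 ≤ K1 + K3 := by positivity
  set h : ℝ := min η (min (d / 2) (δ / (3 * 10 * (K2 * (K1 + K3) + 1)))) with hh
  have hh0 : 0 < h := lt_min hη0 (lt_min (by positivity) (by positivity))
  have hhη : h ≤ η := min_le_left _ _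
  have hhd : h ≤ d / 2 := (min_le_right _ _).trans (min_le_left _ _)
  have hη1 : η ≤ 1 := min_le_left _ _
  have hd1 : d ≤ 1 := min_le_left _ _
  have hp1 : ∀ᶠ P : T.Part in atTop, T.n2 (pinch P M' - m) ^ 2 ≤ h := by
    have h1 : Tendsto (fun P : T.Part => T.n2 (pinch P M' - m) ^ 2) atTop (𝓝 0) := by
      simpa using (T.tends_E M').pow 2
    exact h1.eventually (ge_mem_nhds hh0)
  have hp2 : ∀ᶠ P : T.Part in atTop, T.n2 (pinch P (T.offK M' Z) - kp) ^ 2 ≤ h := by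
    have h1 : Tendsto (fun P : T.Part => T.n2 (pinch P (T.offK M' Z) - kp) ^ 2) atTop (𝓝 0) := by
      simpa [hkp_def, kap] using (T.tends_E (T.offK M' Z)).pow 2
    exact h1.eventually (ge_mem_nhds hh0)
  have hev : ∀ᶠ P : T.Part in atTop,
      (T.omSum P (T.mul u * (T.phi0 M' * T.mul a * T.phi0 M'))).re ≤
        T.tr (a * r * T.phi0A M' (u * r)) + δ := by
    filter_upwards [eventually_staircase hmR.mem hmR.sa hh0, eventually_staircase hkR.mem hkR.sa hh0,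
      eventually_staircase hu hau.sa hh0, hp1, hp2] with P ⟨mj, hmj⟩ ⟨kj, hkj⟩ ⟨uj, huj⟩ hpm hpk
    refine (sharp_omSum hM hZ h1 h2 hau hu0 haa ha0 hη0 hη1 hh0 hhη hhd hd1 hd0 le_rfl hηB P
      hmj hkj huj hpm hpk).trans ?_
    have e1 : d * (3 * ((‖u‖ + Bk + 3) * φ1 + 1)) ≤ δ :=
      (le_div_iff₀ (by positivity)).1 (min_le_right _ _)
    have e2 : h * (3 * 10 * (K2 * (K1 + K3) + 1)) ≤ δ :=
      (le_div_iff₀ (by positivity)).1 ((min_le_right _ _).trans (min_le_right _ _))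
    rw [← hBk, ← hK1, ← hK3, ← hCu, ← hK2]
    linarith
  refine le_of_tendsto (((Complex.continuous_re.tendsto _).comp (T.tendsto_om _))) ?_
  exact hev.filter_mono T.uf_le

end TracialMasa

end Vale.Agent.P078
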