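import Mathlib
import Vale.Agent.P078.Sharp.OffDiag

/-!
# The sharp diagonal bound in the variables of the cavity

For `s ∈ A` with square `F`, `Y = U G U` with `G` inverse to `H`, and `D = H + U F U` with inverse
`Di`, the elements `cavM = 1 + s Y s` and `cavZ = 1 - s U Di U s` are inverse to each other.
-/

open scoped ComplexOrder InnerProductSpace Topology
open Filter

namespace Vale.Agent.P078

universe u

variable {M : Type u} [CStarAlgebra M] [PartialOrder M] [StarOrderedRing M]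

/-- `1 + s U G U s`. -/
def cavM (s U G : M) : M := 1 + s * (U * G * U) * s

/-- `1 - s U Di U s`. -/
def cavZ (s U Di : M) : M := 1 - s * (U * Di * U) * s

omit [PartialOrder M] [StarOrderedRing M] in
/-- The Woodbury identity. -/
lemma cavM_mul_cavZ {s U G H D Di : M} (hG : G * H = 1) (hD : D * Di = 1)
    (hHD : D - H = U * (s * s) * U) : cavM s U G * cavZ s U Di = 1 := by
  have e : G * (U * (s * s) * U) * Di = G - Di := by
    rw [← hHD, mul_sub, sub_mul, mul_assoc, hD, mul_one, hG, one_mul]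
  calc cavM s U G * cavZ s U Di
      = 1 + s * (U * (G - Di - G * (U * (s * s) * U) * Di) * U) * s := by
        rw [cavM, cavZ]; noncomm_ring
    _ = 1 := by rw [e, sub_self, mul_zero, zero_mul, mul_zero, zero_mul, add_zero]

omit [PartialOrder M] [StarOrderedRing M] in
lemma cavZ_mul_cavM {s U G H D Di : M} (hG : H * G = 1) (hD : Di * D = 1)
    (hHD : D - H = U * (s * s) * U) : cavZ s U Di * cavM s U G = 1 := by
  have e : Di * (U * (s * s) * U) * G = G - Di := by
    rw [← hHD, mul_sub, sub_mul, mul_assoc Di H G, hG, mul_one, hD, one_mul]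
  calc cavZ s U Di * cavM s U G
      = 1 + s * (U * (G - Di - Di * (U * (s * s) * U) * G) * U) * s := by
        rw [cavM, cavZ]; noncomm_ring
    _ = 1 := by rw [e, sub_self, mul_zero, zero_mul, mul_zero, zero_mul, add_zero]

lemma cavM_nonneg {s U G : M} (hs : IsSelfAdjoint s) (hU : IsSelfAdjoint U) (hG : 0 ≤ G) :
    0 ≤ cavM s U G :=
  add_nonneg zero_le_one (hs.conjugate_nonneg (hU.conjugate_nonneg hG))

omit [PartialOrder M] [StarOrderedRing M] in
lemma isSelfAdjoint_cavZ {s U Di : M} (hs : IsSelfAdjoint s) (hU : IsSelfAdjoint U)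
    (hD : IsSelfAdjoint Di) : IsSelfAdjoint (cavZ s U Di) :=
  (IsSelfAdjoint.one M).sub
    (IsSelfAdjoint.conjugate_self (IsSelfAdjoint.conjugate_self hD hU) hs)

/-- A self-adjoint inverse of a positive element is positive. -/
lemma nonneg_of_inverse {M' Z : M} (hM : 0 ≤ M') (hZ : IsSelfAdjoint Z) (h : Z * M' = 1) :
    0 ≤ Z := by
  have := hZ.conjugate_nonneg hM
  rwa [h, one_mul] at this

/-- `1 - R ≤ (1 + R)⁻¹`. -/
lemma one_sub_le_inv {R Di : M} (hR : 0 ≤ R) (hDi : 0 ≤ Di) (h1 : (1 + R) * Di = 1)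
    (h2 : Di * (1 + R) = 1) : 1 - R ≤ Di := by
  have hc : Di * R = R * Di := by
    rw [add_mul, one_mul] at h1
    rw [mul_add, mul_one] at h2
    exact add_left_cancel (h2.trans h1.symm)
  have e : Di - (1 - R) = R * Di * R := by
    calc Di - (1 - R) = Di - Di * (1 + R) * (1 - R) := by rw [h2, one_mul]
      _ = Di * R * R := by noncomm_ring
      _ = _ := by rw [hc]
  rw [← sub_nonneg, e]
  exact (IsSelfAdjoint.of_nonneg hR).conjugate_nonneg hDi

namespace TracialMasa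

variable {T : TracialMasa M}

lemma E_cavM {s : M} (hs : s ∈ T.A) (U G : M) :
    T.E (cavM s U G) = 1 + s * s * T.E (U * G * U) := by
  rw [cavM, T.E_add, T.E_of_mem (one_mem _), T.E_mul_right _ hs, T.E_mul_left hs,
    mul_assoc, T.A_comm _ (T.E_mem _) s hs, ← mul_assoc]

/-- The expectation of `cavZ` is at most `1 - F + F E (U R U)`. -/
lemma E_cavZ_le {s U R Di : M} (hs : T.IsRA s) (hU : IsSelfAdjoint U) (hR : 0 ≤ R)
    (hDi : 0 ≤ Di) (h1 : (1 + R) * Di = 1) (h2 : Di * (1 + R) = 1) (hEU : T.E (U * U) = 1) :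
    T.E (cavZ s U Di) ≤ 1 - s * s + s * s * T.E (U * R * U) := by
  have h : cavZ s U Di ≤ 1 - s * (U * U - U * R * U) * s := by
    refine sub_le_sub le_rfl (hs.sa.conjugate_le_conjugate ?_)
    have := hU.conjugate_le_conjugate (one_sub_le_inv hR hDi h1 h2)
    rwa [mul_sub, mul_one, sub_mul] at this
  have h' := T.E_nonneg (sub_nonneg.2 h)
  rw [T.E_sub, sub_nonneg] at h'
  refine h'.trans_eq ?_
  rw [T.E_sub, T.E_of_mem (one_mem _), T.E_mul_right _ hs.mem, T.E_mul_left hs.mem, T.E_sub, hEU,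
    mul_sub, sub_mul, mul_one, mul_assoc s (T.E (U * R * U)) s,
    T.A_comm _ (T.E_mem _) s hs.mem, ← mul_assoc]
  abel

lemma phi0_cavM {s : M} (hs : T.IsRA s) (U G : M) :
    T.phi0 (cavM s U G) = T.mul (s * s) * T.phi0 (U * G * U) * T.mul (s * s) := by
  set Y := U * G * U with hY
  have hsA := hs.mem
  have e : cavM s U G - T.E (cavM s U G) = s * (Y - T.E Y) * s := by
    rw [E_cavM hsA, cavM, ← hY, mul_sub, sub_mul, mul_assoc s (T.E Y) s,
      T.A_comm _ (T.E_mem _) s hsA]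
    simp only [← mul_assoc]
    abel
  have hss : s * s ∈ T.A := mul_mem hsA hsA
  refine T.op_ext fun a ha => ?_
  set X := Y - T.E Y
  rw [phi0, e, phi0, T.Phi_iota _ _ ha, mul_apply_eq_comp, mul_apply_eq_comp,
    T.mul_iota hss ha, T.Phi_iota _ _ (mul_mem hss ha), T.mul_iota hss (T.E_mem _)]
  congr 1
  rw [show s * X * s * a * (s * X * s) = s * (X * (s * a * s) * X) * s by noncomm_ring,
    T.E_mul_right _ hsA, T.E_mul_left hsA, mul_assoc s (T.E _) s, T.A_comm _ (T.E_mem _) s hsA,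
    ← mul_assoc, show s * a * s = s * s * a by rw [mul_assoc, T.A_comm a ha s hsA, ← mul_assoc]]

lemma phi0A_cavM {s : M} (hs : T.IsRA s) (U G : M) {a : M} (ha : a ∈ T.A) :
    T.phi0A (cavM s U G) a = s * s * T.phi0A (U * G * U) (s * s * a) := by
  set Y := U * G * U with hY
  have hsA := hs.mem
  have e : cavM s U G - T.E (cavM s U G) = s * (Y - T.E Y) * s := by
    rw [E_cavM hsA, cavM, ← hY, mul_sub, sub_mul, mul_assoc s (T.E Y) s,
      T.A_comm _ (T.E_mem _) s hsA]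
    simp only [← mul_assoc]
    abel
  rw [phi0A, e, phi0A]
  set X := Y - T.E Y
  rw [show s * X * s * a * (s * X * s) = s * (X * (s * a * s) * X) * s by noncomm_ring,
    T.E_mul_right _ hsA, T.E_mul_left hsA, mul_assoc s (T.E _) s, T.A_comm _ (T.E_mem _) s hsA,
    ← mul_assoc, show s * a * s = s * s * a by rw [mul_assoc, T.A_comm a ha s hsA, ← mul_assoc]]

/-- The sharp diagonal bound in the cavity variables: if `rad ≤ v F` on the supports of the
positive elements `f`, `b` of the MASA, where `F = s²` has the inverse `Fi`, then the diagonal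
of `Φ° b Φ°` for `Y = U G U` is at most `v Φ°(v b)`. -/
lemma omr_square_cavity (hT : T.OmCyclic) {s U G H D Di : M} (hs : T.IsRA s)
    (hU : IsSelfAdjoint U) (hG0 : 0 ≤ G) (hDis : IsSelfAdjoint Di)
    (hG : G * H = 1) (hG' : H * G = 1) (hD : D * Di = 1) (hD' : Di * D = 1)
    (hHD : D - H = U * (s * s) * U)
    {f b Fi v : M} (hf : T.IsRA f) (hf0 : 0 ≤ f) (hb : T.IsRA b) (hb0 : 0 ≤ b)
    (hFi : T.IsRA Fi) (hv : T.IsRA v) (hfF : f * (Fi * (s * s)) = f)
    (hbF : b * (Fi * (s * s)) = b)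
    (hvf : ∀ χ : T.Chi, T.val χ f ≠ 0 →
      T.val χ (T.rad (cavM s U G) (cavZ s U Di)) ≤ T.val χ v * T.val χ (s * s))
    (hvb : ∀ χ : T.Chi, T.val χ b ≠ 0 →
      T.val χ (T.rad (cavM s U G) (cavZ s U Di)) ≤ T.val χ v * T.val χ (s * s)) :
    T.omr (T.mul f * (T.phi0 (U * G * U) * T.mul b * T.phi0 (U * G * U))) ≤
      T.tr (f * (v * T.phi0A (U * G * U) (v * b))) := by
  set Y := U * G * U with hY
  set F := s * s with hF_def
  set r := T.rad (cavM s U G) (cavZ s U Di) with hr_def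
  have hF : T.IsRA F := hs.mul hs
  have hr : T.IsRA r := isRA_rad _ _
  have hr0 : 0 ≤ r := rad_nonneg
  have hM0 := cavM_nonneg hs.sa hU hG0
  have hZs := isSelfAdjoint_cavZ hs.sa hU hDis
  have hMZ : cavM s U G * cavZ s U Di = 1 := cavM_mul_cavZ hG hD hHD
  have hZM : cavZ s U Di * cavM s U G = 1 := cavZ_mul_cavM hG' hD' hHD
  have hZ0 := nonneg_of_inverse hM0 hZs hZM
  set f' := f * (Fi * Fi) with hf'_def
  set b' := b * (Fi * Fi) with hb'_def
  have hf' : T.IsRA f' := hf.mul (hFi.mul hFi)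
  have hb' : T.IsRA b' := hb.mul (hFi.mul hFi)
  have hnn : ∀ {x : M}, T.IsRA x → 0 ≤ x → 0 ≤ x * (Fi * Fi) := fun {x} hx hx0 =>
    (hx.mul (hFi.mul hFi)).nonneg_of_val fun χ => by
      rw [hx.val_mul χ (hFi.mul hFi), hFi.val_mul χ hFi]
      exact mul_nonneg (val_nonneg χ hx.mem hx0) (mul_self_nonneg _)
  have hsharp := omr_square_sharp (T := T) hM0 hZ0 hMZ hZM hf'.mem (hnn hf hf0) hb'.mem
    (hnn hb hb0)
  have hcancel : ∀ {x : M}, T.IsRA x → x * (Fi * F) = x → F * (x * (Fi * Fi)) * F = x :=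
    fun {x} hx h => by
      refine ((hF.mul (hx.mul (hFi.mul hFi))).mul hF).eq_of_val hx fun χ => ?_
      have h' := congrArg (T.val χ) h
      rw [hx.val_mul χ (hFi.mul hF), hFi.val_mul χ hF] at h'
      rw [(hF.mul (hx.mul (hFi.mul hFi))).val_mul χ hF, hF.val_mul χ (hx.mul (hFi.mul hFi)),
        hx.val_mul χ (hFi.mul hFi), hFi.val_mul χ hFi]
      calc _ = T.val χ x * (T.val χ Fi * T.val χ F) * (T.val χ Fi * T.val χ F) := by ring
        _ = _ := by rw [h', h']
  have hlhs : T.omr (T.mul f' * (T.phi0 (cavM s U G) * T.mul b' * T.phi0 (cavM s U G))) =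
      T.omr (T.mul f * (T.phi0 Y * T.mul b * T.phi0 Y)) := by
    rw [phi0_cavM hs, ← hY, ← hF_def]
    have e1 : T.mul F * T.mul b' * T.mul F = T.mul b := by
      rw [← T.mul_mul' hF.mem hb'.mem, ← T.mul_mul' (mul_mem hF.mem hb'.mem) hF.mem,
        hcancel hb hbF]
    have e2 : T.mul F * (T.mul f' * T.mul F) = T.mul f := by
      rw [← mul_assoc, ← T.mul_mul' hF.mem hf'.mem, ← T.mul_mul' (mul_mem hF.mem hf'.mem) hF.mem,
        hcancel hf hfF]
    calc _ = T.omr ((T.mul f' * T.mul F * (T.phi0 Y * T.mul b * T.phi0 Y)) * T.mul F) := by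
          rw [← e1]; simp only [mul_assoc]
      _ = T.omr (T.mul F * (T.mul f' * T.mul F * (T.phi0 Y * T.mul b * T.phi0 Y))) :=
          omr_mul_comm hT (mul_mem (mul_mem (T.mul_mem_opAlg _) (T.mul_mem_opAlg _))
            (mul_mem (mul_mem (phi0_mem _) (T.mul_mem_opAlg _)) (phi0_mem _))) (T.mul_mem_opAlg _)
      _ = _ := by rw [← mul_assoc, e2]
  rw [hlhs] at hsharp
  refine hsharp.trans ?_
  rw [← hr_def, phi0A_cavM hs U G (mul_mem hr.mem hb'.mem), ← hY]
  have hYs : IsSelfAdjoint Y := IsSelfAdjoint.conjugate_self (IsSelfAdjoint.of_nonneg hG0) hU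
  have hrb : T.IsRA (F * (r * b')) := hF.mul (hr.mul hb')
  have hvb' : T.IsRA (v * b) := hv.mul hb
  have h2 : F * (r * b') ≤ v * b := by
    refine hrb.le_of_val hvb' fun χ => ?_
    rw [hF.val_mul χ (hr.mul hb'), hr.val_mul χ hb', hv.val_mul χ hb, hb'_def,
      hb.val_mul χ (hFi.mul hFi), hFi.val_mul χ hFi]
    by_cases h0 : T.val χ b = 0
    · simp [h0]
    have h' := congrArg (T.val χ) hbF
    rw [hb.val_mul χ (hFi.mul hF), hFi.val_mul χ hF] at h'
    have h1 : T.val χ Fi * T.val χ F = 1 := mul_left_cancel₀ h0 (by rw [h', mul_one])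
    calc T.val χ F * (T.val χ r * (T.val χ b * (T.val χ Fi * T.val χ Fi)))
        = T.val χ r * T.val χ Fi * T.val χ b * (T.val χ Fi * T.val χ F) := by ring
      _ ≤ T.val χ v * T.val χ F * T.val χ Fi * T.val χ b * (T.val χ Fi * T.val χ F) := by
          rw [h1, mul_one, mul_one]
          refine mul_le_mul_of_nonneg_right (mul_le_mul_of_nonneg_right (hvb χ h0) ?_)
            (val_nonneg χ hb.mem hb0)
          have hF0 : 0 ≤ T.val χ F := by
            rw [hF_def, hs.val_mul χ hs]; exact mul_self_nonneg _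
          by_contra hneg
          nlinarith [h1]
      _ = T.val χ v * T.val χ b * (T.val χ Fi * T.val χ F) * (T.val χ Fi * T.val χ F) := by ring
      _ = _ := by rw [h1, mul_one, mul_one]
  have hP0 : 0 ≤ T.phi0A Y (F * (r * b')) := by
    refine phi0A_nonneg hYs (hrb.nonneg_of_val fun χ => ?_)
    rw [hF.val_mul χ (hr.mul hb'), hr.val_mul χ hb', hF_def, hs.val_mul χ hs]
    exact mul_nonneg (mul_self_nonneg _) (mul_nonneg (val_nonneg χ hr.mem hr0)
      (val_nonneg χ hb'.mem (hnn hb hb0)))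
  have hPA : T.phi0A Y (F * (r * b')) ∈ T.A := phi0A_mem _ _
  have hPR : T.IsRA (T.phi0A Y (F * (r * b'))) := ⟨hPA, IsSelfAdjoint.of_nonneg hP0⟩
  have hQR : T.IsRA (T.phi0A Y (v * b)) := ⟨phi0A_mem _ _, phi0A_isSelfAdjoint hYs hvb'.sa⟩
  refine T.tr_mono ((hf'.mul (hr.mul (hF.mul hPR))).le_of_val
    (hf.mul (hv.mul hQR)) fun χ => ?_)
  rw [hf'.val_mul χ (hr.mul (hF.mul hPR)), hr.val_mul χ (hF.mul hPR), hF.val_mul χ hPR,
    hf.val_mul χ (hv.mul hQR), hv.val_mul χ hQR, hf'_def, hf.val_mul χ (hFi.mul hFi),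
    hFi.val_mul χ hFi]
  by_cases h0 : T.val χ f = 0
  · simp [h0]
  have h' := congrArg (T.val χ) hfF
  rw [hf.val_mul χ (hFi.mul hF), hFi.val_mul χ hF] at h'
  have h1 : T.val χ Fi * T.val χ F = 1 := mul_left_cancel₀ h0 (by rw [h', mul_one])
  have hF0 : 0 ≤ T.val χ F := by rw [hF_def, hs.val_mul χ hs]; exact mul_self_nonneg _
  have hFi0 : 0 ≤ T.val χ Fi := by
    by_contra hneg
    nlinarith [h1]
  have hPQ := val_mono χ hPA hQR.mem (phi0A_mono (T := T) hYs h2)
  have hP := val_nonneg χ hPA hP0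
  have hr' : T.val χ r * T.val χ Fi ≤ T.val χ v := by
    calc T.val χ r * T.val χ Fi ≤ T.val χ v * T.val χ F * T.val χ Fi :=
          mul_le_mul_of_nonneg_right (hvf χ h0) hFi0
      _ = T.val χ v * (T.val χ Fi * T.val χ F) := by ring
      _ = _ := by rw [h1, mul_one]
  calc T.val χ f * (T.val χ Fi * T.val χ Fi) *
        (T.val χ r * (T.val χ F * T.val χ (T.phi0A Y (F * (r * b')))))
      = T.val χ f * ((T.val χ r * T.val χ Fi) * (T.val χ Fi * T.val χ F) *
          T.val χ (T.phi0A Y (F * (r * b')))) := by ring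
    _ ≤ _ := by
      rw [h1, mul_one]
      refine mul_le_mul_of_nonneg_left (mul_le_mul hr' hPQ hP ?_) (val_nonneg χ hf.mem hf0)
      exact (mul_nonneg (val_nonneg χ hr.mem hr0) hFi0).trans hr'

/-- The value of `κ` in the cavity variables: with `t = E (U G U)`, `ρ = E (U R U)`, the
cavity value is at least `1 - ρ` and `κ ≤ F (1 + F t) (t - (1 - ρ) (1 + F t))`. -/
lemma val_kap_cavity {s U R G H D Di : M} (hs : T.IsRA s) (hU : IsSelfAdjoint U) (hR : 0 ≤ R)
    (hG0 : 0 ≤ G) (hDi0 : 0 ≤ Di)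
    (hG : G * H = 1) (hG' : H * G = 1) (hD : D * Di = 1) (hD' : Di * D = 1)
    (hDR : D = 1 + R) (hHD : D - H = U * (s * s) * U) (hEU : T.E (U * U) = 1) (χ : T.Chi) :
    let F := T.val χ (s * s)
    let t := T.val χ (T.E (U * G * U))
    let ρ := T.val χ (T.E (U * R * U))
    T.val χ (T.E (cavM s U G)) = 1 + F * t ∧
      0 ≤ F * (t - (1 - ρ) * (1 + F * t)) ∧
      T.val χ (T.kap (cavM s U G) (cavZ s U Di)) ≤
        F * (1 + F * t) * (t - (1 - ρ) * (1 + F * t)) := by
  intro F t ρ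
  have hM0 := cavM_nonneg hs.sa hU hG0
  have hZs := isSelfAdjoint_cavZ hs.sa hU (IsSelfAdjoint.of_nonneg hDi0)
  have hMZ : cavM s U G * cavZ s U Di = 1 := cavM_mul_cavZ hG hD hHD
  have hZM : cavZ s U Di * cavM s U G = 1 := cavZ_mul_cavM hG' hD' hHD
  have hZ0 := nonneg_of_inverse hM0 hZs hZM
  have hF : T.IsRA (s * s) := hs.mul hs
  have ht : T.IsRA (T.E (U * G * U)) :=
    isRA_E (IsSelfAdjoint.conjugate_self (IsSelfAdjoint.of_nonneg hG0) hU)
  have hρ : T.IsRA (T.E (U * R * U)) :=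
    isRA_E (IsSelfAdjoint.conjugate_self (IsSelfAdjoint.of_nonneg hR) hU)
  have hm : T.IsRA (T.E (cavM s U G)) := isRA_E (IsSelfAdjoint.of_nonneg hM0)
  have hz : T.IsRA (T.E (cavZ s U Di)) := isRA_E hZs
  have hmv : T.val χ (T.E (cavM s U G)) = 1 + F * t := by
    rw [E_cavM hs.mem, isRA_one.val_add χ (hF.mul ht), val_one, hF.val_mul χ ht]
  have hzv : T.val χ (T.E (cavZ s U Di)) ≤ 1 - F + F * ρ := by
    have h := E_cavZ_le (T := T) hs hU hR hDi0 (hDR ▸ hD) (hDR ▸ hD') hEU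
    have h' := val_mono χ hz.mem (((isRA_one.sub hF).add (hF.mul hρ))).mem h
    rwa [(isRA_one.sub hF).val_add χ (hF.mul hρ), isRA_one.val_sub χ hF, val_one,
      hF.val_mul χ hρ] at h'
  have hF0 : 0 ≤ F := by
    show 0 ≤ T.val χ (s * s)
    rw [hs.val_mul χ hs]; exact mul_self_nonneg _
  have hm1 : 1 ≤ 1 + F * t := by
    have : 0 ≤ t := val_nonneg χ ht.mem (T.E_nonneg (hU.conjugate_nonneg hG0))
    nlinarith
  have hk : T.val χ (T.kap (cavM s U G) (cavZ s U Di)) =
      (1 + F * t) * ((1 + F * t) * T.val χ (T.E (cavZ s U Di)) - 1) := by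
    rw [kap_eq hMZ hZM, hm.val_mul χ ((hm.mul hz).sub isRA_one),
      (hm.mul hz).val_sub χ isRA_one, hm.val_mul χ hz, val_one, hmv]
  have hk0 := val_nonneg χ (kap_mem (T := T) _ _) (kap_nonneg (T := T) hM0 hZ0)
  have hle : T.val χ (T.kap (cavM s U G) (cavZ s U Di)) ≤
      F * (1 + F * t) * (t - (1 - ρ) * (1 + F * t)) := by
    rw [hk]
    calc (1 + F * t) * ((1 + F * t) * T.val χ (T.E (cavZ s U Di)) - 1)
        ≤ (1 + F * t) * ((1 + F * t) * (1 - F + F * ρ) - 1) :=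
          mul_le_mul_of_nonneg_left (sub_le_sub
            (mul_le_mul_of_nonneg_left hzv (by linarith)) le_rfl) (by linarith)
      _ = _ := by ring
  refine ⟨hmv, ?_, hle⟩
  have h0 : 0 ≤ F * (1 + F * t) * (t - (1 - ρ) * (1 + F * t)) := hk0.trans hle
  by_contra hneg
  have : F * (1 + F * t) * (t - (1 - ρ) * (1 + F * t)) =
      (1 + F * t) * (F * (t - (1 - ρ) * (1 + F * t))) := by ring
  rw [this] at h0
  nlinarith

/-- The value of `rad` in the cavity variables is at most `√σ F u³ᐟ²`, `u = 1 + F t`, as soon as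
the excess `t / u - (1 - ρ)` of the cavity value is at most `σ`. -/
lemma val_rad_cavity {s U R G H D Di : M} (hs : T.IsRA s) (hU : IsSelfAdjoint U) (hR : 0 ≤ R)
    (hG0 : 0 ≤ G) (hDi0 : 0 ≤ Di)
    (hG : G * H = 1) (hG' : H * G = 1) (hD : D * Di = 1) (hD' : Di * D = 1)
    (hDR : D = 1 + R) (hHD : D - H = U * (s * s) * U) (hEU : T.E (U * U) = 1) (χ : T.Chi)
    {σ : ℝ} (hσ : T.val χ (T.E (U * G * U)) ≤ (1 - T.val χ (T.E (U * R * U)) + σ) *
      (1 + T.val χ (s * s) * T.val χ (T.E (U * G * U)))) :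
    T.val χ (T.rad (cavM s U G) (cavZ s U Di)) ≤
      Real.sqrt (σ * T.val χ (s * s) * (1 + T.val χ (s * s) * T.val χ (T.E (U * G * U))) ^ 3) := by
  have hM0 := cavM_nonneg hs.sa hU hG0
  have hZM : cavZ s U Di * cavM s U G = 1 := cavZ_mul_cavM hG' hD' hHD
  have hZ0 := nonneg_of_inverse hM0 (isSelfAdjoint_cavZ hs.sa hU (IsSelfAdjoint.of_nonneg hDi0)) hZM
  obtain ⟨hm, -, hk⟩ := val_kap_cavity hs hU hR hG0 hDi0 hG hG' hD hD' hDR hHD hEU χ
  rw [val_rad hM0 hZ0, hm]
  set F := T.val χ (s * s)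
  set t := T.val χ (T.E (U * G * U))
  have hF0 : 0 ≤ F := by
    show 0 ≤ T.val χ (s * s)
    rw [hs.val_mul χ hs]; exact mul_self_nonneg _
  have ht0 : 0 ≤ t := val_nonneg χ (T.E_mem _) (T.E_nonneg (hU.conjugate_nonneg hG0))
  refine Real.sqrt_le_sqrt ?_
  calc _ ≤ F * (1 + F * t) * (t - (1 - T.val χ (T.E (U * R * U))) * (1 + F * t)) * (1 + F * t) :=
        mul_le_mul_of_nonneg_right hk (by positivity)
    _ ≤ F * (1 + F * t) * (σ * (1 + F * t)) * (1 + F * t) := by
        refine mul_le_mul_of_nonneg_right (mul_le_mul_of_nonneg_left ?_ (by positivity))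
          (by positivity)
        linarith
    _ = _ := by ring

end TracialMasa

end Vale.Agent.P078
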